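import Vale.Agent.P168.CavTrial.Weights
import Vale.Agent.P168.Truncate.Trial
import Mathlib.Probability.Kernel.Representation

/-!
P168, cavity trial: the message of an array, read off a finite regular tree sampled at the root,
and the law of one site it gives to replicas with labels on the nodes of their tree.
-/

open MeasureTheory ProbabilityTheory Finset

noncomputable section

namespace Vale.Agent.P168.CavTrial

variable {K n J : ℕ}

/-- Sites of the finite tree: a path and a copy. -/
abbrev FT (K J : ℕ) : Type := (Fin K → Fin J) × Fin J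

/-- The point of the infinite tree of a point of the finite tree. -/
def emb (q : FT K J) : Pt K := (fun l => (q.1 l : ℕ), (q.2 : ℕ))

/-- The child chosen by a uniform label. -/
def child (hJ : 0 < J) (w : ℝ) : Fin J := ⟨⌊(J : ℝ) * w⌋₊ % J, Nat.mod_lt _ hJ⟩

theorem measurable_child (hJ : 0 < J) : Measurable (child hJ) :=
  (Measurable.of_discrete (f := fun k : ℕ => (⟨k % J, Nat.mod_lt _ hJ⟩ : Fin J))).comp
    (Nat.measurable_floor.comp (measurable_const_mul _))

theorem real_child (hJ : 0 < J) (c : Fin J) : u01.real (child hJ ⁻¹' {c}) = (J : ℝ)⁻¹ := by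
  have hJ' : (0 : ℝ) < J := by exact_mod_cast hJ
  have hae : child hJ ⁻¹' {c} =ᵐ[u01] Set.Ico ((c : ℝ) / J) (((c : ℝ) + 1) / J) := by
    rw [u01]
    have h1 : ∀ᵐ w ∂volume.restrict (Set.Icc (0 : ℝ) 1), w ≠ 1 :=
      ae_restrict_of_ae (Measure.ae_ne volume 1)
    filter_upwards [ae_restrict_mem measurableSet_Icc, h1] with w hw hne
    have h0 : 0 ≤ (J : ℝ) * w := mul_nonneg hJ'.le hw.1
    have hlt : ⌊(J : ℝ) * w⌋₊ < J := (Nat.floor_lt h0).2
      (by nlinarith [lt_of_le_of_ne hw.2 hne])
    refine propext ?_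
    show child hJ w = c ↔ w ∈ Set.Ico _ _
    simp only [child, Fin.ext_iff, Nat.mod_eq_of_lt hlt, Nat.floor_eq_iff h0, Set.mem_Ico,
      div_le_iff₀ hJ', lt_div_iff₀ hJ', mul_comm w]
  have hle : ((c : ℝ) + 1) / J ≤ 1 := (div_le_one hJ').2 (by exact_mod_cast c.isLt)
  rw [measureReal_congr hae, u01, measureReal_restrict_apply measurableSet_Ico,
    Set.inter_eq_left.2 (show Set.Ico ((c : ℝ) / J) (((c : ℝ) + 1) / J) ⊆ Set.Icc 0 1 from
      fun w hw => ⟨le_trans (by positivity) hw.1, hw.2.le.trans hle⟩),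
    measureReal_def, Real.volume_Ico, ENNReal.toReal_ofReal (sub_nonneg.2 (by gcongr; linarith))]
  field_simp
  ring

/-- Spins of the finite tree at one site. -/
def treeLaw (A : Arr K) (J : ℕ) : Measure (FT K J → Bool) := A.law.map fun σ q => σ (emb q) 0

theorem measurable_treeMap : Measurable fun (σ : Pt K → ℕ → Bool) (q : FT K J) => σ (emb q) 0 :=
  measurable_pi_lambda _ fun q => (measurable_pi_apply 0).comp (measurable_pi_apply (emb q))

instance treeLaw_prob (A : Arr K) (J : ℕ) : IsProbabilityMeasure (treeLaw A J) := by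
  have := A.prob
  exact Measure.isProbabilityMeasure_map measurable_treeMap.aemeasurable

theorem exists_dec (A : Arr K) (J : ℕ) :
    ∃ d : ℝ → FT K J → Bool, Measurable d ∧ u01.map d = treeLaw A J := by
  obtain ⟨d, hd, hmap⟩ := (treeLaw A J).exists_measurable_map_eq
  refine ⟨fun w => d (Set.projIcc 0 1 zero_le_one w), hd.comp continuous_projIcc.measurable, ?_⟩
  rw [← hmap, u01, ← map_comap_subtype_coe measurableSet_Icc]
  show Measure.map (d ∘ Set.projIcc 0 1 zero_le_one) _ = _
  rw [Measure.map_map (hd.comp continuous_projIcc.measurable) measurable_subtype_coe]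
  congr 1
  funext w
  simp

/-- The decoder of the root label. -/
def dec (A : Arr K) (J : ℕ) : ℝ → FT K J → Bool := (exists_dec A J).choose

theorem measurable_dec (A : Arr K) (J : ℕ) : Measurable (dec A J) :=
  (exists_dec A J).choose_spec.1

/-- The message: the mean spin of the copies at the leaf chosen by the labels. -/
def xA (A : Arr K) (hJ : 0 < J) (w : Fin (K + 1) → ℝ) : ℝ :=
  (∑ c, sgn (dec A J (w 0) (fun l => child hJ (w l.succ), c))) / J

theorem measurable_xA (A : Arr K) (hJ : 0 < J) : Measurable (xA A hJ) := by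
  refine (Finset.measurable_sum _ fun c _ => ?_).div_const _
  have h1 : Measurable fun w : Fin (K + 1) → ℝ =>
      (dec A J (w 0), fun l : Fin K => child hJ (w l.succ)) :=
    ((measurable_dec A J).comp (measurable_pi_apply 0)).prodMk
      (measurable_pi_lambda _ fun l => (measurable_child hJ).comp (measurable_pi_apply _))
  exact (Measurable.of_discrete
    (f := fun p : (FT K J → Bool) × (Fin K → Fin J) => sgn (p.1 (p.2, c)))).comp h1

theorem xA_mem (A : Arr K) (hJ : 0 < J) (w : Fin (K + 1) → ℝ) :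
    xA A hJ w ∈ Set.Icc (-1 : ℝ) 1 := by
  have hJ' : (0 : ℝ) < J := by exact_mod_cast hJ
  rw [Set.mem_Icc, ← abs_le, xA, abs_div, abs_of_pos hJ', div_le_one hJ']
  exact (Finset.abs_sum_le_sum_abs _ _).trans (le_of_eq (by simp [sgn_abs]))

/-- The trial parameters of an array. -/
def trialParam (A : Arr K) (hJ : 0 < J) : Param K where
  m := P157.Casc.mlev K
  x := xA A hJ
  mono := fun a b h => by
    simp only [P157.Casc.mlev]
    have : ((a : ℕ) : ℝ) < (b : ℕ) := by exact_mod_cast h
    gcongr
  pos := fun p => by simp only [P157.Casc.mlev]; positivity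
  lt_one := fun p => by
    simp only [P157.Casc.mlev]
    rw [div_lt_one (by positivity)]
    have : ((p : ℕ) : ℝ) < K := by exact_mod_cast p.isLt
    linarith
  meas := measurable_xA A hJ
  range := xA_mem A hJ

theorem one_add_xA (A : Arr K) (hJ : 0 < J) (w : Fin (K + 1) → ℝ) (e : Bool) :
    (1 + xA A hJ w * sgn e) / 2 = ∑ c : Fin J,
      (J : ℝ)⁻¹ * if dec A J (w 0) (fun l => child hJ (w l.succ), c) = e then 1 else 0 := by
  have hJ' : (J : ℝ) ≠ 0 := Nat.cast_ne_zero.2 hJ.ne'
  have h : ∀ b : Bool, (if b = e then (1 : ℝ) else 0) = (1 + sgn b * sgn e) / 2 := fun b => by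
    cases b <;> cases e <;> simp [sgn]
  simp only [h, ← Finset.mul_sum, ← Finset.sum_div, Finset.sum_add_distrib, Finset.sum_const,
    Finset.card_univ, Fintype.card_fin, nsmul_eq_mul, ← Finset.sum_mul, xA]
  field_simp

/-- The label of the node of replica `a` at level `l`, as a replica. -/
def rep (U : Lvls K n) (a : Fin n) (l : Fin K) : Fin n :=
  (Finset.univ.filter fun b => (l : ℕ) < (U a b : ℕ)).min.getD a

/-- The weight of spins of the replicas given the labels. -/
def msgProd (A : Arr K) (hJ : 0 < J) (U : Lvls K n) (e : Fin n → Bool) (w0 : ℝ)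
    (ξ : Fin K → Fin n → ℝ) : ℝ :=
  ∏ a, (1 + xA A hJ (Fin.cons w0 fun l => ξ l (rep U a l)) * sgn (e a)) / 2

/-- The law of one site given by the message. -/
def msgLaw (A : Arr K) (hJ : 0 < J) (U : Lvls K n) (e : Fin n → Bool) : ℝ :=
  ∫ w0, ∫ ξ : Fin K → Fin n → ℝ, msgProd A hJ U e w0 ξ
    ∂(Measure.pi fun _ => Measure.pi fun _ => u01) ∂u01

theorem msgProd_mem (A : Arr K) (hJ : 0 < J) (U : Lvls K n) (e : Fin n → Bool) (w0 : ℝ)
    (ξ : Fin K → Fin n → ℝ) : 0 ≤ msgProd A hJ U e w0 ξ ∧ msgProd A hJ U e w0 ξ ≤ 1 := by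
  have h : ∀ a, 0 ≤ (1 + xA A hJ (Fin.cons w0 fun l => ξ l (rep U a l)) * sgn (e a)) / 2 ∧
      (1 + xA A hJ (Fin.cons w0 fun l => ξ l (rep U a l)) * sgn (e a)) / 2 ≤ 1 := fun a => by
    obtain ⟨h1, h2⟩ := xA_mem A hJ (Fin.cons w0 fun l => ξ l (rep U a l))
    cases e a <;> simp only [sgn] <;> constructor <;> norm_num <;> linarith
  exact ⟨Finset.prod_nonneg fun a _ => (h a).1,
    Finset.prod_le_one (fun a _ => (h a).1) fun a _ => (h a).2⟩

theorem sum_msgProd (A : Arr K) (hJ : 0 < J) (U : Lvls K n) (w0 : ℝ) (ξ : Fin K → Fin n → ℝ) :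
    ∑ e, msgProd A hJ U e w0 ξ = 1 := by
  simp only [msgProd]
  rw [← Fintype.prod_sum (fun a b => (1 + xA A hJ (Fin.cons w0 fun l => ξ l (rep U a l)) * sgn b) / 2)]
  exact Finset.prod_eq_one fun a _ => by simp [sgn]; ring

/-- The points of the finite tree of labelled replicas. -/
def spot (U : Lvls K n) (χ : Fin K → Fin n → Fin J) (c : Fin n → Fin J) (a : Fin n) : FT K J :=
  (fun l => χ l (rep U a l), c a)

theorem msgLaw_eq_avg (A : Arr K) (hJ : 0 < J) (U : Lvls K n) (e : Fin n → Bool) :
    msgLaw A hJ U e = ∑ χ : Fin K → Fin n → Fin J, ∑ c : Fin n → Fin J,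
      ((J : ℝ) ^ (K * n + n))⁻¹ * A.law.real {σ | ∀ a, σ (emb (spot U χ c a)) 0 = e a} := by
  have := A.prob
  set g : (Fin K → Fin n → ℝ) → Fin K → Fin n → Fin J := fun ξ l r => child hJ (ξ l r)
  have hg : Measurable g := measurable_pi_lambda _ fun l => measurable_pi_lambda _ fun r =>
    (measurable_child hJ).comp ((measurable_pi_apply r).comp (measurable_pi_apply l))
  set Z : (FT K J → Bool) → (Fin K → Fin n → Fin J) → (Fin n → Fin J) → ℝ := fun s χ c =>
    ∏ a, (J : ℝ)⁻¹ * if s (spot U χ c a) = e a then 1 else 0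
  have hprod : ∀ w0 ξ, msgProd A hJ U e w0 ξ = ∑ c, Z (dec A J w0) (g ξ) c := fun w0 ξ => by
    simp only [msgProd, one_add_xA, Fin.cons_zero, Fin.cons_succ]
    rw [Fintype.prod_sum]
    rfl
  have hχ : ∀ χ : Fin K → Fin n → Fin J,
      ((Measure.pi fun _ : Fin K => Measure.pi fun _ : Fin n => u01).map g).real {χ}
        = ((J : ℝ) ^ (K * n))⁻¹ := fun χ => by
    rw [map_measureReal_apply hg (MeasurableSet.singleton _)]
    have : g ⁻¹' {χ} = Set.univ.pi fun l => Set.univ.pi fun r => child hJ ⁻¹' {χ l r} := by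
      ext ξ; simp [g, funext_iff]
    rw [this, measureReal_def, Measure.pi_pi]
    simp only [Measure.pi_pi, ENNReal.toReal_prod, ← measureReal_def, real_child, Finset.prod_const,
      Finset.card_univ, Fintype.card_fin, inv_pow, ← pow_mul, mul_comm n K]
  have hin : ∀ w0, ∫ ξ : Fin K → Fin n → ℝ, msgProd A hJ U e w0 ξ
      ∂(Measure.pi fun _ => Measure.pi fun _ => u01)
        = ∑ χ, ((J : ℝ) ^ (K * n))⁻¹ * ∑ c, Z (dec A J w0) χ c := fun w0 => by
    simp only [hprod]
    rw [← integral_map (f := fun χ => ∑ c, Z (dec A J w0) χ c) hg.aemeasurable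
      Measurable.of_discrete.aestronglyMeasurable, integral_fintype Integrable.of_finite]
    simp only [hχ, smul_eq_mul]
  rw [msgLaw]
  simp only [hin]
  rw [← integral_map (f := fun s => ∑ χ, ((J : ℝ) ^ (K * n))⁻¹ * ∑ c, Z s χ c)
    (measurable_dec A J).aemeasurable Measurable.of_discrete.aestronglyMeasurable, dec,
    (exists_dec A J).choose_spec.2, integral_finsetSum _ fun χ _ => Integrable.of_finite]
  refine Finset.sum_congr rfl fun χ _ => ?_
  rw [integral_const_mul, integral_finsetSum _ fun c _ => Integrable.of_finite, Finset.mul_sum]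
  refine Finset.sum_congr rfl fun c _ => ?_
  have hZ : (fun s => Z s χ c) = fun s : FT K J → Bool => ((J : ℝ) ^ n)⁻¹ *
      ({s | ∀ a, s (spot U χ c a) = e a} : Set (FT K J → Bool)).indicator 1 s := funext fun s => by
    simp only [Z, Finset.prod_mul_distrib, Finset.prod_const, Finset.card_univ, Fintype.card_fin,
      inv_pow, Finset.prod_boole, Set.indicator_apply, Set.mem_setOf_eq, Pi.one_apply,
      Finset.mem_univ, true_implies]
  rw [hZ, integral_const_mul, integral_indicator_one MeasurableSet.of_discrete, treeLaw,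
    map_measureReal_apply measurable_treeMap MeasurableSet.of_discrete, pow_add, mul_inv, mul_assoc]
  rfl

/-- No two replicas share a child or a copy by accident. -/
def Apart (χ : Fin K → Fin n → Fin J) (c : Fin n → Fin J) : Prop :=
  (∀ l, Function.Injective (χ l)) ∧ Function.Injective c

theorem real_spot (A : Arr K) (U : Lvls K n) (e : Fin n → Bool) {χ : Fin K → Fin n → Fin J}
    {c : Fin n → Fin J} (h : Apart χ c) :
    A.law.real {σ | ∀ a, σ (emb (spot U χ c a)) 0 = e a} = siteLaw A U e := by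
  have := A.prob
  set Φ : (Fin n → ℕ → Bool) → ℝ :=
    ({v | ∀ a, v a 0 = e a} : Set (Fin n → ℕ → Bool)).indicator 1
  have hs : MeasurableSet {v : Fin n → ℕ → Bool | ∀ a, v a 0 = e a} := by
    simp only [Set.setOf_forall]
    exact MeasurableSet.iInter fun a =>
      measurableSet_eq_fun (f := fun v : Fin n → ℕ → Bool => v a 0) (by fun_prop) measurable_const
  have hcom : ∀ a b, com' (place U a).1 (place U b).1
      = com' (emb (spot U χ c a)).1 (emb (spot U χ c b)).1 := fun a b => by
    unfold com'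
    refine congrArg Finset.card (Finset.filter_congr fun l _ => forall₂_congr fun i _ => ?_)
    show ((rep U a i : ℕ) = rep U b i) ↔ ((χ i (rep U a i) : ℕ) = χ i (rep U b i))
    rw [← Fin.ext_iff, ← Fin.ext_iff, (h.1 i).eq_iff]
  have heq : ∀ a b, place U a = place U b ↔ emb (spot U χ c a) = emb (spot U χ c b) := fun a b => by
    refine ⟨fun hab => by rw [place_injective U hab], fun hab => ?_⟩
    have := h.2 (Fin.ext (congrArg Prod.snd hab) : c a = c b)
    rw [this]
  have hh := A.integral_congr (p := fun a => place U a) (q := fun a => emb (spot U χ c a)) hcom heq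
    (τ := id) Function.injective_id (g := Φ) (measurable_one.indicator hs)
  have e1 : ∀ p : Fin n → Pt K,
      ∫ σ, Φ (fun a => σ (p a)) ∂A.law = A.law.real {σ | ∀ a, σ (p a) 0 = e a} := fun p => by
    rw [← integral_indicator_one (measurableSet_siteEvent p 0 e)]
    rfl
  rw [← e1, siteLaw, ← e1]
  exact hh

theorem sum_eq_pair {γ : Type*} [Fintype γ] [DecidableEq γ] (hJ : 0 < J) {u v : γ} (huv : u ≠ v) :
    ∑ χ : γ → Fin J, (if χ u = χ v then (1 : ℝ) else 0)
      = (J : ℝ) ^ Fintype.card γ / J := by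
  rw [← (Equiv.funSplitAt v (Fin J)).symm.sum_comp, Fintype.sum_prod_type, Finset.sum_comm]
  have h : ∀ (r : {j // j ≠ v} → Fin J),
      ∑ x : Fin J, (if (Equiv.funSplitAt v (Fin J)).symm (x, r) u
        = (Equiv.funSplitAt v (Fin J)).symm (x, r) v then (1 : ℝ) else 0) = 1 := fun r => by
    simp [Equiv.funSplitAt, Equiv.piSplitAt, huv]
  simp only [h, Finset.sum_const, Finset.card_univ, Fintype.card_fun, nsmul_eq_mul, mul_one,
    Fintype.card_subtype_compl, Fintype.card_subtype_eq, Fintype.card_fin, Nat.cast_pow]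
  obtain ⟨d, hd⟩ : ∃ d, Fintype.card γ = d + 1 :=
    ⟨Fintype.card γ - 1, by have := Fintype.card_pos_iff.2 ⟨v⟩; omega⟩
  rw [hd, pow_succ, Nat.add_sub_cancel, mul_div_assoc, div_self (Nat.cast_ne_zero.2 hJ.ne'), mul_one]

/-- The message gives nearly the law of a site. -/
theorem sum_abs_msgLaw (A : Arr K) (hJ : 0 < J) (U : Lvls K n) :
    ∑ e, |msgLaw A hJ U e - siteLaw A U e| ≤ 2 * ((K + 1) * (n : ℝ) ^ 2 / J) := by
  classical
  have := A.prob
  have hJ' : (0 : ℝ) < J := by exact_mod_cast hJ
  set Tn := (J : ℝ) ^ (K * n + n)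
  have hT : 0 < Tn := by positivity
  have hcard : ∑ _χ : Fin K → Fin n → Fin J, ∑ _c : Fin n → Fin J, Tn⁻¹ = 1 := by
    simp only [Finset.sum_const, Finset.card_univ, Fintype.card_fun, Fintype.card_fin, nsmul_eq_mul,
      Nat.cast_pow, Tn, pow_add, ← pow_mul]
    rw [mul_comm n K]
    field_simp
  set bad : (Fin K → Fin n → Fin J) → (Fin n → Fin J) → ℝ := fun χ c => if Apart χ c then 0 else 1
  have key : ∑ e, |msgLaw A hJ U e - siteLaw A U e|
      ≤ ∑ χ, ∑ c, Tn⁻¹ * (2 * bad χ c) := by
    have e0 : ∀ e, msgLaw A hJ U e - siteLaw A U e = ∑ χ, ∑ c, Tn⁻¹ *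
        (A.law.real {σ | ∀ a, σ (emb (spot U χ c a)) 0 = e a} - siteLaw A U e) := fun e => by
      rw [msgLaw_eq_avg]
      simp only [mul_sub, Finset.sum_sub_distrib, ← Finset.sum_mul]
      rw [hcard, one_mul]
    calc ∑ e, |msgLaw A hJ U e - siteLaw A U e|
        ≤ ∑ e, ∑ χ, ∑ c, Tn⁻¹ *
            |A.law.real {σ | ∀ a, σ (emb (spot U χ c a)) 0 = e a} - siteLaw A U e| := by
          refine Finset.sum_le_sum fun e _ => ?_
          rw [e0]
          refine (Finset.abs_sum_le_sum_abs _ _).trans (Finset.sum_le_sum fun χ _ =>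
            (Finset.abs_sum_le_sum_abs _ _).trans (Finset.sum_le_sum fun c _ => ?_))
          rw [abs_mul, abs_of_pos (inv_pos.2 hT)]
      _ = ∑ χ, ∑ c, Tn⁻¹ * ∑ e,
            |A.law.real {σ | ∀ a, σ (emb (spot U χ c a)) 0 = e a} - siteLaw A U e| := by
          rw [Finset.sum_comm]
          refine Finset.sum_congr rfl fun χ _ => ?_
          rw [Finset.sum_comm]
          simp only [Finset.mul_sum]
      _ ≤ _ := by
          refine Finset.sum_le_sum fun χ _ => Finset.sum_le_sum fun c _ =>
            mul_le_mul_of_nonneg_left ?_ (inv_pos.2 hT).le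
          by_cases h : Apart χ c
          · simp [bad, h, real_spot A U _ h]
          · have hw : ∑ e : Fin n → Bool, A.law.real {σ | ∀ a, σ (emb (spot U χ c a)) 0 = e a} = 1 := by
              have := integral_places A (fun a => emb (spot U χ c a)) (fun _ : Fin 1 => 0) fun _ => 1
              simp only [mul_one, integral_const, probReal_univ, one_smul] at this
              rw [← (Equiv.funUnique (Fin 1) (Fin n → Bool)).symm.sum_comp] at this
              simpa [Fin.forall_fin_one] using this.symm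
            simp only [bad, if_neg h, mul_one]
            refine (Finset.sum_le_sum fun e _ => abs_sub _ _).trans (le_of_eq ?_)
            simp only [Finset.sum_add_distrib, abs_of_nonneg measureReal_nonneg,
              abs_of_nonneg ((siteLaw_weights A U).1 _), hw, (siteLaw_weights A U).2]
            norm_num
  refine key.trans ?_
  -- pairs of replicas colliding at one level or copy
  set P := fun (χ : Fin K → Fin n → Fin J) (c : Fin n → Fin J) (l : Option (Fin K)) (a b : Fin n) =>
    if a ≠ b ∧ (l.elim c χ) a = (l.elim c χ) b then (1 : ℝ) else 0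
  have hP0 : ∀ χ c l a b, 0 ≤ P χ c l a b := fun χ c l a b => by simp only [P]; split_ifs <;> norm_num
  have hbad : ∀ χ c, bad χ c ≤ ∑ l, ∑ a, ∑ b, P χ c l a b := fun χ c => by
    simp only [bad]
    split_ifs with h
    · exact Finset.sum_nonneg fun l _ => Finset.sum_nonneg fun a _ => Finset.sum_nonneg fun b _ =>
        hP0 ..
    · obtain ⟨l, a, b, hne, hab⟩ :
          ∃ l : Option (Fin K), ∃ a b, a ≠ b ∧ (l.elim c χ) a = (l.elim c χ) b := by
        by_contra hc
        push Not at hc
        exact h ⟨fun l a b hab => by_contra fun hne => hc (some l) a b hne hab,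
          fun a b hab => by_contra fun hne => hc none a b hne hab⟩
      refine le_trans ?_ (Finset.single_le_sum (fun l _ => Finset.sum_nonneg fun a _ =>
        Finset.sum_nonneg fun b _ => hP0 χ c l a b) (Finset.mem_univ l))
      refine le_trans ?_ (Finset.single_le_sum (fun a _ =>
        Finset.sum_nonneg fun b _ => hP0 χ c l a b) (Finset.mem_univ a))
      refine le_trans ?_ (Finset.single_le_sum (fun b _ => hP0 χ c l a b) (Finset.mem_univ b))
      simp [P, hne, hab]
  have hone : ∀ l a b, ∑ χ, ∑ c, Tn⁻¹ * P χ c l a b ≤ (J : ℝ)⁻¹ := by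
    intro l a b
    by_cases hne : a = b
    · simp [P, hne]
    rcases l with _ | l
    · simp only [P, Option.elim_none, ne_eq, hne, not_false_iff, true_and, ← Finset.mul_sum,
        sum_eq_pair hJ hne, Finset.sum_const, Finset.card_univ, Fintype.card_fun, Fintype.card_fin,
        nsmul_eq_mul, Nat.cast_pow, Tn, pow_add, ← pow_mul]
      rw [mul_comm n K]
      field_simp
      rfl
    · have h1 : ∑ χ : Fin K → Fin n → Fin J, (if χ l a = χ l b then (1 : ℝ) else 0)
          = (J : ℝ) ^ (K * n) / J := by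
        rw [← (Equiv.curry (Fin K) (Fin n) (Fin J)).sum_comp]
        simpa using sum_eq_pair (γ := Fin K × Fin n) hJ (u := (l, a)) (v := (l, b)) (by simp [hne])
      simp only [P, Option.elim_some, ne_eq, hne, not_false_iff, true_and, Finset.sum_const,
        Finset.card_univ, Fintype.card_fun, Fintype.card_fin, nsmul_eq_mul, Nat.cast_pow,
        ← Finset.mul_sum, h1, Tn, pow_add]
      field_simp
      rfl
  calc ∑ χ, ∑ c, Tn⁻¹ * (2 * bad χ c)
      ≤ ∑ χ, ∑ c, Tn⁻¹ * (2 * ∑ l, ∑ a, ∑ b, P χ c l a b) :=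
        Finset.sum_le_sum fun χ _ => Finset.sum_le_sum fun c _ =>
          mul_le_mul_of_nonneg_left (mul_le_mul_of_nonneg_left (hbad χ c) zero_le_two)
            (inv_pos.2 hT).le
    _ = 2 * ∑ l, ∑ a, ∑ b, ∑ χ, ∑ c, Tn⁻¹ * P χ c l a b := by
        simp only [Finset.mul_sum]
        conv_lhs => arg 2; ext χ; rw [Finset.sum_comm]
        rw [Finset.sum_comm]
        refine Finset.sum_congr rfl fun l _ => ?_
        conv_lhs => arg 2; ext χ; rw [Finset.sum_comm]
        rw [Finset.sum_comm]
        refine Finset.sum_congr rfl fun a _ => ?_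
        conv_lhs => arg 2; ext χ; rw [Finset.sum_comm]
        rw [Finset.sum_comm]
        simp only [mul_left_comm _ (2 : ℝ)]
    _ ≤ 2 * ∑ _l : Option (Fin K), ∑ _a : Fin n, ∑ _b : Fin n, (J : ℝ)⁻¹ := by
        gcongr with l _ a _ b _
        exact hone l a b
    _ = _ := by
        simp only [Finset.sum_const, Finset.card_univ, Fintype.card_option, Fintype.card_fin,
          nsmul_eq_mul]
        push_cast
        ring

end Vale.Agent.P168.CavTrial
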