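import Vale.Agent.P157.Hybrid
import Vale.Agent.P168.CavTrial.Message

/-!
P168, cavity trial: the series over replicas of an array against the recursion of its message, for
factors of finitely many sites bounded below.
-/

open MeasureTheory ProbabilityTheory Finset Filter Topology

noncomputable section

namespace Vale.Agent.P168.CavTrial

variable {K n S J : ℕ}

/-- Products of independent columns and rows. -/
theorem mp_curry {α ι X : Type*} [Fintype α] [Fintype ι] [MeasurableSpace X] (μ : Measure X)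
    [IsProbabilityMeasure μ] :
    MeasurePreserving (MeasurableEquiv.curry α ι X) (Measure.pi fun _ : α × ι => μ)
      (Measure.pi fun _ : α => Measure.pi fun _ : ι => μ) := by
  refine ⟨MeasurableEquiv.measurable _, ?_⟩
  have := Measure.infinitePi_map_curry fun (_ : α) (_ : ι) => μ
  simpa [Measure.infinitePi_eq_pi] using this

theorem mp_flip {α ι X : Type*} [Fintype α] [Fintype ι] [MeasurableSpace X] (μ : Measure X)
    [IsProbabilityMeasure μ] :
    MeasurePreserving (fun (ξ : α → ι → X) (i : ι) (a : α) => ξ a i)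
      (Measure.pi fun _ : α => Measure.pi fun _ : ι => μ)
      (Measure.pi fun _ : ι => Measure.pi fun _ : α => μ) :=
  (mp_curry (α := ι) (ι := α) μ).comp
    ((P157.mp_comp μ (e := fun p : ι × α => (p.2, p.1))
      fun p q h => by simpa [Prod.ext_iff, and_comm] using h).comp
      ((mp_curry (α := α) (ι := ι) μ).symm _))

theorem mp_sites (K n S : ℕ) :
    MeasurePreserving (fun (ξ : Fin K → Fin n → Fin S → ℝ) (i : Fin S) (l : Fin K) (r : Fin n) =>
        ξ l r i)
      (Measure.pi fun _ => Measure.pi fun _ => Measure.pi fun _ => u01)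
      (Measure.pi fun _ => Measure.pi fun _ => Measure.pi fun _ => u01) :=
  (mp_flip (α := Fin K) (ι := Fin S) (Measure.pi fun _ : Fin n => u01)).comp
    (measurePreserving_pi _ _ fun _ => mp_flip (α := Fin n) (ι := Fin S) u01)

/-- The mixed factor at the messages. -/
def mixG (A : Arr K) (hJ : 0 < J) (F : (Fin S → Bool) → ℝ) (w0 : Fin S → ℝ)
    (y : Fin K → Fin S → ℝ) : ℝ :=
  ∑ e, F e * ∏ i, (1 + xA A hJ (Fin.cons (w0 i) fun l => y l i) * sgn (e i)) / 2

/-- The recursion of a factor at the messages, averaged over the roots. -/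
def trialLog (A : Arr K) (hJ : 0 < J) (F : (Fin S → Bool) → ℝ) : ℝ :=
  ∫ w0 : Fin S → ℝ, P157.Casc.casc (Measure.pi fun _ : Fin S => u01) K (P157.Casc.mlev K)
    (fun y => Real.log (mixG A hJ F w0 y)) ∂(Measure.pi fun _ => u01)

/-- The mean over the replicas of the product of the defects. -/
def avgDef (P : (Fin S → Fin n → Bool) → ℝ) (F : (Fin S → Bool) → ℝ) : ℝ :=
  ∑ e, P e * ∏ a, (1 - F fun i => e i a)

theorem avgDef_mem {P : (Fin S → Fin n → Bool) → ℝ} (h0 : ∀ e, 0 ≤ P e) (h1 : ∑ e, P e = 1)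
    {F : (Fin S → Bool) → ℝ} {δ : ℝ} (hF : ∀ e, δ ≤ F e ∧ F e ≤ 1) :
    0 ≤ avgDef P F ∧ avgDef P F ≤ (1 - δ) ^ n := by
  have hp : ∀ e : Fin S → Fin n → Bool, 0 ≤ ∏ a, (1 - F fun i => e i a) ∧
      ∏ a, (1 - F fun i => e i a) ≤ (1 - δ) ^ n := fun e => by
    refine ⟨Finset.prod_nonneg fun a _ => sub_nonneg.2 (hF _).2,
      (Finset.prod_le_prod (fun a _ => sub_nonneg.2 (hF _).2)
        fun a _ => sub_le_sub_left (hF _).1 1).trans_eq ?_⟩
    simp
  refine ⟨Finset.sum_nonneg fun e _ => mul_nonneg (h0 e) (hp e).1, ?_⟩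
  calc avgDef P F ≤ ∑ e, P e * (1 - δ) ^ n :=
        Finset.sum_le_sum fun e _ => mul_le_mul_of_nonneg_left (hp e).2 (h0 e)
    _ = _ := by rw [← Finset.sum_mul, h1, one_mul]

/-- The weights of the message at several sites. -/
def prodMsg (A : Arr K) (hJ : 0 < J) (U : Lvls K n) (e : Fin S → Fin n → Bool) : ℝ :=
  ∏ i, msgLaw A hJ U (e i)

theorem measurable_msgProd (A : Arr K) (hJ : 0 < J) (U : Lvls K n) (e : Fin n → Bool) :
    Measurable fun p : ℝ × (Fin K → Fin n → ℝ) => msgProd A hJ U e p.1 p.2 := by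
  refine Finset.measurable_prod _ fun a _ => (((measurable_xA A hJ).comp ?_).mul_const _).const_add 1
    |>.div_const 2
  refine measurable_pi_lambda _ fun p => Fin.cases ?_ (fun l => ?_) p
  · simpa using measurable_fst
  · simp only [Fin.cons_succ]
    exact (measurable_pi_apply _).comp ((measurable_pi_apply l).comp measurable_snd)

theorem prodMsg_weights (A : Arr K) (hJ : 0 < J) (U : Lvls K n) :
    (∀ e : Fin S → Fin n → Bool, 0 ≤ prodMsg A hJ U e) ∧
      ∑ e : Fin S → Fin n → Bool, prodMsg A hJ U e = 1 := by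
  have h0 : ∀ e, 0 ≤ msgLaw A hJ U e := fun e =>
    integral_nonneg fun w0 => integral_nonneg fun ξ => (msgProd_mem A hJ U e w0 ξ).1
  refine ⟨fun e => Finset.prod_nonneg fun i _ => h0 _, ?_⟩
  simp only [prodMsg]
  rw [← Fintype.prod_sum (fun (_ : Fin S) b => msgLaw A hJ U b)]
  refine Finset.prod_eq_one fun i _ => ?_
  have hi : ∀ e w0, Integrable (fun ξ => msgProd A hJ U e w0 ξ)
      (Measure.pi fun _ : Fin K => Measure.pi fun _ : Fin n => u01) := fun e w0 =>
    Integrable.of_bound ((measurable_msgProd A hJ U e).comp measurable_prodMk_left).aestronglyMeasurable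
      1 (ae_of_all _ fun ξ => by
        rw [Real.norm_eq_abs, abs_of_nonneg (msgProd_mem A hJ U e w0 ξ).1]
        exact (msgProd_mem A hJ U e w0 ξ).2)
  have hi' : ∀ e, Integrable (fun w0 => ∫ ξ, msgProd A hJ U e w0 ξ
      ∂(Measure.pi fun _ : Fin K => Measure.pi fun _ : Fin n => u01)) u01 := fun e =>
    (Integrable.of_bound (measurable_msgProd A hJ U e).aestronglyMeasurable
      1 (ae_of_all _ fun p => by
        rw [Real.norm_eq_abs, abs_of_nonneg (msgProd_mem A hJ U e p.1 p.2).1]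
        exact (msgProd_mem A hJ U e p.1 p.2).2)).integral_prod_left (μ := u01)
  simp only [msgLaw]
  rw [← integral_finsetSum _ fun e _ => hi' e]
  simp [← integral_finsetSum _ fun e _ => hi e _, sum_msgProd]

/-- The series of a factor over replicas of the array. -/
theorem logMean_eq (A : Arr K) {g : Fin S → ℕ} (hg : Function.Injective g)
    (F : (Fin S → Bool) → ℝ) :
    A.logMean (fun σ => F fun i => σ (g i)) = -∑' j : ℕ, ((j : ℝ) + 1)⁻¹ *
      ∑ U : Lvls K (j + 1), treeW K (j + 1) U * avgDef (jointLaw A U) F := by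
  refine congrArg Neg.neg (tsum_congr fun j => congrArg (((j : ℝ) + 1)⁻¹ * ·) ?_)
  refine Finset.sum_congr rfl fun U _ => congrArg (treeW K (j + 1) U * ·) ?_
  rw [avgDef]
  simp only [← real_sites A U hg]
  exact integral_places A (place U) g fun e => ∏ a, (1 - F fun i => e i a)

theorem mixG_mem (A : Arr K) (hJ : 0 < J) {F : (Fin S → Bool) → ℝ} {δ : ℝ}
    (hF : ∀ e, δ ≤ F e ∧ F e ≤ 1) (w0 : Fin S → ℝ) (y : Fin K → Fin S → ℝ) :
    δ ≤ mixG A hJ F w0 y ∧ mixG A hJ F w0 y ≤ 1 := by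
  set p : (Fin S → Bool) → ℝ := fun e =>
    ∏ i, (1 + xA A hJ (Fin.cons (w0 i) fun l => y l i) * sgn (e i)) / 2
  have hp : ∀ e, 0 ≤ p e := fun e => Finset.prod_nonneg fun i _ => by
    obtain ⟨h1, h2⟩ := xA_mem A hJ (Fin.cons (w0 i) fun l => y l i)
    cases e i <;> simp only [sgn] <;> norm_num <;> linarith
  have hs : ∑ e, p e = 1 := by
    simp only [p]
    rw [← Fintype.prod_sum (fun i b => (1 + xA A hJ (Fin.cons (w0 i) fun l => y l i) * sgn b) / 2)]
    exact Finset.prod_eq_one fun i _ => by simp [sgn]; ring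
  constructor
  · calc δ = ∑ e, δ * p e := by rw [← Finset.mul_sum, hs, mul_one]
      _ ≤ _ := Finset.sum_le_sum fun e _ => mul_le_mul_of_nonneg_right (hF e).1 (hp e)
  · calc _ ≤ ∑ e, 1 * p e :=
          Finset.sum_le_sum fun e _ => mul_le_mul_of_nonneg_right (hF e).2 (hp e)
      _ = 1 := by rw [← Finset.mul_sum, hs, mul_one]

theorem measurable_mixG (A : Arr K) (hJ : 0 < J) (F : (Fin S → Bool) → ℝ) :
    Measurable fun p : (Fin S → ℝ) × (Fin K → Fin S → ℝ) => mixG A hJ F p.1 p.2 := by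
  refine Finset.measurable_sum _ fun e _ => (Finset.measurable_prod _ fun i _ =>
    ((((measurable_xA A hJ).comp ?_).mul_const _).const_add 1).div_const 2).const_mul _
  refine measurable_pi_lambda _ fun p => Fin.cases ?_ (fun l => ?_) p
  · simp only [Fin.cons_zero]
    exact (measurable_pi_apply i).comp measurable_fst
  · simp only [Fin.cons_succ]
    exact (measurable_pi_apply i).comp ((measurable_pi_apply l).comp measurable_snd)

/-- Expansion of the defects over the spins of the replicas. -/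
theorem prod_defect_eq (A : Arr K) (hJ : 0 < J) (U : Lvls K n) (F : (Fin S → Bool) → ℝ)
    (w0 : Fin S → ℝ) (ξ : Fin K → Fin n → Fin S → ℝ) :
    ∏ a, (1 - mixG A hJ F w0 fun l => ξ l (rep U a l))
      = ∑ e : Fin S → Fin n → Bool, (∏ a, (1 - F fun i => e i a)) *
          ∏ i, msgProd A hJ U (e i) (w0 i) fun l r => ξ l r i := by
  set q : Fin n → (Fin S → Bool) → ℝ := fun a b =>
    ∏ i, (1 + xA A hJ (Fin.cons (w0 i) fun l => ξ l (rep U a l) i) * sgn (b i)) / 2
  have hq : ∀ a, 1 - mixG A hJ F w0 (fun l => ξ l (rep U a l))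
      = ∑ b, (1 - F b) * q a b := fun a => by
    have hs : ∑ b, q a b = 1 := by
      simp only [q]
      rw [← Fintype.prod_sum (fun i c => (1 + xA A hJ (Fin.cons (w0 i) fun l =>
        ξ l (rep U a l) i) * sgn c) / 2)]
      exact Finset.prod_eq_one fun i _ => by simp [sgn]; ring
    simp only [sub_mul, one_mul, Finset.sum_sub_distrib, hs]
    rfl
  simp only [hq]
  rw [Fintype.prod_sum, ← (Equiv.piComm fun (_ : Fin n) (_ : Fin S) => Bool).symm.sum_comp]
  refine Finset.sum_congr rfl fun e _ => ?_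
  rw [Finset.prod_mul_distrib]
  refine congrArg₂ (· * ·) rfl ?_
  simp only [q, msgProd]
  rw [Finset.prod_comm]
  rfl

/-- The weight of spins of the replicas at several sites. -/
def sitesW (A : Arr K) (hJ : 0 < J) (U : Lvls K n) (e : Fin S → Fin n → Bool)
    (p : (Fin S → ℝ) × (Fin K → Fin n → Fin S → ℝ)) : ℝ :=
  ∏ i, msgProd A hJ U (e i) (p.1 i) fun l r => p.2 l r i

theorem measurable_sitesW (A : Arr K) (hJ : 0 < J) (U : Lvls K n) (e : Fin S → Fin n → Bool) :
    Measurable (sitesW A hJ U e) := by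
  refine Finset.measurable_prod _ fun i _ => ?_
  have h : Measurable fun p : (Fin S → ℝ) × (Fin K → Fin n → Fin S → ℝ) =>
      ((p.1 i, fun l r => p.2 l r i) : ℝ × (Fin K → Fin n → ℝ)) := by
    refine ((measurable_pi_apply i).comp measurable_fst).prodMk (measurable_pi_lambda _ fun l => ?_)
    exact measurable_pi_lambda _ fun r => (measurable_pi_apply i).comp
      ((measurable_pi_apply r).comp ((measurable_pi_apply l).comp measurable_snd))
  have := (measurable_msgProd A hJ U (e i)).comp h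
  simpa only [Function.comp_def] using this

theorem sitesW_mem (A : Arr K) (hJ : 0 < J) (U : Lvls K n) (e : Fin S → Fin n → Bool)
    (p : (Fin S → ℝ) × (Fin K → Fin n → Fin S → ℝ)) : |sitesW A hJ U e p| ≤ 1 := by
  rw [sitesW, abs_of_nonneg (Finset.prod_nonneg fun i _ => (msgProd_mem ..).1)]
  exact Finset.prod_le_one (fun i _ => (msgProd_mem ..).1) fun i _ => (msgProd_mem ..).2

theorem integral_sitesW (A : Arr K) (hJ : 0 < J) (U : Lvls K n) (e : Fin S → Fin n → Bool)
    (w0 : Fin S → ℝ) :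
    ∫ ξ : Fin K → Fin n → Fin S → ℝ, sitesW A hJ U e (w0, ξ)
      ∂(Measure.pi fun _ => Measure.pi fun _ => Measure.pi fun _ => u01)
    = ∏ i, ∫ η, msgProd A hJ U (e i) (w0 i) η
        ∂(Measure.pi fun _ : Fin K => Measure.pi fun _ : Fin n => u01) := by
  rw [← integral_fintype_prod_eq_prod (μ := fun _ : Fin S =>
      Measure.pi fun _ : Fin K => Measure.pi fun _ : Fin n => u01)
    (fun i η => msgProd A hJ U (e i) (w0 i) η), ← (mp_sites K n S).map_eq,
    integral_map (mp_sites K n S).measurable.aemeasurable]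
  · rfl
  · exact (Finset.measurable_prod _ fun i _ => ((measurable_msgProd A hJ U (e i)).comp
      measurable_prodMk_left).comp (measurable_pi_apply i)).aestronglyMeasurable

/-- One term: replicas with labels on their nodes see the product of the message laws. -/
theorem term_eq (A : Arr K) (hJ : 0 < J) (U : Lvls K n) (F : (Fin S → Bool) → ℝ) :
    ∫ w0 : Fin S → ℝ, ∫ ξ : Fin K → Fin n → Fin S → ℝ,
        ∏ a, (1 - mixG A hJ F w0 fun l => ξ l (rep U a l))
        ∂(Measure.pi fun _ => Measure.pi fun _ => Measure.pi fun _ => u01)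
      ∂(Measure.pi fun _ => u01) = avgDef (prodMsg A hJ U) F := by
  set ν : Measure (Fin K → Fin n → Fin S → ℝ) :=
    Measure.pi fun _ => Measure.pi fun _ => Measure.pi fun _ => u01
  have hi : ∀ e, Integrable (sitesW A hJ U e) ((Measure.pi fun _ : Fin S => u01).prod ν) := fun e =>
    Integrable.of_bound (measurable_sitesW A hJ U e).aestronglyMeasurable 1
      (ae_of_all _ fun p => sitesW_mem A hJ U e p)
  have hi1 : ∀ (e : Fin S → Fin n → Bool) (w0 : Fin S → ℝ),
      Integrable (fun ξ => sitesW A hJ U e (w0, ξ)) ν := fun e w0 =>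
    Integrable.of_bound ((measurable_sitesW A hJ U e).comp measurable_prodMk_left).aestronglyMeasurable
      1 (ae_of_all _ fun ξ => sitesW_mem A hJ U e _)
  have hx : ∀ w0 : Fin S → ℝ, ∫ ξ, ∏ a, (1 - mixG A hJ F w0 fun l => ξ l (rep U a l)) ∂ν
      = ∑ e : Fin S → Fin n → Bool, (∏ a, (1 - F fun i => e i a)) *
          ∏ i, ∫ η, msgProd A hJ U (e i) (w0 i) η
            ∂(Measure.pi fun _ : Fin K => Measure.pi fun _ : Fin n => u01) := fun w0 => by
    simp only [prod_defect_eq]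
    rw [integral_finsetSum]
    swap
    · exact fun e _ => (hi1 e w0).const_mul _
    exact Finset.sum_congr rfl fun e _ =>
      (integral_const_mul _ _).trans (congrArg _ (integral_sitesW A hJ U e w0))
  have hi2 : ∀ e : Fin S → Fin n → Bool, Integrable (fun w0 : Fin S → ℝ =>
      ∏ i, ∫ η, msgProd A hJ U (e i) (w0 i) η
        ∂(Measure.pi fun _ : Fin K => Measure.pi fun _ : Fin n => u01))
      (Measure.pi fun _ => u01) := fun e => by
    simp only [← integral_sitesW]
    exact (hi e).integral_prod_left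
  simp only [hx]
  rw [integral_finsetSum _ fun e _ => (hi2 e).const_mul _, avgDef]
  refine Finset.sum_congr rfl fun e _ => ?_
  rw [integral_const_mul, mul_comm]
  refine congrArg (· * _) ?_
  exact integral_fintype_prod_eq_prod (μ := fun _ : Fin S => u01) fun i w => ∫ η,
    msgProd A hJ U (e i) w η ∂(Measure.pi fun _ : Fin K => Measure.pi fun _ : Fin n => u01)

theorem summable_ser {u : ℕ → ℝ} {δ : ℝ} (hδ : 0 < δ)
    (hu : ∀ j, 0 ≤ u j ∧ u j ≤ (1 - δ) ^ (j + 1)) (hδ1 : δ ≤ 1) :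
    Summable fun j : ℕ => ((j : ℝ) + 1)⁻¹ * u j := by
  refine Summable.of_nonneg_of_le (fun j => mul_nonneg (by positivity) (hu j).1) (fun j => ?_)
    ((summable_geometric_of_lt_one (sub_nonneg.2 hδ1) (by linarith : 1 - δ < 1)).mul_left (1 - δ))
  refine (mul_le_of_le_one_left (hu j).1 ?_).trans ((hu j).2.trans_eq (pow_succ' _ _))
  exact inv_le_one_of_one_le₀ (by linarith [(Nat.cast_nonneg j : (0 : ℝ) ≤ j)])

theorem avgTree_mem (hK : 1 ≤ n) {P : Lvls K n → (Fin S → Fin n → Bool) → ℝ}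
    (hP : ∀ U, (∀ e, 0 ≤ P U e) ∧ ∑ e, P U e = 1)
    {F : (Fin S → Bool) → ℝ} {δ : ℝ} (hF : ∀ e, δ ≤ F e ∧ F e ≤ 1) :
    0 ≤ ∑ U, treeW K n U * avgDef (P U) F ∧
      ∑ U, treeW K n U * avgDef (P U) F ≤ (1 - δ) ^ n := by
  refine ⟨Finset.sum_nonneg fun U _ =>
    mul_nonneg (treeW_nonneg U) (avgDef_mem (hP U).1 (hP U).2 hF).1, ?_⟩
  calc _ ≤ ∑ U, treeW K n U * (1 - δ) ^ n := Finset.sum_le_sum fun U _ =>
        mul_le_mul_of_nonneg_left (avgDef_mem (hP U).1 (hP U).2 hF).2 (treeW_nonneg U)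
    _ = _ := by rw [← Finset.sum_mul, sum_treeW K n hK, one_mul]

/-- The integrand of one term of the series. -/
def termI (A : Arr K) (hJ : 0 < J) (F : (Fin S → Bool) → ℝ) (U : Lvls K n)
    (p : (Fin S → ℝ) × ((l : Fin K) → Fin n → Fin S → ℝ)) : ℝ :=
  ∏ a, (1 - mixG A hJ F p.1 fun l => p.2 l (rep U a l))

theorem measurable_termI (A : Arr K) (hJ : 0 < J) (F : (Fin S → Bool) → ℝ) (U : Lvls K n) :
    Measurable (termI A hJ F U) := by
  refine Finset.measurable_prod _ fun a _ => Measurable.const_sub ?_ 1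
  have h : Measurable fun p : (Fin S → ℝ) × ((l : Fin K) → Fin n → Fin S → ℝ) =>
      ((p.1, fun l => p.2 l (rep U a l)) : (Fin S → ℝ) × (Fin K → Fin S → ℝ)) := by
    refine measurable_fst.prodMk (measurable_pi_lambda _ fun l => ?_)
    exact (measurable_pi_apply (rep U a l)).comp ((measurable_pi_apply l).comp measurable_snd)
  have := (measurable_mixG A hJ F).comp h
  simpa only [Function.comp_def] using this

theorem termI_mem (A : Arr K) (hJ : 0 < J) {F : (Fin S → Bool) → ℝ} {δ : ℝ}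
    (hF : ∀ e, δ ≤ F e ∧ F e ≤ 1) (U : Lvls K n)
    (p : (Fin S → ℝ) × ((l : Fin K) → Fin n → Fin S → ℝ)) :
    0 ≤ termI A hJ F U p ∧ termI A hJ F U p ≤ (1 - δ) ^ n := by
  refine ⟨Finset.prod_nonneg fun a _ => sub_nonneg.2 (mixG_mem A hJ hF _ _).2,
    (Finset.prod_le_prod (fun a _ => sub_nonneg.2 (mixG_mem A hJ hF _ _).2)
      fun a _ => sub_le_sub_left (mixG_mem A hJ hF _ _).1 1).trans_eq ?_⟩
  simp

/-- One term of the series at fixed roots. -/
def termW (A : Arr K) (hJ : 0 < J) (F : (Fin S → Bool) → ℝ) (n : ℕ) (w0 : Fin S → ℝ) : ℝ :=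
  ∑ U : Lvls K n, treeW K n U * ∫ ξ, termI A hJ F U (w0, ξ)
    ∂(Measure.pi fun _ : Fin K => Measure.pi fun _ : Fin n => Measure.pi fun _ : Fin S => u01)

theorem measurable_termW (A : Arr K) (hJ : 0 < J) (F : (Fin S → Bool) → ℝ) (n : ℕ) :
    Measurable (termW A hJ F n) :=
  Finset.measurable_sum _ fun U _ => Measurable.const_mul
    (measurable_termI A hJ F U).stronglyMeasurable.integral_prod_right'.measurable _

theorem termW_mem (A : Arr K) (hJ : 0 < J) {F : (Fin S → Bool) → ℝ} {δ : ℝ}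
    (hF : ∀ e, δ ≤ F e ∧ F e ≤ 1) (hn : 1 ≤ n) (w0 : Fin S → ℝ) :
    0 ≤ termW A hJ F n w0 ∧ termW A hJ F n w0 ≤ (1 - δ) ^ n := by
  refine ⟨Finset.sum_nonneg fun U _ => mul_nonneg (treeW_nonneg U)
    (integral_nonneg fun ξ => (termI_mem A hJ hF U _).1), ?_⟩
  calc _ ≤ ∑ U : Lvls K n, treeW K n U * (1 - δ) ^ n := by
        refine Finset.sum_le_sum fun U _ => mul_le_mul_of_nonneg_left ?_ (treeW_nonneg U)
        refine (integral_mono_of_nonneg (ae_of_all _ fun ξ => (termI_mem A hJ hF U _).1)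
          (integrable_const _) (ae_of_all _ fun ξ => (termI_mem A hJ hF U _).2)).trans_eq ?_
        simp
    _ = _ := by rw [← Finset.sum_mul, sum_treeW K n hn, one_mul]

theorem integral_termW (A : Arr K) (hJ : 0 < J) {F : (Fin S → Bool) → ℝ} {δ : ℝ}
    (hF : ∀ e, δ ≤ F e ∧ F e ≤ 1) (n : ℕ) :
    ∫ w0, termW A hJ F n w0 ∂(Measure.pi fun _ : Fin S => u01)
      = ∑ U : Lvls K n, treeW K n U * avgDef (prodMsg A hJ U) F := by
  have hi : ∀ U : Lvls K n, Integrable (fun w0 => ∫ ξ, termI A hJ F U (w0, ξ)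
      ∂(Measure.pi fun _ : Fin K => Measure.pi fun _ : Fin n => Measure.pi fun _ : Fin S => u01))
      (Measure.pi fun _ : Fin S => u01) := fun U => by
    refine (Integrable.of_bound (measurable_termI A hJ F U).aestronglyMeasurable ((1 - δ) ^ n)
      (ae_of_all _ fun p => ?_)).integral_prod_left
    rw [Real.norm_eq_abs, abs_of_nonneg (termI_mem A hJ hF U p).1]
    exact (termI_mem A hJ hF U p).2
  simp only [termW]
  rw [integral_finsetSum _ fun U _ => (hi U).const_mul _]
  refine Finset.sum_congr rfl fun U _ => ?_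
  rw [integral_const_mul]
  exact congrArg _ (term_eq A hJ U F)

theorem casc_mixG (hR : TreeRep) (A : Arr K) (hJ : 0 < J) {F : (Fin S → Bool) → ℝ} {δ : ℝ}
    (hδ : 0 < δ) (hF : ∀ e, δ ≤ F e ∧ F e ≤ 1) (w0 : Fin S → ℝ) :
    P157.Casc.casc (Measure.pi fun _ : Fin S => u01) K (P157.Casc.mlev K)
      (fun y => Real.log (mixG A hJ F w0 y))
      = -∑' j : ℕ, ((j : ℝ) + 1)⁻¹ * termW A hJ F (j + 1) w0 := by
  have hm : Measurable (mixG A hJ F w0) := by
    have := (measurable_mixG A hJ F).comp (measurable_prodMk_left (x := w0))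
    simpa only [Function.comp_def] using this
  refine (hR K (Fin S → ℝ) _ (Measure.pi fun _ => u01) (by infer_instance) (mixG A hJ F w0)
    hm ⟨δ, hδ, fun y => mixG_mem A hJ hF w0 y⟩).trans ?_
  refine congrArg Neg.neg (tsum_congr fun j => ?_)
  simp only [termW, termI, rep]

/-- The recursion of a factor at the messages as a series over replicas. -/
theorem trialLog_eq (hR : TreeRep) (A : Arr K) (hJ : 0 < J) {F : (Fin S → Bool) → ℝ} {δ : ℝ}
    (hδ : 0 < δ) (hF : ∀ e, δ ≤ F e ∧ F e ≤ 1) :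
    trialLog A hJ F = -∑' j : ℕ, ((j : ℝ) + 1)⁻¹ *
      ∑ U : Lvls K (j + 1), treeW K (j + 1) U * avgDef (prodMsg A hJ U) F := by
  have hδ1 : δ ≤ 1 := (hF fun _ => true).1.trans (hF fun _ => true).2
  have h1 : ∀ w0 : Fin S → ℝ, P157.Casc.casc (Measure.pi fun _ : Fin S => u01) K (P157.Casc.mlev K)
      (fun y => Real.log (mixG A hJ F w0 y))
      = -∑' j : ℕ, ((j : ℝ) + 1)⁻¹ * termW A hJ F (j + 1) w0 := casc_mixG hR A hJ hδ hF
  have hb : ∀ (j : ℕ) w0, 0 ≤ ((j : ℝ) + 1)⁻¹ * termW A hJ F (j + 1) w0 ∧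
      ((j : ℝ) + 1)⁻¹ * termW A hJ F (j + 1) w0 ≤ (1 - δ) ^ (j + 1) := fun j w0 => by
    obtain ⟨h0, h2⟩ := termW_mem A hJ hF (Nat.succ_pos j) w0
    exact ⟨mul_nonneg (by positivity) h0, (mul_le_of_le_one_left h0
      (inv_le_one_of_one_le₀ (by linarith [(Nat.cast_nonneg j : (0 : ℝ) ≤ j)]))).trans h2⟩
  have hgeo : Summable fun j : ℕ => (1 - δ) ^ (j + 1) := by
    simp only [pow_succ']
    exact (summable_geometric_of_lt_one (sub_nonneg.2 hδ1) (by linarith)).mul_left _
  have hTi : ∀ j : ℕ, Integrable (fun w0 => ((j : ℝ) + 1)⁻¹ * termW A hJ F (j + 1) w0)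
      (Measure.pi fun _ : Fin S => u01) := fun j =>
    Integrable.of_bound ((measurable_termW A hJ F _).const_mul _).aestronglyMeasurable
      ((1 - δ) ^ (j + 1)) (ae_of_all _ fun w0 => by
        rw [Real.norm_eq_abs, abs_of_nonneg (hb j w0).1]; exact (hb j w0).2)
  have hsum : Summable fun j : ℕ => ∫ w0, ‖((j : ℝ) + 1)⁻¹ * termW A hJ F (j + 1) w0‖
      ∂(Measure.pi fun _ : Fin S => u01) :=
    hgeo.of_nonneg_of_le (fun j => integral_nonneg fun w0 => norm_nonneg _) fun j =>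
      (integral_mono_of_nonneg (ae_of_all _ fun w0 => norm_nonneg _) (integrable_const _)
        (ae_of_all _ fun w0 => by
          show ‖((j : ℝ) + 1)⁻¹ * termW A hJ F (j + 1) w0‖ ≤ (1 - δ) ^ (j + 1)
          rw [Real.norm_eq_abs, abs_of_nonneg (hb j w0).1]; exact (hb j w0).2)).trans_eq (by simp)
  rw [trialLog]
  simp only [h1]
  rw [integral_neg, ← integral_tsum_of_summable_integral_norm hTi hsum]
  refine congrArg Neg.neg (tsum_congr fun j => ?_)
  rw [integral_const_mul, integral_termW A hJ hF]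

/-- The degree of the finite tree of the message. -/
def deg (K : ℕ) : ℕ := (K + 1) ^ 3

theorem deg_pos (K : ℕ) : 0 < deg K := pow_pos (Nat.succ_pos K) 3

/-- Decoupled arrays are close to their messages, uniformly over factors bounded below. -/
theorem series_close (hH : HybridStmt) (hR : TreeRep) (C : ℕ → ℝ) (S : ℕ) {δ : ℝ} (hδ : 0 < δ)
    {ε : ℝ} (hε : 0 < ε) :
    ∃ K0 : ℕ, ∀ K ≥ K0, ∀ A : Arr K, A.Tel C → ∀ g : Fin S → ℕ, Function.Injective g →
      ∀ F : (Fin S → Bool) → ℝ, (∀ e, δ ≤ F e ∧ F e ≤ 1) →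
        |A.logMean (fun σ => F fun i => σ (g i)) - trialLog A (deg_pos K) F| ≤ ε := by
  set q := max (1 - δ) 0
  have hq : q < 1 := max_lt (by linarith) one_pos
  obtain ⟨T, hT⟩ : ∃ T : ℕ, q ^ T / δ ≤ ε / 2 := by
    obtain ⟨T, hT⟩ := exists_pow_lt_of_lt_one (mul_pos (half_pos hε) hδ) hq
    exact ⟨T, by rw [div_le_iff₀ hδ]; exact hT.le⟩
  have hev : ∀ j : ℕ, ∀ᶠ K in atTop, (∀ A : Arr K, A.Tel C → ∑ U : Lvls K (j + 1),
      treeW K (j + 1) U * ∑ e : Fin S → Fin (j + 1) → Bool,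
        |jointLaw A U e - ∏ i, siteLaw A U (e i)| ≤ ε / (4 * (T + 1))) ∧
      (S : ℝ) * (2 * (((K : ℝ) + 1) * ((j : ℝ) + 1) ^ 2 / deg K)) ≤ ε / (4 * (T + 1)) := by
    intro j
    obtain ⟨K0, hK0⟩ := hH C (j + 1) S (ε / (4 * (T + 1))) (by positivity)
    have h1 : Tendsto (fun K : ℕ => (K : ℝ) + 1) atTop atTop :=
      tendsto_atTop_add_const_right _ 1 tendsto_natCast_atTop_atTop
    have h2 : Tendsto (fun K : ℕ => (S : ℝ) * (2 * ((j : ℝ) + 1) ^ 2) / ((K : ℝ) + 1) ^ 2) atTop
        (𝓝 0) := ((tendsto_pow_atTop two_ne_zero).comp h1).const_div_atTop _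
    filter_upwards [eventually_ge_atTop K0,
      h2.eventually_le_const (show (0 : ℝ) < ε / (4 * (T + 1)) by positivity)] with K hK hK'
    refine ⟨hK0 K hK, le_trans (le_of_eq ?_) hK'⟩
    rw [deg]
    push_cast
    field_simp
  obtain ⟨K0, hK0⟩ :=
    eventually_atTop.1 ((Finset.eventually_all (Finset.range T)).2 fun j _ => hev j)
  refine ⟨K0, fun K hK A hA g hg F hF => ?_⟩
  rw [logMean_eq A hg F, trialLog_eq hR A (deg_pos K) hδ hF]
  set a : ℕ → ℝ := fun j => ∑ U : Lvls K (j + 1), treeW K (j + 1) U * avgDef (jointLaw A U) F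
  set b : ℕ → ℝ := fun j =>
    ∑ U : Lvls K (j + 1), treeW K (j + 1) U * avgDef (prodMsg A (deg_pos K) U) F
  have hδ1 : δ ≤ 1 := (hF fun _ => true).1.trans (hF fun _ => true).2
  have hqe : q = 1 - δ := max_eq_left (sub_nonneg.2 hδ1)
  have ha : ∀ j, 0 ≤ a j ∧ a j ≤ (1 - δ) ^ (j + 1) := fun j =>
    avgTree_mem (Nat.succ_pos j) (fun U => jointLaw_weights A U) hF
  have hb : ∀ j, 0 ≤ b j ∧ b j ≤ (1 - δ) ^ (j + 1) := fun j =>
    avgTree_mem (Nat.succ_pos j) (fun U => prodMsg_weights A (deg_pos K) U) hF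
  have hA' := summable_ser hδ ha hδ1
  have hB' := summable_ser hδ hb hδ1
  rw [neg_sub_neg, abs_sub_comm, ← hA'.tsum_sub hB',
    ← (hA'.sub hB').sum_add_tsum_nat_add T]
  have hone : ∀ j : ℕ, ((j : ℝ) + 1)⁻¹ ≤ 1 := fun j =>
    inv_le_one_of_one_le₀ (by linarith [(Nat.cast_nonneg j : (0 : ℝ) ≤ j)])
  have head : ∀ j ∈ Finset.range T,
      |((j : ℝ) + 1)⁻¹ * a j - ((j : ℝ) + 1)⁻¹ * b j| ≤ ε / (2 * (T + 1)) := fun j hj => by
    obtain ⟨h1, h2⟩ := hK0 K hK j hj
    rw [← mul_sub, abs_mul, abs_of_nonneg (by positivity : (0 : ℝ) ≤ ((j : ℝ) + 1)⁻¹)]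
    refine (mul_le_of_le_one_left (abs_nonneg _) (hone j)).trans ?_
    have hU : ∀ U : Lvls K (j + 1),
        |avgDef (jointLaw A U) F - avgDef (prodMsg A (deg_pos K) U) F|
          ≤ (∑ e : Fin S → Fin (j + 1) → Bool, |jointLaw A U e - ∏ i, siteLaw A U (e i)|)
            + (S : ℝ) * (2 * (((K : ℝ) + 1) * ((j : ℝ) + 1) ^ 2 / deg K)) := fun U => by
      refine (abs_sum_mul_sub_le _ _ _ fun e => ?_).trans ?_
      · rw [abs_of_nonneg (Finset.prod_nonneg fun a _ => sub_nonneg.2 (hF _).2)]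
        exact Finset.prod_le_one (fun a _ => sub_nonneg.2 (hF _).2)
          fun a _ => by linarith [(hF fun i => e i a).1]
      refine (Finset.sum_le_sum fun e _ => abs_sub_le _ (∏ i, siteLaw A U (e i)) _).trans ?_
      rw [Finset.sum_add_distrib]
      refine add_le_add le_rfl ((sum_abs_prod_sub_le (fun _ => siteLaw A U)
        (fun _ => msgLaw A (deg_pos K) U) (fun _ => (siteLaw_weights A U).1)
        (fun _ => (siteLaw_weights A U).2) (fun _ e => ?_) fun _ => ?_).trans ?_)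
      · exact integral_nonneg fun w0 => integral_nonneg fun ξ => (msgProd_mem A _ U e w0 ξ).1
      · have := (prodMsg_weights (S := 1) A (deg_pos K) U).2
        rw [← (Equiv.funUnique (Fin 1) (Fin (j + 1) → Bool)).symm.sum_comp] at this
        simpa [prodMsg] using this
      simp only [Finset.sum_const, Finset.card_univ, Fintype.card_fin, nsmul_eq_mul]
      refine mul_le_mul_of_nonneg_left ?_ (Nat.cast_nonneg S)
      refine (le_of_eq (Finset.sum_congr rfl fun e _ => abs_sub_comm _ _)).trans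
        ((sum_abs_msgLaw A (deg_pos K) U).trans_eq ?_)
      push_cast
      ring
    simp only [a, b, ← Finset.sum_sub_distrib, ← mul_sub]
    refine (Finset.abs_sum_le_sum_abs _ _).trans ?_
    simp only [abs_mul, abs_of_nonneg (treeW_nonneg (K := K) _)]
    refine (Finset.sum_le_sum fun U _ => mul_le_mul_of_nonneg_left (hU U) (treeW_nonneg U)).trans ?_
    simp only [mul_add, Finset.sum_add_distrib, ← Finset.sum_mul,
      sum_treeW K (j + 1) (Nat.succ_pos j), one_mul]
    refine (add_le_add (h1 A hA) h2).trans (le_of_eq ?_)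
    field_simp
    ring
  refine (abs_add_le _ _).trans ?_
  have t1 : |∑ j ∈ Finset.range T, (((j : ℝ) + 1)⁻¹ * a j - ((j : ℝ) + 1)⁻¹ * b j)| ≤ ε / 2 := by
    refine (Finset.abs_sum_le_sum_abs _ _).trans ((Finset.sum_le_sum head).trans ?_)
    rw [Finset.sum_const, Finset.card_range, nsmul_eq_mul, mul_div_assoc',
      div_le_div_iff₀ (by positivity) two_pos]
    nlinarith
  have t2 : |∑' j : ℕ, (((j + T : ℕ) : ℝ) + 1)⁻¹ * a (j + T)
      - ∑' j : ℕ, (((j + T : ℕ) : ℝ) + 1)⁻¹ * b (j + T)| ≤ ε / 2 := by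
    have hg0 : Summable fun j : ℕ => (1 - δ) ^ (j + T + 1) := by
      simpa [pow_succ, pow_add, mul_comm, mul_assoc, mul_left_comm] using
        (summable_geometric_of_lt_one (sub_nonneg.2 hδ1) (by linarith : 1 - δ < 1)).mul_left
          ((1 - δ) ^ (T + 1))
    have bound : ∀ u : ℕ → ℝ, (∀ j, 0 ≤ u j ∧ u j ≤ (1 - δ) ^ (j + 1)) →
        0 ≤ ∑' j : ℕ, (((j + T : ℕ) : ℝ) + 1)⁻¹ * u (j + T) ∧
          ∑' j : ℕ, (((j + T : ℕ) : ℝ) + 1)⁻¹ * u (j + T) ≤ ε / 2 := fun u hu => by
      refine ⟨tsum_nonneg fun j => mul_nonneg (by positivity) (hu _).1, ?_⟩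
      refine ((summable_nat_add_iff T).2 (summable_ser hδ hu hδ1)).tsum_le_tsum
        (fun j => (mul_le_of_le_one_left (hu _).1 (hone _)).trans (hu _).2) hg0 |>.trans ?_
      calc ∑' j : ℕ, (1 - δ) ^ (j + T + 1) = (1 - δ) ^ (T + 1) * ∑' j : ℕ, (1 - δ) ^ j := by
            rw [← tsum_mul_left]; exact tsum_congr fun j => by rw [← pow_add]; ring_nf
        _ = (1 - δ) ^ T * (1 - δ) / δ := by
            rw [tsum_geometric_of_lt_one (sub_nonneg.2 hδ1) (by linarith), sub_sub_cancel, pow_succ]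
            field_simp
        _ ≤ q ^ T / δ := by
            rw [hqe]
            gcongr
            exact mul_le_of_le_one_right (pow_nonneg (sub_nonneg.2 hδ1) _) (by linarith)
        _ ≤ ε / 2 := hT
    obtain ⟨p0, p1⟩ := bound a ha
    obtain ⟨q0, q1⟩ := bound b hb
    rw [abs_le]
    constructor <;> linarith
  rw [((summable_nat_add_iff T).2 hA').tsum_sub ((summable_nat_add_iff T).2 hB')]
  linarith

end Vale.Agent.P168.CavTrial
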