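import Vale.Agent.P168.CavBound.Lists
import Vale.Agent.P168.CavTrial.Series
import Vale.Agent.P168.Truncate.Trial

/-!
P168, cavity trial: integrals over lists, bounds and measurability of the cavity integrands.
-/

open MeasureTheory ProbabilityTheory Finset Filter Topology Real
open scoped NNReal

noncomputable section

namespace Vale.Agent.P168.CavTrial

variable {K Kc M : ℕ} {T : Type} [MeasurableSpace T] {τ : Measure T} [IsProbabilityMeasure τ]

/-- An almost sure property of the elements holds for all elements of a list. -/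
theorem ae_plaw {c : ℝ≥0} {P : T → Prop} (h : ∀ᵐ t ∂τ, P t) :
    ∀ᵐ p : PL T ∂plaw c τ, ∀ j, P (p.2 j) := by
  rw [plaw, Measure.ae_sum_iff]
  intro k
  refine Measure.ae_smul_measure ?_ _
  rw [(measurableEmbedding_mk k).ae_map_iff]
  exact ae_all_iff.2 fun j =>
    (measurePreserving_eval (fun _ : Fin k => τ) j).quasiMeasurePreserving.ae h

/-- The integral over a list as a mean over its length. -/
theorem integral_plaw (c : ℝ≥0) {G : PL T → ℝ} (hG : Measurable G)
    (hi : Integrable G (plaw c τ)) :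
    ∫ p, G p ∂plaw c τ
      = ∫ k, ∫ v : Fin k → T, G ⟨k, v⟩ ∂(Measure.pi fun _ => τ) ∂poissonMeasure c := by
  rw [integral_poissonMeasure, ← (hasSum_plaw hG hi).tsum_eq]
  simp only [pw_eq, smul_eq_mul]

/-- Large counts are rare, in the mean of an integrable function. -/
theorem tendsto_tail {Ω : Type*} [MeasurableSpace Ω] {P : Measure Ω} {f : Ω → ℝ} {N : Ω → ℕ}
    (hN : Measurable N) (hf : Integrable f P) :
    Tendsto (fun n : ℕ => ∫ ω, (if n < N ω then f ω else 0) ∂P) atTop (𝓝 0) := by
  have h := tendsto_integral_of_dominated_convergence (fun ω => |f ω|)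
    (F := fun n ω => if n < N ω then f ω else 0) (f := fun _ => (0 : ℝ)) (μ := P) (fun n => ?_)
    hf.abs (fun n => ae_of_all _ fun ω => ?_) (ae_of_all _ fun ω => ?_)
  · simpa using h
  · exact (hf.1.indicator (measurableSet_lt (measurable_const (a := n)) hN)).congr
      (ae_of_all _ fun ω => by simp [Set.indicator_apply])
  · split_ifs <;> simp [Real.norm_eq_abs]
  · exact tendsto_atTop_of_eventually_const (i₀ := N ω) fun n hn => if_neg (by omega)

/-- Means of two functions within an integrable bound. -/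
theorem abs_integral_sub_le {Ω : Type*} [MeasurableSpace Ω] {P : Measure Ω} {f g h : Ω → ℝ}
    (hf : Integrable f P) (hg : Integrable g P) (hh : Integrable h P)
    (hb : ∀ᵐ ω ∂P, |f ω - g ω| ≤ h ω) : |∫ ω, f ω ∂P - ∫ ω, g ω ∂P| ≤ ∫ ω, h ω ∂P := by
  rw [← integral_sub hf hg]
  exact abs_integral_le_integral_abs.trans (integral_mono_ae (hf.sub hg).abs hh hb)

variable (A : Arr K)

theorem rep_defect_mem {G : (ℕ → Bool) → ℝ} {δ : ℝ} (hG : ∀ σ, δ ≤ G σ ∧ G σ ≤ 1) {n : ℕ}
    (hn : 1 ≤ n) :
    0 ≤ A.rep (n := n) (fun _ σ => ∏ a, (1 - G (σ a))) ∧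
      A.rep (n := n) (fun _ σ => ∏ a, (1 - G (σ a))) ≤ (1 - δ) ^ n := by
  have := A.prob
  have h0 : ∀ σ : Fin n → ℕ → Bool, 0 ≤ ∏ a, (1 - G (σ a)) := fun σ =>
    Finset.prod_nonneg fun a _ => sub_nonneg.2 (hG _).2
  have h1 : ∀ σ : Fin n → ℕ → Bool, ∏ a, (1 - G (σ a)) ≤ (1 - δ) ^ n := fun σ =>
    (Finset.prod_le_prod (fun a _ => sub_nonneg.2 (hG _).2)
      fun a _ => sub_le_sub_left (hG _).1 1).trans_eq (by simp)
  refine ⟨Finset.sum_nonneg fun U _ => mul_nonneg (treeW_nonneg U)
    (integral_nonneg fun σ => h0 _), ?_⟩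
  calc _ ≤ ∑ U : Lvls K n, treeW K n U * (1 - δ) ^ n :=
        Finset.sum_le_sum fun U _ => mul_le_mul_of_nonneg_left
          ((integral_mono_of_nonneg (ae_of_all _ fun σ => h0 _) (integrable_const _)
            (ae_of_all _ fun σ => h1 _)).trans_eq (by simp)) (treeW_nonneg U)
    _ = _ := by rw [← Finset.sum_mul, sum_treeW K n hn, one_mul]

theorem logMean_hasSum {G : (ℕ → Bool) → ℝ} {δ : ℝ} (hδ : 0 < δ)
    (hG : ∀ σ, δ ≤ G σ ∧ G σ ≤ 1) :
    HasSum (fun j : ℕ => ((j : ℝ) + 1)⁻¹ * A.rep (n := j + 1) fun _ σ => ∏ a, (1 - G (σ a)))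
      (-A.logMean G) ∧ |A.logMean G| ≤ -Real.log δ := by
  have hδ1 : δ ≤ 1 := (hG fun _ => true).1.trans (hG fun _ => true).2
  have hr := fun j : ℕ => rep_defect_mem A hG (Nat.succ_pos j)
  have hs := (summable_ser hδ hr hδ1).hasSum
  have hlog := hasSum_pow_div_log_of_abs_lt_one (x := 1 - δ)
    (by rw [abs_of_nonneg (sub_nonneg.2 hδ1)]; linarith)
  rw [sub_sub_cancel] at hlog
  refine ⟨by simpa [Arr.logMean] using hs, ?_⟩
  rw [Arr.logMean, abs_neg, abs_of_nonneg (tsum_nonneg fun j => mul_nonneg (by positivity) (hr j).1)]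
  exact hasSum_le (fun j => by
    rw [inv_mul_eq_div]
    exact div_le_div_of_nonneg_right (hr j).2 (by positivity)) hs hlog

/-- The logarithm as a series is measurable in parameters where it converges. -/
theorem aestronglyMeasurable_logMean {Ω : Type} [MeasurableSpace Ω] {P : Measure Ω}
    {G : Ω → (ℕ → Bool) → ℝ} (hG : Measurable (Function.uncurry G))
    (hb : ∀ᵐ ω ∂P, ∃ δ > 0, ∀ σ, δ ≤ G ω σ ∧ G ω σ ≤ 1) :
    AEStronglyMeasurable (fun ω => A.logMean (G ω)) P := by
  have := A.prob
  have hm : ∀ n : ℕ, Measurable fun ω => A.rep (n := n) fun _ σ => ∏ a, (1 - G ω (σ a)) := fun n => by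
    refine Finset.measurable_sum _ fun U _ => Measurable.const_mul ?_ _
    refine (StronglyMeasurable.integral_prod_right' (ν := A.law)
      (f := fun q : Ω × (Pt K → ℕ → Bool) => ∏ a, (1 - G q.1 (q.2 (place U a)))) ?_).measurable
    refine (Finset.measurable_prod _ fun a _ => Measurable.const_sub ?_ 1).stronglyMeasurable
    exact hG.comp (measurable_fst.prodMk ((measurable_pi_apply (place U a)).comp measurable_snd))
  refine aestronglyMeasurable_of_tendsto_ae atTop
    (f := fun (n : ℕ) ω => -∑ j ∈ Finset.range n,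
      ((j : ℝ) + 1)⁻¹ * A.rep (n := j + 1) fun _ σ => ∏ a, (1 - G ω (σ a)))
    (fun n => (Finset.measurable_sum _ fun j _ => (hm _).const_mul _).neg.aestronglyMeasurable) ?_
  filter_upwards [hb] with ω ⟨δ, hδ, hω⟩
  simpa using (logMean_hasSum A hδ hω).1.tendsto_sum_nat.neg

theorem measurable_applyClause :
    Measurable fun q : Clause Kc × (Fin Kc → Bool) => q.1 q.2 :=
  measurable_from_prod_countable_left fun σ =>
    measurable_pi_apply (X := fun _ : Fin Kc → Bool => ℝ) σ

theorem measurable_cavU :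
    Measurable fun q : CavU Kc M × (ℕ → Bool) => cavU q.1 q.2 := by
  unfold cavU
  refine Finset.measurable_prod _ fun s _ => Finset.measurable_sum _ fun e _ => Measurable.mul ?_ ?_
  · exact measurable_exp.comp (((measurable_pi_apply s).comp
      (measurable_snd.comp measurable_fst)).mul_const _)
  · have h : Measurable fun q : PL (Clause Kc × Fin Kc) × (ℕ → Bool) =>
        ∏ j : Fin q.1.1, Real.exp ((q.1.2 j).1 fun p =>
          if p = (q.1.2 j).2 then e else q.2 (2 * Nat.pair s (Nat.pair j p))) := by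
      refine measurable_pl_prod fun k => ?_
      show Measurable fun q : (Fin k → Clause Kc × Fin Kc) × (ℕ → Bool) => ∏ j : Fin k,
        Real.exp ((q.1 j).1 fun p =>
          if p = (q.1 j).2 then e else q.2 (2 * Nat.pair s (Nat.pair j p)))
      refine Finset.measurable_prod _ fun j _ => measurable_exp.comp ?_
      have hv : Measurable fun q : (Fin k → Clause Kc × Fin Kc) × (ℕ → Bool) => q.1 j :=
        (measurable_pi_apply j).comp measurable_fst
      refine measurable_applyClause.comp
        ((measurable_fst.comp hv).prodMk (measurable_pi_lambda _ fun p => ?_))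
      exact (measurable_of_countable fun z : Fin Kc × Bool => if p = z.1 then e else z.2).comp
        ((measurable_snd.comp hv).prodMk ((measurable_pi_apply _).comp measurable_snd))
    have hi : Measurable fun q : CavU Kc M × (ℕ → Bool) => (q.1.1 s, q.2) :=
      ((measurable_pi_apply s).comp (measurable_fst.comp measurable_fst)).prodMk measurable_snd
    exact Measurable.comp (g := fun q : PL (Clause Kc × Fin Kc) × (ℕ → Bool) =>
      ∏ j : Fin q.1.1, Real.exp ((q.1.2 j).1 fun p =>
        if p = (q.1.2 j).2 then e else q.2 (2 * Nat.pair s (Nat.pair j p)))) h hi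

theorem measurable_cavV :
    Measurable fun q : PL (Clause Kc) × (ℕ → Bool) => cavV q.1 q.2 := by
  unfold cavV
  refine measurable_pl_prod fun k => ?_
  show Measurable fun q : (Fin k → Clause Kc) × (ℕ → Bool) => ∏ j : Fin k,
    Real.exp (q.1 j fun p => q.2 (2 * Nat.pair j p + 1))
  refine Finset.measurable_prod _ fun j _ => measurable_exp.comp ?_
  have h1 : Measurable fun q : (Fin k → Clause Kc) × (ℕ → Bool) =>
      (q.1 j, fun p : Fin Kc => q.2 (2 * Nat.pair j p + 1)) :=
    ((measurable_pi_apply j).comp measurable_fst).prodMk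
      (measurable_pi_lambda _ fun p => (measurable_pi_apply _).comp measurable_snd)
  exact Measurable.comp (g := fun q : Clause Kc × (Fin Kc → Bool) => q.1 q.2)
    measurable_applyClause h1

theorem measurable_len : Measurable fun p : PL T => p.1 :=
  measurable_pl fun k => measurable_const (a := k)

end Vale.Agent.P168.CavTrial
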