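import Vale.Agent.P168.Model
import Vale.Agent.P168.Tel.Step

/-!
P168, cavity trial: laws of the spins of placed replicas, the site decoupling consumed by the trial
side, and elementary facts on the tree weights and on products of weights.
-/

open MeasureTheory ProbabilityTheory Finset

noncomputable section

namespace Vale.Agent.P168.CavTrial

variable {K n S : ℕ}

/-- The law of the spins of the placed replicas at one site. -/
def siteLaw (A : Arr K) (U : Lvls K n) (e : Fin n → Bool) : ℝ :=
  A.law.real {σ | ∀ a, σ (place U a) 0 = e a}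

/-- The law of the spins of the placed replicas at the first `S` sites. -/
def jointLaw (A : Arr K) (U : Lvls K n) (e : Fin S → Fin n → Bool) : ℝ :=
  A.law.real {σ | ∀ (i : Fin S) a, σ (place U a) (i : ℕ) = e i a}

/-- Replicas decouple between finitely many sites, on average over the tree. -/
def HybridStmt : Prop :=
  ∀ C : ℕ → ℝ, ∀ n S : ℕ, ∀ ε > (0 : ℝ), ∃ K0 : ℕ, ∀ K ≥ K0, ∀ A : Arr K, A.Tel C →
    ∑ U : Lvls K n, treeW K n U *
      ∑ e : Fin S → Fin n → Bool, |jointLaw A U e - ∏ i, siteLaw A U (e i)| ≤ ε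

theorem sum_treeW (K : ℕ) : ∀ n : ℕ, 1 ≤ n → ∑ U : Lvls K n, treeW K n U = 1
  | 0, h => absurd h (by omega)
  | 1, _ => by
    simp only [treeW]
    rw [Finset.sum_eq_single fun _ _ => Fin.last K]
    · simp
    · intro U _ hU
      refine if_neg fun h => hU (funext fun a => funext fun b => ?_)
      rw [Subsingleton.elim a 0, Subsingleton.elim b 0, h]
    · simp
  | n + 2, _ => by
    classical
    have ih := sum_treeW K (n + 1) (Nat.succ_pos n)
    rw [← Finset.sum_fiberwise univ (Lvls.init : Lvls K (n + 2) → Lvls K (n + 1))]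
    refine (Finset.sum_congr rfl fun U _ => ?_).trans ih
    rw [Finset.sum_filter]
    by_cases hU : U.IsTree
    · have h := treeW_marg hU (0 : Fin (n + 1)) (Nat.zero_le K)
      have h0 : mpar K 0 = 0 := by simp [mpar]
      rw [Lvls.node_zero, Finset.card_univ, Fintype.card_fin, h0, sub_zero,
        div_self (by positivity), mul_one] at h
      simpa using h
    · rw [treeW_eq_zero hU]
      refine Finset.sum_eq_zero fun U' _ => ?_
      split_ifs with h
      · exact treeW_eq_zero fun h' => hU (h ▸ h'.init)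
      · rfl

/-- Products of probability weights are close when the factors are. -/
theorem sum_abs_prod_sub_le {α : Type*} [Fintype α] [DecidableEq α] : ∀ {S : ℕ} (p q : Fin S → α → ℝ),
    (∀ i a, 0 ≤ p i a) → (∀ i, ∑ a, p i a = 1) → (∀ i a, 0 ≤ q i a) → (∀ i, ∑ a, q i a = 1) →
    ∑ e : Fin S → α, |∏ i, p i (e i) - ∏ i, q i (e i)| ≤ ∑ i, ∑ a, |p i a - q i a|
  | 0, _, _, _, _, _, _ => by simp
  | S + 1, p, q, hp, hp1, hq, hq1 => by
    have ih := sum_abs_prod_sub_le (fun i => p i.succ) (fun i => q i.succ) (fun i => hp _)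
      (fun i => hp1 _) (fun i => hq _) (fun i => hq1 _)
    have hP : ∑ e : Fin S → α, ∏ i, p i.succ (e i) = 1 := by
      rw [← Fintype.prod_sum (fun (i : Fin S) a => p i.succ a)]
      exact Finset.prod_eq_one fun i _ => hp1 _
    rw [← (Fin.consEquiv fun _ : Fin (S + 1) => α).sum_comp, Fintype.sum_prod_type,
      Fin.sum_univ_succ (fun i => ∑ a, |p i a - q i a|)]
    have key : ∀ a (e : Fin S → α),
        |∏ i, p i ((Fin.consEquiv fun _ : Fin (S + 1) => α) (a, e) i)
            - ∏ i, q i ((Fin.consEquiv fun _ : Fin (S + 1) => α) (a, e) i)|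
          ≤ |p 0 a - q 0 a| * ∏ i, p i.succ (e i)
            + q 0 a * |∏ i, p i.succ (e i) - ∏ i, q i.succ (e i)| := fun a e => by
      simp only [Fin.consEquiv_apply, Fin.prod_univ_succ, Fin.cons_zero, Fin.cons_succ]
      calc _ = |(p 0 a - q 0 a) * ∏ i, p i.succ (e i)
            + q 0 a * (∏ i, p i.succ (e i) - ∏ i, q i.succ (e i))| := by ring_nf
        _ ≤ _ := (abs_add_le _ _).trans_eq (by
            rw [abs_mul, abs_mul, abs_of_nonneg (hq 0 a),
              abs_of_nonneg (Finset.prod_nonneg fun i _ => hp _ _)])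
    refine (Finset.sum_le_sum fun a _ => Finset.sum_le_sum fun e _ => key a e).trans ?_
    simp only [Finset.sum_add_distrib, ← Finset.mul_sum, hP, mul_one, ← Finset.sum_mul]
    rw [hq1 0, one_mul]
    exact add_le_add le_rfl ih

/-- Averaging a function of values in `[-1, 1]` against close weights. -/
theorem abs_sum_mul_sub_le {α : Type*} [Fintype α] (p q φ : α → ℝ) (hφ : ∀ a, |φ a| ≤ 1) :
    |∑ a, p a * φ a - ∑ a, q a * φ a| ≤ ∑ a, |p a - q a| := by
  rw [← Finset.sum_sub_distrib]
  refine (Finset.abs_sum_le_sum_abs _ _).trans (Finset.sum_le_sum fun a _ => ?_)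
  rw [← sub_mul, abs_mul]
  exact mul_le_of_le_one_right (abs_nonneg _) (hφ a)

theorem measurableSet_siteEvent (p : Fin n → Pt K) (i : ℕ) (e : Fin n → Bool) :
    MeasurableSet {σ : Pt K → ℕ → Bool | ∀ a, σ (p a) i = e a} := by
  simp only [Set.setOf_forall]
  exact MeasurableSet.iInter fun a =>
    measurableSet_eq_fun (f := fun σ : Pt K → ℕ → Bool => σ (p a) i) (by fun_prop) measurable_const

/-- A finite configuration of replicas at finitely many sites as weights. -/
theorem integral_places (A : Arr K) {ι : Type*} [Fintype ι] [DecidableEq ι] (p : Fin n → Pt K)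
    (g : ι → ℕ) (Φ : (ι → Fin n → Bool) → ℝ) :
    ∫ σ, Φ (fun i a => σ (p a) (g i)) ∂A.law
      = ∑ e, A.law.real {σ | ∀ i a, σ (p a) (g i) = e i a} * Φ e := by
  have := A.prob
  have hm : Measurable fun (σ : Pt K → ℕ → Bool) (i : ι) (a : Fin n) => σ (p a) (g i) := by fun_prop
  rw [← integral_map hm.aemeasurable (Measurable.of_discrete.aestronglyMeasurable),
    integral_fintype (Integrable.of_finite)]
  refine Finset.sum_congr rfl fun e _ => ?_
  rw [smul_eq_mul, map_measureReal_apply hm (MeasurableSet.singleton e)]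
  congr 2
  ext σ
  simp [funext_iff]

/-- The spins at any distinct sites have the law of the first sites. -/
theorem real_sites (A : Arr K) (U : Lvls K n) {g : Fin S → ℕ} (hg : Function.Injective g)
    (e : Fin S → Fin n → Bool) :
    A.law.real {σ | ∀ i a, σ (place U a) (g i) = e i a} = jointLaw A U e := by
  classical
  set B := ∑ i, g i + 1
  set τ : ℕ → ℕ := fun k => if h : k < S then g ⟨k, h⟩ else k + B with hτ
  have hgB : ∀ i, g i < B := fun i =>
    Nat.lt_succ_of_le (Finset.single_le_sum (fun j _ => Nat.zero_le (g j)) (Finset.mem_univ i))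
  have hτi : Function.Injective τ := fun x y h => by
    simp only [hτ] at h
    split_ifs at h with h1 h2 h2
    · exact congrArg Fin.val (hg h)
    · have := hgB ⟨x, h1⟩; omega
    · have := hgB ⟨y, h2⟩; omega
    · omega
  set Φ : (Fin n → ℕ → Bool) → ℝ := fun v => if (∀ (i : Fin S) a, v a i = e i a) then 1 else 0
  have hΦ : Measurable Φ := by
    refine Measurable.ite ?_ measurable_const measurable_const
    simp only [Set.setOf_forall]
    exact MeasurableSet.iInter fun i => MeasurableSet.iInter fun a =>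
      measurableSet_eq_fun (f := fun v : Fin n → ℕ → Bool => v a i) (by fun_prop) measurable_const
  have h := A.integral_congr (p := fun a => place U a) (q := fun a => place U a) (fun _ _ => rfl)
    (fun _ _ => Iff.rfl) hτi hΦ
  have e1 : ∀ c : Fin S → ℕ, ∀ Ψ, Ψ = (fun σ : Pt K → ℕ → Bool =>
      if (∀ i a, σ (place U a) (c i) = e i a) then (1 : ℝ) else 0) →
      ∫ σ, Ψ σ ∂A.law = A.law.real {σ | ∀ i a, σ (place U a) (c i) = e i a} := fun c Ψ hΨ => by
    subst hΨ
    have := A.prob
    rw [← integral_indicator_one (by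
      simp only [Set.setOf_forall]
      exact MeasurableSet.iInter fun i => MeasurableSet.iInter fun a =>
        measurableSet_eq_fun (f := fun σ : Pt K → ℕ → Bool => σ (place U a) (c i)) (by fun_prop)
          measurable_const)]
    simp [Set.indicator_apply]
  rw [← e1 g _ rfl, jointLaw, ← e1 (fun i => (i : ℕ)) _ rfl]
  have hg' : ∀ i : Fin S, τ (i : ℕ) = g i := fun i => by simp [hτ]
  simpa only [Φ, hg'] using h

theorem jointLaw_weights (A : Arr K) (U : Lvls K n) :
    (∀ e : Fin S → Fin n → Bool, 0 ≤ jointLaw A U e) ∧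
      ∑ e : Fin S → Fin n → Bool, jointLaw A U e = 1 := by
  have := A.prob
  refine ⟨fun e => measureReal_nonneg, ?_⟩
  have h := integral_places A (place U) (fun i : Fin S => (i : ℕ)) fun _ => 1
  simp only [mul_one, integral_const, probReal_univ, one_smul] at h
  exact h.symm

theorem siteLaw_weights (A : Arr K) (U : Lvls K n) :
    (∀ e : Fin n → Bool, 0 ≤ siteLaw A U e) ∧ ∑ e : Fin n → Bool, siteLaw A U e = 1 := by
  refine ⟨fun e => measureReal_nonneg, ?_⟩
  obtain ⟨-, h⟩ := jointLaw_weights (S := 1) A U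
  rw [← (Equiv.funUnique (Fin 1) (Fin n → Bool)).symm.sum_comp] at h
  simpa [jointLaw, siteLaw, Fin.forall_fin_one] using h

end Vale.Agent.P168.CavTrial
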