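import Vale.Agent.P168.CavTrial.Place
import Vale.Agent.P168.CavTrial.Weights

/-!
P168, cavity: replacing the sites one by one.
-/

open MeasureTheory Filter Topology

noncomputable section

namespace Vale.Agent.P168

variable {K n : ℕ}

open CavTrial (siteLaw jointLaw HybridStmt)

namespace Arr

variable (A : Arr K)

/-- A centred observable at a fresh site correlates little with the other sites. -/
theorem integral_fresh_le {x : Obs K} (hx : Bdd x) {k : ℕ} {W : (Pt K → ℕ → Bool) → ℝ}
    (hW : Measurable W) (hW1 : ∀ σ, |W σ| ≤ 1)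
    (hWk : ∀ σ τ, (∀ a, ∀ i < k, σ a i = τ a i) → W σ = W τ) :
    |∫ σ, W σ * x (fun a => σ a k) ∂A.law| ≤ A.nrm x := by
  have := A.prob
  obtain ⟨B, hB⟩ := hx.2
  set c := ∫ σ, W σ * x (fun a => σ a k) ∂A.law
  have hmx : ∀ i, Measurable fun σ : Pt K → ℕ → Bool => x fun a => σ a i :=
    fun i => hx.1.comp (measurable_site i)
  have hWx : ∀ i, Integrable (fun σ => W σ * x fun a => σ a i) A.law := fun i =>
    A.integrable_of_bdd (hW.mul (hmx i)) (B := B) fun σ => by
      rw [abs_mul]
      exact (mul_le_of_le_one_left (abs_nonneg _) (hW1 σ)).trans (hB _)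
  have hc : ∀ m, ∫ σ, W σ * x (fun a => σ a (k + m)) ∂A.law = c := fun m => by
    have h := A.integral_relabel (F := fun σ => W σ * x fun a => σ a k) (hW.mul (hmx k))
      isTreeMap_id (Equiv.injective (Equiv.swap k (k + m)))
    refine (integral_congr_ae (.of_forall fun σ => ?_)).trans h
    simp only [id, Equiv.swap_apply_left]
    rw [hWk σ (fun a i => σ a (Equiv.swap k (k + m) i)) fun a i hi => by
      rw [Equiv.swap_apply_of_ne_of_ne (by omega) (by omega)]]
  have hP := A.pair_self_nonneg hx
  have hm : 0 ≤ A.mean (x * x) := integral_nonneg fun σ => mul_self_nonneg _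
  refine le_of_forall_pos_le_add fun ε hε => ?_
  set r := A.nrm x + ε / 2
  have hr : 0 < r := add_pos_of_nonneg_of_pos (A.nrm_nonneg x) (half_pos hε)
  obtain ⟨M, hM⟩ := exists_nat_gt (A.mean (x * x) / (ε * r))
  have hM0 : 0 < M := Nat.cast_pos.1 ((by positivity : (0 : ℝ) ≤ _).trans_lt hM)
  have hM' : (0 : ℝ) < M := Nat.cast_pos.2 hM0
  set S := fun σ : Pt K → ℕ → Bool => ∑ m ∈ Finset.range M, x fun a => σ a (k + m)
  have hS : ∫ σ, W σ * S σ ∂A.law = M * c := by
    simp only [S, Finset.mul_sum]
    rw [integral_finsetSum _ fun m _ => hWx (k + m), Finset.sum_congr rfl fun m _ => hc m]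
    simp
  have hiS : Integrable (fun σ => S σ ^ 2) A.law := by
    simp only [S, sq, Finset.sum_mul_sum]
    exact integrable_finsetSum _ fun i _ => integrable_finsetSum _ fun j _ =>
      A.integrable_two hx hx (k + i) (k + j)
  have hS2 : ∫ σ, S σ ^ 2 ∂A.law ≤ (M : ℝ) * M * A.pair x x + M * A.mean (x * x) := by
    simp only [S, sq, Finset.sum_mul_sum]
    rw [integral_finsetSum _ fun i _ => integrable_finsetSum _ fun j _ =>
      A.integrable_two hx hx (k + i) (k + j)]
    simp_rw [integral_finsetSum _ fun j _ => A.integrable_two hx hx _ (k + j)]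
    calc _ ≤ ∑ i ∈ Finset.range M, ∑ j ∈ Finset.range M,
          (A.pair x x + if i = j then A.mean (x * x) else 0) := by
          refine Finset.sum_le_sum fun i _ => Finset.sum_le_sum fun j _ => ?_
          rcases eq_or_ne i j with rfl | hij
          · have e := A.site_eq (x := x * x) (hx.1.mul hx.1) (k + i)
            simp only [Pi.mul_apply] at e
            rw [e, if_pos rfl]
            exact le_add_of_nonneg_left hP
          · rw [A.two_site_eq hx.1 hx.1 (fun h => hij (Nat.add_left_cancel h)), if_neg hij,
              add_zero]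
      _ = _ := by
          simp only [Finset.sum_add_distrib, Finset.sum_const, Finset.card_range, nsmul_eq_mul,
            Finset.sum_ite_eq]
          rw [Finset.sum_congr rfl fun i hi => if_pos hi]
          simp only [Finset.sum_const, Finset.card_range, nsmul_eq_mul]
          ring
  have habs : |(M : ℝ) * c| ≤ (∫ σ, S σ ^ 2 ∂A.law) / (2 * (M * r)) + M * r / 2 := by
    rw [← hS]
    refine (abs_integral_le_integral_abs).trans ?_
    rw [← integral_div]
    refine (integral_mono ?_ ((hiS.div_const (2 * (M * r))).add (integrable_const (M * r / 2 : ℝ)))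
      fun σ => ?_).trans_eq ?_
    · simp only [S, Finset.mul_sum]
      exact (integrable_finsetSum _ fun m _ => hWx (k + m)).abs
    · simp only [Pi.add_apply]
      rw [abs_mul]
      refine (mul_le_of_le_one_left (abs_nonneg _) (hW1 σ)).trans ?_
      rw [div_add_div _ _ (by positivity) two_ne_zero, le_div_iff₀ (by positivity)]
      nlinarith [sq_nonneg (|S σ| - M * r), sq_abs (S σ)]
    · simp only [Pi.add_apply]
      rw [integral_add (hiS.div_const _) (integrable_const _)]
      simp
  rw [abs_mul, abs_of_pos hM'] at habs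
  have h2 : A.mean (x * x) ≤ ε * r * M := by
    rw [div_lt_iff₀ (by positivity)] at hM
    linarith
  have h3 : A.pair x x ≤ r ^ 2 := by
    rw [← A.nrm_sq hx]
    exact pow_le_pow_left₀ (A.nrm_nonneg x) (le_add_of_nonneg_right (half_pos hε).le) 2
  have h4 := habs.trans (add_le_add (div_le_div_of_nonneg_right hS2 (by positivity)) le_rfl)
  have h5 : ((M : ℝ) * M * A.pair x x + M * A.mean (x * x)) / (2 * (M * r))
      ≤ M * r / 2 + M * ε / 2 := by
    rw [div_le_iff₀ (by positivity)]
    have := mul_le_mul_of_nonneg_left h3 (mul_nonneg hM'.le hM'.le)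
    have := mul_le_mul_of_nonneg_left h2 hM'.le
    linarith
  refine le_of_mul_le_mul_left ?_ hM'
  simp only [r] at h4 h5
  linarith

/-- The indicator of given spins of placed replicas. -/
def ind (U : Lvls K n) (v : Fin n → Bool) : Obs K :=
  fun σ => ∏ a, if σ (place U a) = v a then 1 else 0

theorem unit_ind (U : Lvls K n) (v : Fin n → Bool) : Unit1 (ind U v) := by
  refine ⟨Finset.measurable_fun_prod _ fun a _ => ?_, fun σ => ?_⟩
  · exact (measurable_of_finite fun b : Bool => if b = v a then (1 : ℝ) else 0).comp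
      (measurable_pi_apply (place U a))
  · simp only [ind]
    rw [Finset.abs_prod]
    refine Finset.prod_le_one (fun a _ => abs_nonneg _) fun a _ => ?_
    split_ifs <;> simp

theorem ind_eq (U : Lvls K n) (v : Fin n → Bool) : ind U v =
    ∑ T ∈ (Finset.univ : Finset (Fin n)).powerset,
      ((2 : ℝ)⁻¹ ^ n * ∏ a ∈ T, sgn (v a)) • spinT U T := by
  funext σ
  simp only [ind, spinT, Finset.sum_apply, Pi.smul_apply, smul_eq_mul, mul_assoc, ← Finset.mul_sum,
    ← Finset.prod_mul_distrib]
  have h : ∀ a, (if σ (place U a) = v a then (1 : ℝ) else 0)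
      = 2⁻¹ * (sgn (v a) * sgn (σ (place U a)) + 1) := fun a => by
    cases σ (place U a) <;> cases v a <;> norm_num [sgn]
  rw [Finset.prod_congr rfl fun a _ => h a, Finset.prod_mul_distrib, Finset.prod_const,
    Finset.card_univ, Fintype.card_fin, Finset.prod_add_one]

theorem nrm_centred_ind_le (U : Lvls K n) (v : Fin n → Bool) :
    A.nrm (A.centred (ind U v)) ≤ ∑ T : Finset (Fin n), A.nrm (A.centred (spinT U T)) := by
  have hb : ∀ T, Bdd (A.centred (spinT U T)) := fun T => A.bdd_centred (unit_spinT U T).bdd
  set c := fun T : Finset (Fin n) => (2 : ℝ)⁻¹ ^ n * ∏ a ∈ T, sgn (v a)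
  have hm : A.mean (ind U v) = ∑ T ∈ (Finset.univ : Finset (Fin n)).powerset,
      c T * A.mean (spinT U T) := by
    rw [ind_eq]
    simp only [mean, Finset.sum_apply, Pi.smul_apply, smul_eq_mul]
    rw [integral_finsetSum _ fun T _ => (A.integrable_site (unit_spinT U T).bdd 0).const_mul _]
    exact Finset.sum_congr rfl fun T _ => integral_const_mul _ _
  have e : A.centred (ind U v) = ∑ T ∈ (Finset.univ : Finset (Fin n)).powerset,
      c T • A.centred (spinT U T) := by
    funext σ
    simp only [centred, Pi.sub_apply, Finset.sum_apply, Pi.smul_apply, smul_eq_mul, hm, mul_sub,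
      Finset.sum_sub_distrib]
    congr 1
    rw [ind_eq]
    simp only [c, Finset.sum_apply, Pi.smul_apply, smul_eq_mul]
  rw [e, Finset.powerset_univ]
  refine (A.nrm_sum_le _ fun T _ => (hb T).smul _).trans (Finset.sum_le_sum fun T _ => ?_)
  rw [A.nrm_smul]
  refine mul_le_of_le_one_left (A.nrm_nonneg _) ?_
  simp only [c, abs_mul, Finset.abs_prod, sgn_abs, Finset.prod_const_one, mul_one]
  rw [abs_of_nonneg (by positivity)]
  exact pow_le_one₀ (by norm_num) (by norm_num)

theorem mean_ind (U : Lvls K n) (v : Fin n → Bool) : A.mean (ind U v) = siteLaw A U v := by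
  have := A.prob
  have hm : MeasurableSet {σ : Pt K → ℕ → Bool | ∀ a, σ (place U a) 0 = v a} := by
    rw [Set.ofPred_forall]
    refine MeasurableSet.iInter fun a => ?_
    have h : Measurable fun σ : Pt K → ℕ → Bool => σ (place U a) 0 :=
      (measurable_pi_apply 0).comp (measurable_pi_apply (place U a))
    exact h (measurableSet_singleton (v a))
  rw [siteLaw, ← integral_indicator_one hm, mean]
  refine integral_congr_ae (.of_forall fun σ => ?_)
  simp only [ind, Fintype.prod_boole, Set.indicator_apply, Set.mem_ofPred_eq, Pi.one_apply]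
  congr

/-- The product of the indicators at the first sites. -/
def inds (U : Lvls K n) {S : ℕ} (e : Fin S → Fin n → Bool) (σ : Pt K → ℕ → Bool) : ℝ :=
  ∏ i : Fin S, ind U (e i) fun a => σ a (i : ℕ)

theorem measurable_inds (U : Lvls K n) {S : ℕ} (e : Fin S → Fin n → Bool) :
    Measurable (inds U e) :=
  Finset.measurable_fun_prod _ fun i _ => (unit_ind U (e i)).1.comp (measurable_site (i : ℕ))

theorem abs_inds_le (U : Lvls K n) {S : ℕ} (e : Fin S → Fin n → Bool) (σ : Pt K → ℕ → Bool) :
    |inds U e σ| ≤ 1 := by
  simp only [inds, Finset.abs_prod]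
  exact Finset.prod_le_one (fun i _ => abs_nonneg _) fun i _ => (unit_ind U (e i)).2 _

theorem integral_inds (U : Lvls K n) {S : ℕ} (e : Fin S → Fin n → Bool) :
    ∫ σ, inds U e σ ∂A.law = jointLaw A U e := by
  have := A.prob
  have hm : MeasurableSet {σ : Pt K → ℕ → Bool | ∀ (i : Fin S) a, σ (place U a) (i : ℕ) = e i a} := by
    simp only [Set.ofPred_forall]
    refine MeasurableSet.iInter fun i => MeasurableSet.iInter fun a => ?_
    have h : Measurable fun σ : Pt K → ℕ → Bool => σ (place U a) (i : ℕ) :=
      (measurable_pi_apply (i : ℕ)).comp (measurable_pi_apply (place U a))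
    exact h (measurableSet_singleton (e i a))
  rw [jointLaw, ← integral_indicator_one hm]
  refine integral_congr_ae (.of_forall fun σ => ?_)
  simp only [inds, ind, Fintype.prod_boole, Set.indicator_apply, Set.mem_ofPred_eq, Pi.one_apply]
  by_cases h : ∀ (i : Fin S) a, σ (place U a) (i : ℕ) = e i a
  · rw [if_pos h]
    exact Finset.prod_eq_one fun i _ => if_pos (h i)
  · rw [if_neg h]
    push Not at h
    obtain ⟨i, a, hia⟩ := h
    exact Finset.prod_eq_zero (Finset.mem_univ i) (if_neg fun h' => hia (h' a))

theorem siteLaw_mem (U : Lvls K n) (v : Fin n → Bool) : |siteLaw A U v| ≤ 1 := by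
  rw [← mean_ind]
  exact A.abs_mean_le_one (unit_ind U v)

/-- The joint law is close to the product. -/
theorem abs_jointLaw_sub (U : Lvls K n) : ∀ (S : ℕ) (e : Fin S → Fin n → Bool),
    |jointLaw A U e - ∏ i, siteLaw A U (e i)|
      ≤ S * ∑ T : Finset (Fin n), A.nrm (A.centred (spinT U T))
  | 0, e => by
    have := A.prob
    simp [← A.integral_inds U e, inds]
  | S + 1, e => by
    have := A.prob
    set e' := fun i : Fin S => e i.castSucc
    set v := e (Fin.last S)
    set Fl := ∑ T : Finset (Fin n), A.nrm (A.centred (spinT U T))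
    have hb : Bdd (A.centred (ind U v)) := A.bdd_centred (unit_ind U v).bdd
    have hsplit : jointLaw A U e = (∫ σ, inds U e' σ * A.centred (ind U v) (fun a => σ a S) ∂A.law)
        + siteLaw A U v * jointLaw A U e' := by
      obtain ⟨B, hB⟩ := hb.2
      have hi : Integrable (fun σ => inds U e' σ * A.centred (ind U v) fun a => σ a S) A.law :=
        A.integrable_of_bdd ((measurable_inds U e').mul (hb.1.comp (measurable_site S))) (B := B)
          fun σ => by
            rw [abs_mul]
            exact (mul_le_of_le_one_left (abs_nonneg _) (abs_inds_le U e' σ)).trans (hB _)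
      have hi' : Integrable (fun σ => siteLaw A U v * inds U e' σ) A.law :=
        (A.integrable_of_bdd (measurable_inds U e') (abs_inds_le U e')).const_mul _
      rw [← A.integral_inds U e', ← integral_const_mul, ← integral_add hi hi', ← A.integral_inds U e]
      refine integral_congr_ae (.of_forall fun σ => ?_)
      simp only [inds, Fin.prod_univ_castSucc, Fin.val_last, Fin.val_castSucc, centred,
        Pi.sub_apply, A.mean_ind, e', v]
      ring
    have h1 : |∫ σ, inds U e' σ * A.centred (ind U v) (fun a => σ a S) ∂A.law| ≤ Fl :=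
      (A.integral_fresh_le hb (measurable_inds U e') (abs_inds_le U e') fun σ τ h => by
        simp only [inds]
        exact Finset.prod_congr rfl fun i _ => congrArg _ (funext fun a => h a _ i.isLt)).trans
        (A.nrm_centred_ind_le U v)
    have h2 := abs_jointLaw_sub U S e'
    rw [Fin.prod_univ_castSucc, hsplit, Nat.cast_succ, add_one_mul]
    rw [show (∫ σ, inds U e' σ * A.centred (ind U v) (fun a => σ a S) ∂A.law)
        + siteLaw A U v * jointLaw A U e' - (∏ i : Fin S, siteLaw A U (e i.castSucc)) * siteLaw A U v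
      = (∫ σ, inds U e' σ * A.centred (ind U v) (fun a => σ a S) ∂A.law)
        + siteLaw A U v * (jointLaw A U e' - ∏ i : Fin S, siteLaw A U (e i.castSucc)) by ring]
    refine (abs_add_le _ _).trans ?_
    rw [abs_mul]
    have h3 := mul_le_of_le_one_left
      (abs_nonneg (jointLaw A U e' - ∏ i : Fin S, siteLaw A U (e i.castSucc))) (A.siteLaw_mem U v)
    simp only [e'] at h2 h3 h1 ⊢
    linarith

end Arr

/-- Sites decouple on average over the tree. -/
theorem hybridStmt : HybridStmt := by
  intro C n S ε hε
  set N : ℝ := (Fintype.card (Fin S → Fin n → Bool) : ℝ) * S * Fintype.card (Finset (Fin n))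
  obtain ⟨K0, hK0⟩ := eventually_atTop.1
    (tree_decoupling C n (show 0 < ε / (N + 1) by positivity))
  refine ⟨K0, fun K hK A hA => ?_⟩
  have h := hK0 K hK A hA
  calc ∑ U : Lvls K n, treeW K n U *
        ∑ e : Fin S → Fin n → Bool, |jointLaw A U e - ∏ i, siteLaw A U (e i)|
      ≤ ∑ U : Lvls K n, treeW K n U * ((Fintype.card (Fin S → Fin n → Bool) : ℝ) *
          (S * ∑ T : Finset (Fin n), A.nrm (A.centred (spinT U T)))) := by
        refine Finset.sum_le_sum fun U _ => mul_le_mul_of_nonneg_left ?_ (treeW_nonneg U)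
        refine (Finset.sum_le_card_nsmul _ _ _ fun e _ => A.abs_jointLaw_sub U S e).trans_eq ?_
        rw [nsmul_eq_mul, Finset.card_univ]
    _ = (Fintype.card (Fin S → Fin n → Bool) : ℝ) * S *
          ∑ T : Finset (Fin n), ∑ U : Lvls K n, treeW K n U * A.nrm (A.centred (spinT U T)) := by
        rw [Finset.sum_comm, Finset.mul_sum]
        refine Finset.sum_congr rfl fun U _ => ?_
        simp only [Finset.mul_sum]
        exact Finset.sum_congr rfl fun T _ => by ring
    _ ≤ (Fintype.card (Fin S → Fin n → Bool) : ℝ) * S *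
          (Fintype.card (Finset (Fin n)) * (ε / (N + 1))) := by
        refine mul_le_mul_of_nonneg_left ?_ (by positivity)
        refine (Finset.sum_le_card_nsmul _ _ _ fun T _ => h T).trans_eq ?_
        rw [nsmul_eq_mul, Finset.card_univ]
    _ ≤ ε := by
        rw [← mul_assoc, mul_div_assoc', div_le_iff₀ (by positivity)]
        simp only [N]
        nlinarith

end Vale.Agent.P168
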