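import Vale.Agent.P168.CavTrial.Rec0
import Vale.Agent.P168.CavTrial.Series

/-!
P168, cavity trial: the factors of the cavity at the messages give the variables `U` and `V` of
the trial functional.
-/

open MeasureTheory ProbabilityTheory Finset Filter Real

noncomputable section

namespace Vale.Agent.P168.CavTrial

open P157.Casc (casc)

variable {K Kc J : ℕ}

/-- A factor of the spins averaged at the messages. -/
def mix {ι : Type} [Fintype ι] [DecidableEq ι] (x : (Fin (K + 1) → ℝ) → ℝ) (G : (ι → Bool) → ℝ)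
    (w : Fin (K + 1) → ι → ℝ) : ℝ :=
  ∑ E, G E * ∏ i, (1 + x (fun p => w p i) * sgn (E i)) / 2

/-- The averaged recursion of a factor at the messages. -/
def recMix {ι : Type} [Fintype ι] [DecidableEq ι] (p : Param K) (G : (ι → Bool) → ℝ) : ℝ :=
  rec0 (Measure.pi fun _ : ι => u01) p.m fun w => log (mix p.x G w)

theorem measurable_mix {ι : Type} [Fintype ι] [DecidableEq ι] (p : Param K)
    (G : (ι → Bool) → ℝ) : Measurable (mix p.x G) :=
  Finset.measurable_sum _ fun E _ => (Finset.measurable_prod _ fun i _ =>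
    (((p.meas.comp (measurable_pi_lambda _ fun l =>
      (measurable_pi_apply i).comp (measurable_pi_apply l))).mul_const _).const_add 1).div_const
        2).const_mul _

theorem cons_eval {ι : Type} (w₀ : ι → ℝ) (y : Fin K → ι → ℝ) (i : ι) :
    (fun p => (Fin.cons w₀ y : Fin (K + 1) → ι → ℝ) p i) = Fin.cons (w₀ i) fun l => y l i :=
  funext fun p => Fin.cases rfl (fun _ => rfl) p

theorem trialLog_eq_recMix {S : ℕ} (A : Arr K) (hJ : 0 < J) (F : (Fin S → Bool) → ℝ) :
    trialLog A hJ F = recMix (trialParam A hJ) F := by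
  unfold trialLog recMix rec0
  simp only [mixG, mix, cons_eval]
  rfl

/-- Renumbering of the sites. -/
theorem recMix_reindex {ι : Type} [Fintype ι] [DecidableEq ι] {S : ℕ} (p : Param K)
    (e : Fin S ≃ ι) (G : (ι → Bool) → ℝ) :
    recMix p (fun b => G fun i => b (e.symm i)) = recMix p G := by
  have h : ∀ w : Fin (K + 1) → Fin S → ℝ, mix p.x (fun b => G fun i => b (e.symm i)) w
      = mix p.x G fun l i => w l (e.symm i) := fun w => by
    unfold mix
    refine Fintype.sum_equiv (Equiv.arrowCongr e (Equiv.refl Bool)) _ _ fun b => ?_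
    refine congrArg₂ (· * ·) rfl (Fintype.prod_equiv e _ _ fun i => ?_)
    simp
  unfold recMix
  simp only [h]
  exact rec0_map (P157.mp_comp u01 (e := fun i => e.symm i) e.symm.injective)
    (measurable_log.comp (measurable_mix p G))

/-- The factor of one clause with one spin fixed. -/
theorem sum_fix (v : Fin Kc → ℝ) (l : Fin Kc) (e : Bool) (θ : Clause Kc) :
    ∑ σ : Fin Kc → Bool, Real.exp (θ fun i => if i = l then e else σ i) * ∏ i, msgW v i (σ i)
      = ∑ σ, fixW v l e σ * Real.exp (θ σ) := by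
  classical
  rw [← (Equiv.funSplitAt l Bool).symm.sum_comp, Fintype.sum_prod_type]
  rw [← (Equiv.funSplitAt l Bool).symm.sum_comp (fun σ => fixW v l e σ * Real.exp (θ σ)),
    Fintype.sum_prod_type]
  set s := fun (b : Bool) (r : {j // j ≠ l} → Bool) => (Equiv.funSplitAt l Bool).symm (b, r)
  have hl : ∀ b r, s b r l = b := fun b r => by simp [s, Equiv.funSplitAt, Equiv.piSplitAt]
  have hr : ∀ b b' r i, i ≠ l → s b r i = s b' r i := fun b b' r i hi => by
    simp [s, Equiv.funSplitAt, Equiv.piSplitAt, hi]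
  have h1 : ∀ b r, (fun i => if i = l then e else s b r i) = s e r := fun b r => funext fun i => by
    by_cases hi : i = l
    · subst hi; simp [hl]
    · simp [hi, hr b e r i hi]
  have h2 : ∀ b r, ∏ i, msgW v i (s b r i)
      = msgW v l b * ∏ i ∈ Finset.univ.erase l, msgW v i (s e r i) := fun b r => by
    rw [← Finset.mul_prod_erase _ _ (Finset.mem_univ l), hl,
      Finset.prod_congr rfl fun i hi => by rw [hr b e r i (Finset.ne_of_mem_erase hi)]]
  have h3 : msgW v l true + msgW v l false = 1 := by simp [msgW, sgn]; ring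
  show ∑ b, ∑ r, Real.exp (θ fun i => if i = l then e else s b r i) * ∏ i, msgW v i (s b r i)
    = ∑ b, ∑ r, fixW v l e (s b r) * Real.exp (θ (s b r))
  simp only [h1, h2, Fintype.sum_bool, ← Finset.sum_add_distrib]
  refine Finset.sum_congr rfl fun r _ => ?_
  cases e <;>
    · simp only [fixW, hl]
      simp
      rw [← mul_add, ← add_mul, h3]
      ring

/-- The factor of one site of the cavity. -/
def siteG {k : ℕ} (c : Fin k → Clause Kc × Fin Kc) (h : ℝ) (τ : Fin k → Fin Kc → Bool) : ℝ :=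
  ∑ e : Bool, Real.exp (h * sgn e) *
    ∏ j, Real.exp ((c j).1 fun i => if i = (c j).2 then e else τ j i)

theorem sum_siteG {k : ℕ} (c : Fin k → Clause Kc × Fin Kc) (h : ℝ)
    (x : (Fin (K + 1) → ℝ) → ℝ) (ω : Fin (K + 1) → Fin k → Fin Kc → ℝ) :
    ∑ τ, siteG c h τ * ∏ j, ∏ i, msgW (msg x ω j) i (τ j i) = Uval c h x ω := by
  rw [Uval_eq]
  simp only [siteG, Finset.sum_mul]
  rw [Finset.sum_comm]
  refine Finset.sum_congr rfl fun e _ => ?_
  simp only [mul_assoc, ← Finset.prod_mul_distrib, ← Finset.mul_sum]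
  refine congrArg _ ?_
  rw [← Fintype.prod_sum (fun j (σ : Fin Kc → Bool) =>
    Real.exp ((c j).1 fun i => if i = (c j).2 then e else σ i) * ∏ i, msgW (msg x ω j) i (σ i))]
  exact Finset.prod_congr rfl fun j _ => sum_fix _ _ _ _

theorem siteG_mem {k : ℕ} {c : Fin k → Clause Kc × Fin Kc} {h L : ℝ}
    (hc : ∀ j σ, |(c j).1 σ| ≤ L) (hh : |h| ≤ L) (τ : Fin k → Fin Kc → Bool) :
    Real.exp (-(L + Real.log 2 + L * k)) ≤ siteG c h τ ∧
      siteG c h τ ≤ Real.exp (L + Real.log 2 + L * k) := by
  have ht : ∀ e : Bool, |h * sgn e + ∑ j, (c j).1 fun i => if i = (c j).2 then e else τ j i|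
      ≤ L + L * k := fun e => by
    refine (abs_add_le _ _).trans (add_le_add ((abs_sgn_mul h e).le.trans hh) ?_)
    refine (Finset.abs_sum_le_sum_abs _ _).trans
      ((Finset.sum_le_sum fun j _ => hc j _).trans_eq ?_)
    simp [mul_comm]
  have e1 : siteG c h τ = ∑ e : Bool,
      Real.exp (h * sgn e + ∑ j, (c j).1 fun i => if i = (c j).2 then e else τ j i) :=
    Finset.sum_congr rfl fun e _ => by rw [Real.exp_add, Real.exp_sum]
  have h2 : (2 : ℝ) = Real.exp (Real.log 2) := (exp_log two_pos).symm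
  rw [e1, Fintype.sum_bool]
  constructor
  · refine le_trans ?_ (le_add_of_nonneg_right (exp_pos _).le)
    refine exp_le_exp.2 ?_
    linarith [(abs_le.1 (ht true)).1, log_pos one_lt_two]
  · calc _ ≤ Real.exp (L + L * k) + Real.exp (L + L * k) :=
          add_le_add (exp_le_exp.2 (abs_le.1 (ht true)).2) (exp_le_exp.2 (abs_le.1 (ht false)).2)
      _ = 2 * Real.exp (L + L * k) := by ring
      _ = _ := by rw [h2, ← Real.exp_add]; congr 1; simp [exp_log]; ring

/-- The sites used by the clauses of the new sites. -/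
abbrev UIdx {M : ℕ} (k : Fin M → ℕ) (Kc : ℕ) : Type := (s : Fin M) × (Fin (k s) × Fin Kc)

/-- Labels grouped by the new sites. -/
def grp {M : ℕ} {k : Fin M → ℕ} {X : Type} (w : UIdx k Kc → X) (s : Fin M) (j : Fin (k s))
    (i : Fin Kc) : X :=
  w ⟨s, (j, i)⟩

theorem mp_grp {M : ℕ} (k : Fin M → ℕ) :
    MeasurePreserving (grp : (UIdx k Kc → ℝ) → (s : Fin M) → Fin (k s) → Fin Kc → ℝ)
      (Measure.pi fun _ => u01) (Measure.pi fun s => lvl (k s) Kc) := by
  have h1 : MeasurePreserving (MeasurableEquiv.piCurry fun (s : Fin M) (_ : Fin (k s) × Fin Kc) => ℝ)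
      (Measure.pi fun _ => u01) (Measure.pi fun s => Measure.pi fun _ => u01) := by
    refine ⟨MeasurableEquiv.measurable _, ?_⟩
    have := Measure.infinitePi_map_piCurry (X := fun (s : Fin M) (_ : Fin (k s) × Fin Kc) => ℝ)
      fun _ _ => u01
    simpa [Measure.infinitePi_eq_pi] using this
  exact (measurePreserving_pi _ _ fun s => mp_curry (α := Fin (k s)) (ι := Fin Kc) u01).comp h1

/-- The factor of all new sites. -/
def allG {M : ℕ} {k : Fin M → ℕ} (c : (s : Fin M) → Fin (k s) → Clause Kc × Fin Kc)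
    (h : Fin M → ℝ) (B : ℝ) (E : UIdx k Kc → Bool) : ℝ :=
  Real.exp (-B) * ∏ s, siteG (c s) (h s) (grp E s)

theorem mix_allG {M : ℕ} {k : Fin M → ℕ} (c : (s : Fin M) → Fin (k s) → Clause Kc × Fin Kc)
    (h : Fin M → ℝ) (B : ℝ) (x : (Fin (K + 1) → ℝ) → ℝ) (w : Fin (K + 1) → UIdx k Kc → ℝ) :
    mix x (allG c h B) w
      = Real.exp (-B) * ∏ s, Uval (c s) (h s) x fun p => grp (w p) s := by
  simp only [mix, allG, mul_assoc, ← Finset.mul_sum, ← sum_siteG]
  refine congrArg _ ?_
  rw [Fintype.prod_sum]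
  refine Fintype.sum_equiv ((Equiv.piCurry fun (s : Fin M) (_ : Fin (k s) × Fin Kc) => Bool).trans
    (Equiv.piCongrRight fun s => Equiv.curry (Fin (k s)) (Fin Kc) Bool)) _ _ fun E => ?_
  rw [Finset.prod_mul_distrib]
  refine congrArg₂ (· * ·) rfl ?_
  rw [Fintype.prod_sigma]
  refine Finset.prod_congr rfl fun s _ => ?_
  rw [Fintype.prod_prod_type]
  rfl

theorem abs_log_Uval_le {k : ℕ} {c : Fin k → Clause Kc × Fin Kc} {h L : ℝ} (p : Param K)
    (hL : 0 ≤ L) (hc : ∀ j σ, |(c j).1 σ| ≤ L) (hh : |h| ≤ L)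
    (ω : Fin (K + 1) → Fin k → Fin Kc → ℝ) :
    |log (Uval c h p.x ω)| ≤ L + Real.log 2 + L * k := by
  have h1 := abs_log_Uval p.range c h ω
  have h2 : ∑ j, ‖(c j).1‖ ≤ L * k := by
    refine (Finset.sum_le_sum fun j _ => (pi_norm_le_iff_of_nonneg hL).2 fun σ => hc j σ).trans_eq ?_
    simp [mul_comm]
  have h3 := abs_sub_abs_le_abs_sub (log (Uval c h p.x ω)) (log 2)
  rw [abs_of_pos (log_pos one_lt_two)] at h3
  linarith

/-- The factor of the new sites at the messages gives the sum of their variables `U`. -/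
theorem recMix_allG {M : ℕ} {k : Fin M → ℕ} (c : (s : Fin M) → Fin (k s) → Clause Kc × Fin Kc)
    (h : Fin M → ℝ) (B : ℝ) (p : Param K) {L : ℝ} (hL : 0 ≤ L)
    (hc : ∀ s j σ, |(c s j).1 σ| ≤ L) (hh : ∀ s, |h s| ≤ L) :
    recMix p (allG c h B)
      = -B + ∑ s, outerRec (lvl (k s) Kc) p.m (Uval (c s) (h s) p.x) := by
  set H : (s : Fin M) → (Fin (K + 1) → Fin (k s) → Fin Kc → ℝ) → ℝ := fun s ω =>
    log (Uval (c s) (h s) p.x ω)
  set b : Fin M → ℝ := fun s => L + Real.log 2 + L * k s
  have hH : ∀ s, Measurable (H s) := fun s =>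
    measurable_log.comp ((measurable_Uval p.meas).comp
      (measurable_prodMk_left (x := (c s, h s))))
  have hb : ∀ s ω, |H s ω| ≤ b s := fun s ω => abs_log_Uval_le p hL (hc s) (hh s) ω
  have hpos : ∀ s ω, 0 < Uval (c s) (h s) p.x ω := fun s ω =>
    (Uval_compare p.range (c s) (c s) (fun _ => rfl) (h s) (h s) ω).1
  have hm : Measurable fun w : Fin (K + 1) → (s : Fin M) → Fin (k s) → Fin Kc → ℝ =>
      ∑ s, H s fun l => w l s :=
    Finset.measurable_sum _ fun s _ => (hH s).comp
      (measurable_pi_lambda _ fun l => (measurable_pi_apply s).comp (measurable_pi_apply l))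
  have e : ∀ w, log (mix p.x (allG c h B) w) = -B + ∑ s, H s fun l => grp (w l) s := fun w => by
    rw [mix_allG, log_mul (exp_pos _).ne' (Finset.prod_pos fun s _ => hpos s _).ne', log_exp,
      log_prod fun s _ => (hpos s _).ne']
  have hbd : ∀ w : Fin (K + 1) → (s : Fin M) → Fin (k s) → Fin Kc → ℝ,
      |∑ s, H s fun l => w l s| ≤ ∑ s, b s := fun w =>
    (Finset.abs_sum_le_sum_abs _ _).trans (Finset.sum_le_sum fun s _ => hb s _)
  unfold recMix
  simp only [e]
  rw [rec0_map (mp_grp k) (H := fun w => -B + ∑ s, H s fun l => w l s) (hm.const_add _),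
    rec0_add_const p.pos hm hbd, rec0_pi M _ ⟨p.mono, p.pos, p.lt_one⟩ H hH b hb]
  refine congrArg _ (Finset.sum_congr rfl fun s _ => ?_)
  exact (outerRec_eq_rec0 p.pos ((measurable_Uval p.meas).comp
    (measurable_prodMk_left (x := (c s, h s)))) (hpos s) (hb s)).symm

/-- The factor of a clause at the messages. -/
def oneV (p : Param K) (θ : Clause Kc) (w : Fin (K + 1) → Fin Kc → ℝ) : ℝ :=
  log (∑ σ : Fin Kc → Bool, (∏ i, msgW (fun i => p.x fun l => w l i) i (σ i)) * Real.exp (θ σ))

theorem abs_oneV (p : Param K) (θ : Clause Kc) (w : Fin (K + 1) → Fin Kc → ℝ) :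
    |oneV p θ w| ≤ ‖θ‖ := by
  have h := (logSum_compare (fun σ : Fin Kc → Bool => Finset.prod_nonneg fun i _ =>
    msgW_nonneg (v := fun i => p.x fun l => w l i) (fun _ => p.range _) i (σ i)) (sum_msgW _) θ 0).2
  simpa [oneV, sum_msgW] using h

theorem measurable_oneV (p : Param K) :
    Measurable fun q : Clause Kc × (Fin (K + 1) → Fin Kc → ℝ) => oneV p q.1 q.2 := by
  refine measurable_log.comp (Finset.measurable_sum _ fun σ _ =>
    (Finset.measurable_prod _ fun i _ => ?_).mul
      (measurable_exp.comp ((measurable_pi_apply σ).comp measurable_fst)))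
  exact (((p.meas.comp (measurable_pi_lambda _ fun l => (measurable_pi_apply i).comp
    ((measurable_pi_apply l).comp measurable_snd))).mul_const _).const_add 1).div_const 2

attribute [local irreducible] oneV Vval

/-- The averaged recursion of one clause. -/
def recV (p : Param K) (θ : Clause Kc) : ℝ :=
  rec0 (Measure.pi fun _ : Fin Kc => u01) p.m (oneV p θ)

theorem measurable_recV (p : Param K) : Measurable (recV (Kc := Kc) p) := by
  have h : Measurable fun q : (Clause Kc × (Fin Kc → ℝ)) × (Fin K → Fin Kc → ℝ) =>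
      oneV p q.1.1 (Fin.cons q.1.2 q.2) :=
    (measurable_oneV p).comp ((measurable_fst.comp measurable_fst).prodMk
      (measurable_finCons.comp ((measurable_snd.comp measurable_fst).prodMk measurable_snd)))
  have h2 : Measurable fun q : Clause Kc × (Fin Kc → ℝ) =>
      casc (Measure.pi fun _ : Fin Kc => u01) K p.m fun y => oneV p q.1 (Fin.cons q.2 y) :=
    P157.Casc.measurable_casc_param K p.m
      (H := fun (q : Clause Kc × (Fin Kc → ℝ)) y => oneV p q.1 (Fin.cons q.2 y)) h
  have h3 := (h2.stronglyMeasurable.integral_prod_right'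
    (ν := Measure.pi fun _ : Fin Kc => u01)).measurable
  unfold recV rec0
  exact h3

theorem abs_recV (p : Param K) (θ : Clause Kc) : |recV p θ| ≤ ‖θ‖ := by
  refine (norm_integral_le_of_norm_le_const (μ := Measure.pi fun _ : Fin Kc => u01) (C := ‖θ‖)
    (f := fun w₀ => casc (Measure.pi fun _ : Fin Kc => u01) K p.m fun y => oneV p θ (Fin.cons w₀ y))
    (ae_of_all _ fun w₀ => ?_)).trans_eq (by rw [probReal_univ, mul_one])
  rw [Real.norm_eq_abs]
  exact abs_casc_le p.pos (((measurable_oneV p).comp measurable_prodMk_left).comp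
    (measurable_finCons_right w₀)) fun y => abs_oneV p θ _

/-- The mean of `log V₀` is the sum over the clauses. -/
theorem meanV_eq_sum {k : ℕ} (p : Param K) (c : Fin k → Clause Kc) :
    meanV p.m p.x c = ∑ j, recV p (c j) := by
  have hm : ∀ j, Measurable (oneV p (c j)) := fun j =>
    (measurable_oneV p).comp measurable_prodMk_left
  have h1 : ∀ ω, log (Vval c p.x ω) = ∑ j, oneV p (c j) fun l => ω l j := fun ω => by
    rw [Vval_eq, log_prod fun j _ => (logSum_compare (fun σ : Fin Kc → Bool =>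
      Finset.prod_nonneg fun i _ => msgW_nonneg (v := msg p.x ω j) (fun _ => p.range _) i (σ i))
      (sum_msgW _) (c j) (c j)).1.ne']
    unfold oneV
    rfl
  have hV : Measurable (Vval c p.x) :=
    (measurable_Vval (K := Kc) p.meas).comp (measurable_prodMk_left (x := c))
  rw [meanV, outerRec_eq_rec0 p.pos hV
    (fun ω => (Vval_compare p.range c c ω).1) fun ω => abs_log_Vval p.range c ω]
  simp only [h1, lvl, recV]
  exact rec0_pi k (fun _ => Measure.pi fun _ : Fin Kc => u01) ⟨p.mono, p.pos, p.lt_one⟩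
    (fun j => oneV p (c j)) hm (fun j => ‖c j‖) fun j y => abs_oneV p _ y

/-- The factor of the clauses of `V`. -/
def vG {k : ℕ} (c : Fin k → Clause Kc) (B : ℝ) (E : Fin k × Fin Kc → Bool) : ℝ :=
  Real.exp (-B) * ∏ j, Real.exp (c j fun i => E (j, i))

theorem recMix_vG {k : ℕ} (c : Fin k → Clause Kc) (B : ℝ) (p : Param K) :
    recMix p (vG c B) = -B + meanV p.m p.x c := by
  have e : ∀ w, log (mix p.x (vG c B) w)
      = -B + log (Vval c p.x fun l j i => w l (j, i)) := fun w => by
    rw [← log_exp (-B), ← log_mul (exp_pos _).ne' (Vval_compare p.range c c _).1.ne']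
    refine congrArg log ?_
    simp only [mix, vG, mul_assoc, ← Finset.mul_sum, Vval_eq]
    refine congrArg _ ?_
    rw [Fintype.prod_sum]
    refine Fintype.sum_equiv (Equiv.curry (Fin k) (Fin Kc) Bool) _ _ fun E => ?_
    rw [Fintype.prod_prod_type, ← Finset.prod_mul_distrib]
    exact Finset.prod_congr rfl fun j _ => mul_comm _ _
  have hm : Measurable fun ω : Fin (K + 1) → Fin k → Fin Kc → ℝ => log (Vval c p.x ω) :=
    measurable_log.comp ((measurable_Vval p.meas).comp (measurable_prodMk_left (x := c)))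
  unfold recMix
  simp only [e]
  have hg : MeasurePreserving (fun (w : Fin k × Fin Kc → ℝ) j i => w (j, i))
      (Measure.pi fun _ => u01) (lvl k Kc) := mp_curry (α := Fin k) (ι := Fin Kc) u01
  rw [rec0_map hg (H := fun ω : Fin (K + 1) → Fin k → Fin Kc → ℝ => -B + log (Vval c p.x ω))
      (hm.const_add _),
    rec0_add_const p.pos hm fun ω => abs_log_Vval p.range c ω]
  have hV : Measurable (Vval c p.x) :=
    (measurable_Vval (K := Kc) p.meas).comp (measurable_prodMk_left (x := c))
  rw [meanV, outerRec_eq_rec0 p.pos hV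
    (fun ω => (Vval_compare p.range c c ω).1) fun ω => abs_log_Vval p.range c ω]

end Vale.Agent.P168.CavTrial
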