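import Vale.Agent.P168.CavTrial.Meas
import Vale.Agent.P168.CavTrial.Sites
import Vale.Agent.P168.CavTrial.Hybrid

/-!
P168, cavity trial: decoupled arrays give trial values.
-/

open MeasureTheory ProbabilityTheory Finset Filter Topology Real
open scoped NNReal

noncomputable section

namespace Vale.Agent.P168.CavTrial

variable {K Kc M : ℕ} {L : ℝ}

attribute [local irreducible] outerRec Uval Vval

/-- Series over finitely many named sites against the recursion at the messages. -/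
theorem close_sites {ι : Type} [Fintype ι] [DecidableEq ι] (A : Arr K) {g : ι → ℕ}
    (hg : Function.Injective g) (G : (ι → Bool) → ℝ) {δ ε : ℝ}
    (hcl : ∀ g : Fin (Fintype.card ι) → ℕ, Function.Injective g →
      ∀ F : (Fin (Fintype.card ι) → Bool) → ℝ, (∀ e, δ ≤ F e ∧ F e ≤ 1) →
        |A.logMean (fun σ => F fun i => σ (g i)) - trialLog A (deg_pos K) F| ≤ ε)
    (hG : ∀ E, δ ≤ G E ∧ G E ≤ 1) :
    |A.logMean (fun σ => G fun i => σ (g i)) - recMix (trialParam A (deg_pos K)) G| ≤ ε := by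
  set e := (Fintype.equivFin ι).symm
  have h := hcl (fun b => g (e b)) (hg.comp e.injective) (fun b => G fun i => b (e.symm i))
    fun b => hG _
  rw [trialLog_eq_recMix, recMix_reindex] at h
  simpa using h

/-- The scale of the factor of the new sites. -/
def bU (L : ℝ) (u : CavU Kc M) : ℝ := ∑ s, (L + Real.log 2 + L * (u.1 s).1)

/-- The number of clauses at the new sites. -/
def nU (u : CavU Kc M) : ℕ := ∑ s, (u.1 s).1

/-- Clauses and fields within the bound. -/
def GoodU (L : ℝ) (u : CavU Kc M) : Prop :=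
  (∀ s j σ, |((u.1 s).2 j).1 σ| ≤ L) ∧ ∀ s, |u.2 s| ≤ L

/-- The site of a spin of a clause of a new site. -/
def gU {k : Fin M → ℕ} (i : UIdx k Kc) : ℕ :=
  2 * Nat.pair i.1 (Nat.pair i.2.1 i.2.2)

theorem gU_injective {k : Fin M → ℕ} : Function.Injective (gU : UIdx k Kc → ℕ) := by
  rintro ⟨s, j, p⟩ ⟨s', j', p'⟩ h
  obtain ⟨h1, h2⟩ := Nat.pair_eq_pair.1 (mul_left_cancel₀ two_ne_zero h)
  obtain rfl : s = s' := Fin.ext h1
  obtain ⟨h3, h4⟩ := Nat.pair_eq_pair.1 h2
  obtain rfl : j = j' := Fin.ext h3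
  obtain rfl : p = p' := Fin.ext h4
  rfl

theorem scaled_eq (u : CavU Kc M) (B : ℝ) (σ : ℕ → Bool) :
    Real.exp (-B) * cavU u σ
      = allG (k := fun s => (u.1 s).1) (fun s => (u.1 s).2) u.2 B fun i => σ (gU i) := rfl

theorem allG_mem {u : CavU Kc M} (hu : GoodU L u)
    (E : UIdx (fun s => (u.1 s).1) Kc → Bool) :
    Real.exp (-(2 * bU L u)) ≤ allG (fun s => (u.1 s).2) u.2 (bU L u) E ∧
      allG (fun s => (u.1 s).2) u.2 (bU L u) E ≤ 1 := by
  have h := fun s => siteG_mem (hu.1 s) (hu.2 s) (grp E s)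
  constructor
  · calc Real.exp (-(2 * bU L u))
        = Real.exp (-bU L u) * ∏ s, Real.exp (-(L + Real.log 2 + L * (u.1 s).1)) := by
          rw [← Real.exp_sum, ← Real.exp_add, Finset.sum_neg_distrib]
          congr 1
          unfold bU
          ring
      _ ≤ _ := mul_le_mul_of_nonneg_left
          (Finset.prod_le_prod (fun s _ => (exp_pos _).le) fun s _ => (h s).1) (exp_pos _).le
  · calc allG (fun s => (u.1 s).2) u.2 (bU L u) E
        ≤ Real.exp (-bU L u) * ∏ s, Real.exp (L + Real.log 2 + L * (u.1 s).1) :=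
          mul_le_mul_of_nonneg_left (Finset.prod_le_prod
            (fun s _ => (exp_pos _).le.trans (h s).1) fun s _ => (h s).2) (exp_pos _).le
      _ = 1 := by
          rw [← Real.exp_sum, ← Real.exp_add]
          simp [bU]

/-- The variable of one new site in the trial functional. -/
def oU (p : Param K) (q : PL (Clause Kc × Fin Kc) × ℝ) : ℝ :=
  outerRec (lvl q.1.1 Kc) p.m (Uval q.1.2 q.2 p.x)

theorem measurable_oU (p : Param K) :
    Measurable fun q : PL (Clause Kc × Fin Kc) × ℝ => oU p q :=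
  measurable_pl_prod fun k => measurable_outerU (k := k) p

theorem abs_oU_le (p : Param K) (hL : 0 ≤ L) {q : PL (Clause Kc × Fin Kc) × ℝ}
    (hc : ∀ j σ, |(q.1.2 j).1 σ| ≤ L) (hh : |q.2| ≤ L) :
    |oU p q| ≤ L + Real.log 2 + L * q.1.1 := by
  have mc : Measurable (Uval q.1.2 q.2 p.x) :=
    (measurable_Uval (K := Kc) p.meas).comp (measurable_prodMk_left (x := (q.1.2, q.2)))
  have hp : ∀ ω, 0 < Uval q.1.2 q.2 p.x ω := fun ω =>
    (Uval_compare p.range q.1.2 q.1.2 (fun _ => rfl) q.2 q.2 ω).1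
  have hb : ∀ ω, |Real.log (Uval q.1.2 q.2 p.x ω) - 0| ≤ L + Real.log 2 + L * q.1.1 := fun ω => by
    rw [sub_zero]
    exact abs_log_Uval_le p hL hc hh ω
  have := (outerRec_compare (ν := lvl q.1.1 Kc) (d := 0) p.pos mc mc hp hp hb fun ω => by simp).2
  simpa [oU] using this

theorem good_one {τ : Measure (Clause Kc × Fin Kc)} [IsProbabilityMeasure τ] {c : ℝ≥0}
    (h : ∀ᵐ t ∂τ, ∀ σ, |t.1 σ| ≤ L) :
    ∀ᵐ p : PL (Clause Kc × Fin Kc) ∂plaw c τ, ∀ j σ, |(p.2 j).1 σ| ≤ L := ae_plaw h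

section
variable {τ : Measure (Clause Kc × Fin Kc)} [IsProbabilityMeasure τ] {c : ℝ≥0} {ν : Measure ℝ}
  [IsProbabilityMeasure ν]

/-- The law of the clauses and fields of the new sites. -/
abbrev lawU (M : ℕ) (c : ℝ≥0) (τ : Measure (Clause Kc × Fin Kc)) (ν : Measure ℝ) :
    Measure (CavU Kc M) :=
  (Measure.pi fun _ : Fin M => plaw c τ).prod (Measure.pi fun _ : Fin M => ν)

theorem good_ae (hθ : ∀ᵐ t ∂τ, ∀ σ, |t.1 σ| ≤ L) (hh : ∀ᵐ h ∂ν, |h| ≤ L) :
    ∀ᵐ u ∂lawU M c τ ν, GoodU L u := by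
  have h1 : ∀ᵐ u ∂lawU M c τ ν, ∀ s j σ, |((u.1 s).2 j).1 σ| ≤ L :=
    Measure.quasiMeasurePreserving_fst.ae (ae_all_iff.2 fun s =>
      (measurePreserving_eval (fun _ : Fin M => plaw c τ) s).quasiMeasurePreserving.ae (good_one hθ))
  have h2 : ∀ᵐ u ∂lawU M c τ ν, ∀ s, |u.2 s| ≤ L :=
    Measure.quasiMeasurePreserving_snd.ae (ae_all_iff.2 fun s =>
      (measurePreserving_eval (fun _ : Fin M => ν) s).quasiMeasurePreserving.ae hh)
  exact h1.and h2

theorem mp_site (s : Fin M) :
    MeasurePreserving (fun u : CavU Kc M => (u.1 s, u.2 s)) (lawU M c τ ν) ((plaw c τ).prod ν) :=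
  (measurePreserving_eval (fun _ : Fin M => plaw c τ) s).prod
    (measurePreserving_eval (fun _ : Fin M => ν) s)

theorem integrable_bU (L : ℝ) : Integrable (bU (Kc := Kc) (M := M) L) (lawU M c τ ν) :=
  integrable_finsetSum _ fun s _ => ((mp_site (c := c) (τ := τ) (ν := ν) s).integrable_comp_of_integrable
    ((integrable_const (L + Real.log 2)).add
      (((CavBound.integrable_len c τ).const_mul L).comp_fst ν)))

theorem measurable_bU (L : ℝ) : Measurable (bU (Kc := Kc) (M := M) L) :=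
  Finset.measurable_sum _ fun s _ => (((measurable_of_countable fun k : ℕ => (k : ℝ)).comp
    (measurable_len.comp ((measurable_pi_apply s).comp measurable_fst))).const_mul L).const_add _

theorem measurable_nU : Measurable (nU (Kc := Kc) (M := M)) :=
  Finset.measurable_sum _ fun s _ => measurable_len.comp ((measurable_pi_apply s).comp measurable_fst)

end

/-- The integrand of `U` in the cavity functional. -/
def fU (A : Arr K) (L : ℝ) (u : CavU Kc M) : ℝ :=
  bU L u + A.logMean fun σ => Real.exp (-bU L u) * cavU u σ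

/-- The integrand of `V` in the cavity functional. -/
def fV (A : Arr K) (L : ℝ) (v : PL (Clause Kc)) : ℝ :=
  L * v.1 + A.logMean fun σ => Real.exp (-(L * v.1)) * cavV v σ

/-- The site of a spin of a clause of `V`. -/
def gV {k : ℕ} (i : Fin k × Fin Kc) : ℕ := 2 * Nat.pair i.1 i.2 + 1

theorem gV_injective {k : ℕ} : Function.Injective (gV : Fin k × Fin Kc → ℕ) := by
  rintro ⟨j, p⟩ ⟨j', p'⟩ h
  obtain ⟨h1, h2⟩ := Nat.pair_eq_pair.1 (mul_left_cancel₀ two_ne_zero (Nat.add_right_cancel h))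
  obtain rfl : j = j' := Fin.ext h1
  obtain rfl : p = p' := Fin.ext h2
  rfl

theorem scaled_eqV {k : ℕ} (c : Fin k → Clause Kc) (B : ℝ) (σ : ℕ → Bool) :
    Real.exp (-B) * cavV ⟨k, c⟩ σ = vG c B fun i => σ (gV i) := rfl

theorem vG_mem {k : ℕ} {c : Fin k → Clause Kc} (hc : ∀ j σ, |c j σ| ≤ L)
    (E : Fin k × Fin Kc → Bool) :
    Real.exp (-(2 * (L * k))) ≤ vG c (L * k) E ∧ vG c (L * k) E ≤ 1 := by
  have h : |∑ j, c j fun i => E (j, i)| ≤ L * k := by
    refine (Finset.abs_sum_le_sum_abs _ _).trans ((Finset.sum_le_sum fun j _ => hc j _).trans_eq ?_)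
    simp [mul_comm]
  rw [vG, ← Real.exp_sum, ← Real.exp_add]
  refine ⟨exp_le_exp.2 (by linarith [(abs_le.1 h).1]), ?_⟩
  calc _ ≤ Real.exp 0 := exp_le_exp.2 (by linarith [(abs_le.1 h).2])
    _ = 1 := Real.exp_zero

theorem bound_logMean (A : Arr K) {G : (ℕ → Bool) → ℝ} {B : ℝ}
    (hG : ∀ σ, Real.exp (-(2 * B)) ≤ G σ ∧ G σ ≤ 1) : |B + A.logMean G| ≤ 3 * |B| := by
  have h := (logMean_hasSum A (exp_pos _) hG).2
  rw [Real.log_exp, neg_neg] at h
  refine (abs_add_le _ _).trans ?_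
  linarith [le_abs_self B]

/-- The threshold for finitely many sites. -/
theorem eventually_close (hH : HybridStmt) (hR : TreeRep) (C : ℕ → ℝ) (S : ℕ) {δ : ℝ} (hδ : 0 < δ)
    {ε : ℝ} (hε : 0 < ε) :
    ∀ᶠ K in atTop, ∀ S' ≤ S, ∀ A : Arr K, A.Tel C → ∀ g : Fin S' → ℕ, Function.Injective g →
      ∀ F : (Fin S' → Bool) → ℝ, (∀ e, δ ≤ F e ∧ F e ≤ 1) →
        |A.logMean (fun σ => F fun i => σ (g i)) - trialLog A (deg_pos K) F| ≤ ε := by
  have h : ∀ᶠ K in atTop, ∀ S' ∈ Finset.range (S + 1), ∀ A : Arr K, A.Tel C →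
      ∀ g : Fin S' → ℕ, Function.Injective g → ∀ F : (Fin S' → Bool) → ℝ,
      (∀ e, δ ≤ F e ∧ F e ≤ 1) →
        |A.logMean (fun σ => F fun i => σ (g i)) - trialLog A (deg_pos K) F| ≤ ε :=
    (Finset.eventually_all (Finset.range (S + 1))).2 fun S' _ =>
      eventually_atTop.2 (series_close hH hR C S' hδ hε)
  exact h.mono fun K hK S' hS' => hK S' (Finset.mem_range.2 (Nat.lt_succ_of_le hS'))

variable (A : Arr K)

/-- The error for the new sites at given clauses. -/
theorem errU_le (hL : 0 ≤ L) {u : CavU Kc M} (hu : GoodU L u) {N0 : ℕ} {η : ℝ} (hη : 0 ≤ η)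
    (hcl : ∀ S' ≤ N0 * Kc, ∀ g : Fin S' → ℕ, Function.Injective g →
      ∀ F : (Fin S' → Bool) → ℝ,
      (∀ e, Real.exp (-(2 * (M * (L + Real.log 2) + L * N0))) ≤ F e ∧ F e ≤ 1) →
        |A.logMean (fun σ => F fun i => σ (g i)) - trialLog A (deg_pos K) F| ≤ η) :
    |fU A L u - ∑ s, oU (trialParam A (deg_pos K)) (u.1 s, u.2 s)|
      ≤ η + if N0 < nU u then 4 * bU L u else 0 := by
  set p := trialParam A (deg_pos K)
  have hrec : recMix p (allG (k := fun s => (u.1 s).1) (fun s => (u.1 s).2) u.2 (bU L u))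
      = -bU L u + ∑ s, oU p (u.1 s, u.2 s) := recMix_allG _ _ _ p hL hu.1 hu.2
  have hm := allG_mem hu
  have hbU : bU L u = M * (L + Real.log 2) + L * nU u := by
    simp [bU, nU, Finset.sum_add_distrib, Finset.mul_sum, mul_add]
  have hb0 : 0 ≤ bU L u := Finset.sum_nonneg fun s _ => by positivity
  split_ifs with hN
  · have h1 : |fU A L u| ≤ 3 * bU L u := by
      have := bound_logMean A (B := bU L u) (G := fun σ => Real.exp (-bU L u) * cavU u σ) fun σ => by
        rw [scaled_eq]; exact hm _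
      rwa [abs_of_nonneg hb0] at this
    have h2 : |∑ s, oU p (u.1 s, u.2 s)| ≤ bU L u :=
      (Finset.abs_sum_le_sum_abs _ _).trans
        (Finset.sum_le_sum fun s _ => abs_oU_le p hL (hu.1 s) (hu.2 s))
    linarith [abs_sub (fU A L u) (∑ s, oU p (u.1 s, u.2 s))]
  · rw [add_zero]
    have hN' : nU u ≤ N0 := Nat.le_of_not_lt hN
    have hcard : Fintype.card (UIdx (fun s => (u.1 s).1) Kc) ≤ N0 * Kc := by
      simp only [Fintype.card_sigma, Fintype.card_prod, Fintype.card_fin, ← Finset.sum_mul]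
      exact Nat.mul_le_mul_right _ hN'
    have hδ : Real.exp (-(2 * (M * (L + Real.log 2) + L * N0))) ≤ Real.exp (-(2 * bU L u)) := by
      have : L * (nU u : ℝ) ≤ L * N0 := mul_le_mul_of_nonneg_left (by exact_mod_cast hN') hL
      rw [hbU]
      exact exp_le_exp.2 (by linarith)
    have h := close_sites A gU_injective _ (hcl _ hcard) fun E => ⟨hδ.trans (hm E).1, (hm E).2⟩
    rw [hrec] at h
    refine le_trans (le_of_eq ?_) h
    unfold fU
    simp only [scaled_eq]
    congr 1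
    ring

/-- The error for `V` at given clauses. -/
theorem errV_le (hL : 0 ≤ L) {v : PL (Clause Kc)} (hv : ∀ j σ, |v.2 j σ| ≤ L) {N0 : ℕ} {η : ℝ}
    (hη : 0 ≤ η)
    (hcl : ∀ S' ≤ N0 * Kc, ∀ g : Fin S' → ℕ, Function.Injective g →
      ∀ F : (Fin S' → Bool) → ℝ, (∀ e, Real.exp (-(2 * (L * N0))) ≤ F e ∧ F e ≤ 1) →
        |A.logMean (fun σ => F fun i => σ (g i)) - trialLog A (deg_pos K) F| ≤ η) :
    |fV A L v - meanV (trialParam A (deg_pos K)).m (trialParam A (deg_pos K)).x v.2|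
      ≤ η + if N0 < v.1 then 4 * (L * v.1) else 0 := by
  obtain ⟨k, c⟩ := v
  set p := trialParam A (deg_pos K)
  have hrec : recMix p (vG c (L * k)) = -(L * k) + meanV p.m p.x c := recMix_vG c _ p
  have hm := vG_mem (Kc := Kc) hv
  have hb0 : 0 ≤ L * (k : ℝ) := by positivity
  split_ifs with hN
  · have h1 : |fV A L ⟨k, c⟩| ≤ 3 * (L * k) := by
      have := bound_logMean A (B := L * k) (G := fun σ => Real.exp (-(L * k)) * cavV ⟨k, c⟩ σ)
        fun σ => by rw [scaled_eqV]; exact hm _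
      rwa [abs_of_nonneg hb0] at this
    have h2 : |meanV p.m p.x c| ≤ L * k := by
      refine (meanV_compare p c c).2.trans ?_
      rw [zero_add]
      refine (Finset.sum_le_sum fun j _ => (pi_norm_le_iff_of_nonneg hL).2 fun σ => hv j σ).trans_eq ?_
      simp [mul_comm]
    show _ ≤ η + 4 * (L * k)
    linarith [abs_sub (fV A L ⟨k, c⟩) (meanV p.m p.x c)]
  · rw [add_zero]
    have hN' : k ≤ N0 := Nat.le_of_not_lt hN
    have hcard : Fintype.card (Fin k × Fin Kc) ≤ N0 * Kc := by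
      simp only [Fintype.card_prod, Fintype.card_fin]
      exact Nat.mul_le_mul_right _ hN'
    have hδ : Real.exp (-(2 * (L * N0))) ≤ Real.exp (-(2 * (L * k))) := by
      have : L * (k : ℝ) ≤ L * N0 := mul_le_mul_of_nonneg_left (by exact_mod_cast hN') hL
      exact exp_le_exp.2 (by linarith)
    have h := close_sites A gV_injective _ (hcl _ hcard) fun E => ⟨hδ.trans (hm E).1, (hm E).2⟩
    rw [hrec] at h
    refine le_trans (le_of_eq ?_) h
    unfold fV
    simp only [scaled_eqV]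
    congr 1
    ring

variable {c : ℝ≥0} {μ : Measure (Clause Kc)} [IsProbabilityMeasure μ] {ν : Measure ℝ}
  [IsProbabilityMeasure ν]

theorem integrable_fU {τ : Measure (Clause Kc × Fin Kc)} [IsProbabilityMeasure τ]
    (hθ : ∀ᵐ t ∂τ, ∀ σ, |t.1 σ| ≤ L) (hh : ∀ᵐ h ∂ν, |h| ≤ L) :
    Integrable (fU (Kc := Kc) (M := M) A L) (lawU M c τ ν) := by
  have hg := good_ae (M := M) (c := c) hθ hh
  have hm : Measurable fun q : CavU Kc M × (ℕ → Bool) => Real.exp (-bU L q.1) * cavU q.1 q.2 :=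
    (measurable_exp.comp ((measurable_bU L).comp measurable_fst).neg).mul measurable_cavU
  refine ((integrable_bU L).abs.const_mul 3).mono' (((measurable_bU L).aestronglyMeasurable).add
    (aestronglyMeasurable_logMean A (G := fun u σ => Real.exp (-bU L u) * cavU u σ) hm
      (hg.mono fun u hu => ⟨_, exp_pos _, fun σ => by rw [scaled_eq]; exact allG_mem hu _⟩))) ?_
  filter_upwards [hg] with u hu
  rw [Real.norm_eq_abs]
  exact bound_logMean A fun σ => by rw [scaled_eq]; exact allG_mem hu _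

theorem integrable_fV (hθ : ∀ᵐ θ ∂μ, ∀ σ, |θ σ| ≤ L) :
    Integrable (fV (Kc := Kc) A L) (plaw c μ) := by
  have hg : ∀ᵐ v : PL (Clause Kc) ∂plaw c μ, ∀ j σ, |v.2 j σ| ≤ L := ae_plaw hθ
  have hl : Measurable fun v : PL (Clause Kc) => L * (v.1 : ℝ) :=
    ((measurable_of_countable fun k : ℕ => (k : ℝ)).comp measurable_len).const_mul L
  have hm : Measurable fun q : PL (Clause Kc) × (ℕ → Bool) =>
      Real.exp (-(L * q.1.1)) * cavV q.1 q.2 :=
    (measurable_exp.comp (hl.comp measurable_fst).neg).mul measurable_cavV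
  refine (((CavBound.integrable_len c μ).const_mul L).abs.const_mul 3).mono'
    (hl.aestronglyMeasurable.add (aestronglyMeasurable_logMean A
      (G := fun v σ => Real.exp (-(L * v.1)) * cavV v σ) hm
      (hg.mono fun v hv => ⟨Real.exp (-(2 * (L * v.1))), exp_pos _, fun σ => vG_mem hv fun i => σ (gV i)⟩))) ?_
  filter_upwards [hg] with v hv
  rw [Real.norm_eq_abs]
  exact bound_logMean A (B := L * v.1) fun σ => vG_mem hv fun i => σ (gV i)

/-- The mean over the new sites is `T U` at each. -/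
theorem integral_sumU [Nonempty (Fin Kc)] {lam : ℝ} (hL : 0 ≤ L)
    (hθ : ∀ᵐ θ ∂μ, ∀ σ, |θ σ| ≤ L) (hh : ∀ᵐ h ∂ν, |h| ≤ L) (p : Param K) :
    Integrable (fun u : CavU Kc M => ∑ s, oU p (u.1 s, u.2 s))
        (lawU M ((Kc : ℝ) * lam).toNNReal (μ.prod (unif (Fin Kc))) ν) ∧
      ∫ u, ∑ s, oU p (u.1 s, u.2 s)
          ∂lawU M ((Kc : ℝ) * lam).toNNReal (μ.prod (unif (Fin Kc))) ν
        = M * TU lam μ ν p.m p.x := by
  have := isProbabilityMeasure_unif (Fin Kc)
  set τ := μ.prod (unif (Fin Kc))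
  set a : ℝ≥0 := ((Kc : ℝ) * lam).toNNReal
  have hθ' : ∀ᵐ t ∂τ, ∀ σ, |t.1 σ| ≤ L := Measure.quasiMeasurePreserving_fst.ae hθ
  have hb : ∀ᵐ q ∂(plaw a τ).prod ν, |oU p q| ≤ L + Real.log 2 + L * q.1.1 := by
    filter_upwards [Measure.quasiMeasurePreserving_fst.ae (good_one hθ'),
      Measure.quasiMeasurePreserving_snd.ae hh] with q h1 h2
    exact abs_oU_le p hL h1 h2
  have hi : Integrable (fun q => oU p q) ((plaw a τ).prod ν) :=
    ((integrable_const (L + Real.log 2)).add
      (((CavBound.integrable_len a τ).const_mul L).comp_fst ν)).mono'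
      (measurable_oU p).aestronglyMeasurable hb
  have hs := fun s : Fin M => (mp_site (c := a) (τ := τ) (ν := ν) s).integrable_comp_of_integrable hi
  have he : ∀ s : Fin M, ∫ u, oU p (u.1 s, u.2 s) ∂lawU M a τ ν = ∫ q, oU p q ∂(plaw a τ).prod ν :=
    fun s => by
      rw [← (mp_site (c := a) (τ := τ) (ν := ν) s).map_eq,
        integral_map (mp_site (c := a) (τ := τ) (ν := ν) s).measurable.aemeasurable
          (measurable_oU p).aestronglyMeasurable]
  refine ⟨integrable_finsetSum _ fun s _ => hs s, ?_⟩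
  rw [integral_finsetSum]
  swap
  · exact fun s _ => hs s
  rw [Finset.sum_congr rfl fun s _ => he s, Finset.sum_const,
    Finset.card_univ, Fintype.card_fin, nsmul_eq_mul, TU_eq, integral_prod _ hi,
    integral_plaw a ((measurable_oU p).stronglyMeasurable.integral_prod_right').measurable
      hi.integral_prod_left]
  rfl

/-- The mean of `V` is `M` times `T V`. -/
theorem integral_sumV {lam : ℝ} (hθ : ∀ᵐ θ ∂μ, ∀ σ, |θ σ| ≤ L) (p : Param K) :
    Integrable (fun v : PL (Clause Kc) => meanV p.m p.x v.2)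
        (plaw ((M : ℝ) * (((Kc : ℝ) - 1) * lam)).toNNReal μ) ∧
      ∫ v, meanV p.m p.x v.2 ∂plaw ((M : ℝ) * (((Kc : ℝ) - 1) * lam)).toNNReal μ
        = M * TV lam μ p.m p.x := by
  set a : ℝ≥0 := ((M : ℝ) * (((Kc : ℝ) - 1) * lam)).toNNReal
  have hi1 : Integrable (recV p) μ := (integrable_const |L|).mono'
    (measurable_recV p).aestronglyMeasurable (hθ.mono fun θ h => by
      rw [Real.norm_eq_abs]
      exact (abs_recV p θ).trans ((pi_norm_le_iff_of_nonneg (abs_nonneg L)).2
        fun σ => (h σ).trans (le_abs_self L)))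
  have hm : Measurable fun v : PL (Clause Kc) => meanV p.m p.x v.2 := by
    simp only [meanV_eq_sum]
    exact measurable_list_sum (ψ := fun t _ => recV p t) ((measurable_recV p).comp measurable_fst)
  have hb : ∀ᵐ v : PL (Clause Kc) ∂plaw a μ, |meanV p.m p.x v.2| ≤ |L| * v.1 := by
    filter_upwards [ae_plaw (P := fun θ : Clause Kc => ∀ σ, |θ σ| ≤ L) hθ] with v hv
    refine (meanV_compare p v.2 v.2).2.trans ?_
    rw [zero_add]
    refine (Finset.sum_le_sum fun j _ => (pi_norm_le_iff_of_nonneg (abs_nonneg L)).2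
      fun σ => (hv j σ).trans (le_abs_self L)).trans_eq ?_
    simp [mul_comm]
  have hi : Integrable (fun v : PL (Clause Kc) => meanV p.m p.x v.2) (plaw a μ) :=
    ((CavBound.integrable_len a μ).const_mul |L|).mono' hm.aestronglyMeasurable hb
  have hk : ∀ k : ℕ, ∫ v : Fin k → Clause Kc, meanV p.m p.x v ∂(Measure.pi fun _ => μ)
      = k * ∫ θ, recV p θ ∂μ := fun k => by
    simp only [meanV_eq_sum]
    exact (integral_pi_sum hi1).2
  refine ⟨hi, ?_⟩
  rw [integral_plaw a hm hi, TV_eq]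
  simp only [hk, integral_mul_const, (integrable_natCast_poisson _).2]
  rw [← mul_assoc]
  refine congrArg (· * _) ?_
  simp only [a, Real.toNNReal_mul (Nat.cast_nonneg M), Real.toNNReal_natCast, NNReal.coe_mul,
    NNReal.coe_natCast]

theorem cavityTrial_of (hH : HybridStmt) (hR : TreeRep) : CavityTrial := by
  intro Kc hKc lam hlam μ ν L hμ hν hL hθ hh C M hM ε hε
  have : Nonempty (Fin Kc) := ⟨⟨0, by omega⟩⟩
  have := isProbabilityMeasure_unif (Fin Kc)
  set τ := μ.prod (unif (Fin Kc))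
  set a : ℝ≥0 := ((Kc : ℝ) * lam).toNNReal
  set b : ℝ≥0 := ((M : ℝ) * (((Kc : ℝ) - 1) * lam)).toNNReal
  have hθ' : ∀ᵐ t ∂τ, ∀ σ, |t.1 σ| ≤ L := Measure.quasiMeasurePreserving_fst.ae hθ
  set η := ε / 4 with hηdef
  have hη : 0 < η := by positivity
  have iU : Integrable (fun u => 4 * bU L u) (lawU M a τ ν) := (integrable_bU L).const_mul 4
  have iV : Integrable (fun v : PL (Clause Kc) => 4 * (L * v.1)) (plaw b μ) :=
    ((CavBound.integrable_len b μ).const_mul L).const_mul 4
  obtain ⟨N0, hN1, hN2⟩ := (((tendsto_tail (P := lawU M a τ ν) measurable_nU iU).eventually_le_const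
    hη).and ((tendsto_tail (P := plaw b μ) measurable_len iV).eventually_le_const hη)).exists
  set δ := Real.exp (-(2 * (M * (L + Real.log 2) + L * N0)))
  obtain ⟨K0, hK0⟩ := eventually_atTop.1
    (eventually_close hH hR C (N0 * Kc) (exp_pos _ : 0 < δ) hη)
  refine ⟨K0, fun K hK A hA => ?_⟩
  set p := trialParam A (deg_pos K)
  refine ⟨_, ⟨K, p, rfl⟩, ?_⟩
  have hclU := fun S' hS' => hK0 K hK S' hS' A hA
  have hclV : ∀ S' ≤ N0 * Kc, ∀ g : Fin S' → ℕ, Function.Injective g →
      ∀ F : (Fin S' → Bool) → ℝ, (∀ e, Real.exp (-(2 * (L * N0))) ≤ F e ∧ F e ≤ 1) →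
        |A.logMean (fun σ => F fun i => σ (g i)) - trialLog A (deg_pos K) F| ≤ η :=
    fun S' hS' g hg F hF => hK0 K hK S' hS' A hA g hg F fun e =>
      ⟨le_trans (exp_le_exp.2 (by
        have : 0 ≤ (M : ℝ) * (L + Real.log 2) := by positivity
        linarith)) (hF e).1, (hF e).2⟩
  obtain ⟨iTU, eU⟩ := integral_sumU (M := M) (lam := lam) hL hθ hh p
  obtain ⟨iTV, eV⟩ := integral_sumV (M := M) (lam := lam) hθ p
  have tU : Integrable (fun u : CavU Kc M => if N0 < nU u then 4 * bU L u else 0)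
      (lawU M a τ ν) :=
    (iU.indicator (measurableSet_lt (measurable_const (a := N0)) measurable_nU)).congr
      (ae_of_all _ fun u => by simp [Set.indicator_apply])
  have tV : Integrable (fun v : PL (Clause Kc) => if N0 < v.1 then 4 * (L * v.1) else 0)
      (plaw b μ) :=
    (iV.indicator (measurableSet_lt (measurable_const (a := N0)) measurable_len)).congr
      (ae_of_all _ fun u => by simp [Set.indicator_apply])
  have dU := abs_integral_sub_le (P := lawU M a τ ν) (integrable_fU A hθ' hh) iTU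
    ((integrable_const η).add tU)
    ((good_ae hθ' hh).mono fun u hu => errU_le A hL hu hη.le hclU)
  have dV := abs_integral_sub_le (P := plaw b μ) (integrable_fV A hθ) iTV
    ((integrable_const η).add tV)
    ((ae_plaw hθ).mono fun v hv => errV_le A hL hv hη.le hclV)
  simp only [Pi.add_apply] at dU dV
  rw [integral_add (integrable_const η) tU, integral_const, probReal_univ, one_smul, eU] at dU
  rw [integral_add (integrable_const η) tV, integral_const, probReal_univ, one_smul, eV] at dV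
  have hcav : cavity A lam μ ν L M
      = (∫ u, fU A L u ∂lawU M a τ ν) - ∫ v, fV A L v ∂plaw b μ := rfl
  have hM1 : (1 : ℝ) ≤ M := by exact_mod_cast hM
  rw [← sub_le_iff_le_add, le_div_iff₀ (by linarith), hcav]
  nlinarith [(abs_le.1 dU).1, (abs_le.1 dV).2, hN1, hN2, hηdef,
    mul_le_mul_of_nonneg_left hM1 hε.le]

/-- Decoupled arrays give trial values, given the representation of the recursion on trees. -/
theorem cavityTrial_of_treeRep (hR : TreeRep) : CavityTrial := cavityTrial_of hybridStmt hR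

end Vale.Agent.P168.CavTrial
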