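import Vale.Agent.P168.CavTrial.Shp

/-!
P168, cavity: the probability of the shape of some replicas of the tree.
-/

open MeasureTheory Filter Topology

noncomputable section

namespace Vale.Agent.P168

variable {K n : ℕ}

open Classical in
/-- Probability that replicas in `T` have the levels of `V`. -/
def evP (T : Finset (Fin n)) (V : Lvls K n) : ℝ :=
  ∑ U : Lvls K n, if ∀ a ∈ T, ∀ b ∈ T, U a b = V a b then treeW K n U else 0

/-- A new replica integrates out. -/
theorem sum_ext_treeW {U : Lvls K n} (hn : 1 ≤ n) :
    ∑ U' : Lvls K (n + 1), (if U'.init = U then treeW K (n + 1) U' else 0) = treeW K n U := by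
  classical
  by_cases hU : U.IsTree
  · have h := treeW_marg hU ⟨0, hn⟩ (Nat.zero_le K)
    simp only [Nat.zero_le, and_true] at h
    rw [h]
    have hne : (n : ℝ) ≠ 0 := Nat.cast_ne_zero.2 (by omega)
    simp [Lvls.node, mpar, hne]
  · rw [treeW_eq_zero hU]
    refine Finset.sum_eq_zero fun U' _ => ?_
    split_ifs with h
    · exact treeW_eq_zero fun hU' => hU (h ▸ hU'.init)
    · rfl

theorem sum_treeW : ∀ n : ℕ, ∑ U : Lvls K n, treeW K n U = 1
  | 0 => by simp [treeW]
  | 1 => by
    classical
    rw [Finset.sum_eq_single (fun _ _ => Fin.last K)]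
    · simp [treeW]
    · intro U _ hne
      simp only [treeW]
      rw [if_neg]
      intro h
      exact hne (funext fun a => funext fun b => by
        rw [Subsingleton.elim a 0, Subsingleton.elim b 0, h])
    · simp
  | n + 2 => by
    classical
    rw [← sum_treeW (n + 1), ← Finset.sum_fiberwise Finset.univ Lvls.init]
    refine Finset.sum_congr rfl fun U _ => ?_
    rw [Finset.sum_filter, sum_ext_treeW (Nat.succ_pos n)]

theorem evP_le_one (T : Finset (Fin n)) (V : Lvls K n) : evP T V ≤ 1 := by
  classical
  rw [← sum_treeW n]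
  refine Finset.sum_le_sum fun U _ => ?_
  split_ifs
  · exact le_rfl
  · exact treeW_nonneg U

open Classical in
/-- An event of the old replicas, with the last replica integrated out. -/
theorem sum_init_le (hn : 1 ≤ n) {q : Lvls K (n + 1) → Prop} {p : Lvls K n → Prop}
    [DecidablePred q] [DecidablePred p]
    (h : ∀ U', q U' → p U'.init) :
    ∑ U' : Lvls K (n + 1), (if q U' then treeW K (n + 1) U' else 0)
      ≤ ∑ U : Lvls K n, if p U then treeW K n U else 0 := by
  rw [← Finset.sum_fiberwise Finset.univ Lvls.init]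
  refine Finset.sum_le_sum fun U _ => ?_
  split_ifs with hp
  · rw [← sum_ext_treeW hn (U := U), Finset.sum_filter]
    refine Finset.sum_le_sum fun U' _ => ?_
    split_ifs <;> simp [treeW_nonneg]
  · refine Finset.sum_nonpos fun U' hU' => ?_
    rw [Finset.mem_filter] at hU'
    rw [if_neg fun hq => hp (hU'.2 ▸ h U' hq)]

open Classical in
/-- An event of the old replicas bounds an event of all of them. -/
theorem evP_le_init (hn : 1 ≤ n) {T : Finset (Fin (n + 1))} {T0 : Finset (Fin n)}
    (V : Lvls K (n + 1)) (h : ∀ a ∈ T0, a.castSucc ∈ T) : evP T V ≤ evP T0 V.init :=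
  sum_init_le hn (q := fun U' : Lvls K (n + 1) => ∀ a ∈ T, ∀ b ∈ T, U' a b = V a b)
    (p := fun U : Lvls K n => ∀ a ∈ T0, ∀ b ∈ T0, U a b = V.init a b)
    fun _ hq a ha b hb => hq _ (h a ha) _ (h b hb)

open Classical in
/-- A new replica next to an old one either copies an old replica or costs a gap. -/
theorem evP_step {V : Lvls K (n + 1)} (hV : V.IsTree) {T : Finset (Fin (n + 1))}
    {T0 : Finset (Fin n)} (hT0 : ∀ a, a ∈ T0 ↔ a.castSucc ∈ T) (hlast : Fin.last n ∈ T)
    {b : Fin n} (hb : b ∈ T0) (hnew : NewAt V (T.erase (Fin.last n)) (Fin.last n) b.castSucc) :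
    evP T V ≤ (∑ c ∈ Finset.univ \ T0, ∑ U : Lvls K n,
        if U.IsTree ∧ (∀ a ∈ T0, ∀ a' ∈ T0, U a a' = V.init a a') ∧
          (∀ a ∈ T0, U c a = V (Fin.last n) a.castSucc) then treeW K n U else 0)
      + gapK K * evP T0 V.init := by
  have hn : 1 ≤ n := Fin.pos b
  set l := (V b.castSucc (Fin.last n) : ℕ) with hl
  have hlK : l ≤ K := Fin.is_le _
  unfold evP
  rw [← Finset.sum_fiberwise Finset.univ Lvls.init, Finset.mul_sum, Finset.sum_comm,
    ← Finset.sum_add_distrib]
  refine Finset.sum_le_sum fun U _ => ?_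
  by_cases hU : U.IsTree ∧ ∀ a ∈ T0, ∀ a' ∈ T0, U a a' = V.init a a'
  swap
  · refine le_trans (Finset.sum_nonpos fun U' hU' => ?_) (add_nonneg
      (Finset.sum_nonneg fun c _ => ?_) ?_)
    · rw [Finset.mem_filter] at hU'
      split_ifs with hq
      · refine (treeW_eq_zero fun ht => hU ?_).le
        rw [← hU'.2]
        exact ⟨ht.init, fun a ha a' ha' => hq _ ((hT0 a).1 ha) _ ((hT0 a').1 ha')⟩
      · exact le_rfl
    · split_ifs <;> simp [treeW_nonneg]
    · refine mul_nonneg (gapK_nonneg K) ?_
      split_ifs <;> simp [treeW_nonneg]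
  obtain ⟨hUt, hUe⟩ := hU
  by_cases hc : ∃ c, c ∉ T0 ∧ (U b c : ℕ) = l
  · obtain ⟨c, hcT, hcl⟩ := hc
    have hrel : ∀ a ∈ T0, U c a = V (Fin.last n) a.castSucc := by
      intro a ha
      rcases eq_or_ne a b with rfl | hab
      · rw [hUt.2.1 c a, hV.2.1 (Fin.last n)]
        exact Fin.ext hcl
      have hne := hnew a.castSucc (Finset.mem_erase.2 ⟨(Fin.castSucc_lt_last a).ne,
        (hT0 a).1 ha⟩) fun h => hab (Fin.castSucc_injective n h)
      have e : U b a = V b.castSucc a.castSucc := hUe b hb a ha
      have hne' : (U b a : ℕ) ≠ l := fun h => hne (by rw [← e]; exact Fin.ext h)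
      have h1 := hUt.2.2 c b a
      have h2 := hUt.2.2 b c a
      have h3 := hUt.2.2 b a c
      have h4 := hV.2.2 (Fin.last n) b.castSucc a.castSucc
      have h5 := hV.2.2 b.castSucc (Fin.last n) a.castSucc
      have h6 := hV.2.2 b.castSucc a.castSucc (Fin.last n)
      have hcl' : (V b.castSucc (Fin.last n) : ℕ) = l := rfl
      rw [hUt.2.1 c b] at h1
      rw [hV.2.1 (Fin.last n) b.castSucc] at h4
      rw [hUt.2.1 a c] at h3
      rw [hV.2.1 a.castSucc (Fin.last n)] at h6
      rw [← e] at h4 h5 h6
      simp only [Fin.le_def, Fin.coe_min] at h1 h2 h3 h4 h5 h6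
      refine Fin.ext ?_
      omega
    refine le_add_of_le_of_nonneg ?_ (mul_nonneg (gapK_nonneg K) ?_)
    · refine le_trans ?_ (Finset.single_le_sum (fun c' _ => ?_)
        (Finset.mem_sdiff.2 ⟨Finset.mem_univ c, hcT⟩))
      · rw [if_pos ⟨hUt, hUe, hrel⟩, ← sum_ext_treeW hn (U := U), Finset.sum_filter]
        refine Finset.sum_le_sum fun U' _ => ?_
        split_ifs <;> first | exact le_rfl | exact treeW_nonneg _
      · split_ifs <;> simp [treeW_nonneg]
    · split_ifs <;> simp [treeW_nonneg]
  refine le_add_of_nonneg_of_le (Finset.sum_nonneg fun c _ => by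
    split_ifs <;> simp [treeW_nonneg]) ?_
  rw [if_pos hUe]
  have hkey : ∀ x : Fin n, x ≠ b → (U b x : ℕ) ≠ l := fun x hxb hx => by
    by_cases hxT : x ∈ T0
    · exact hnew x.castSucc (Finset.mem_erase.2 ⟨(Fin.castSucc_lt_last x).ne,
        (hT0 x).1 hxT⟩) (fun h => hxb (Fin.castSucc_injective n h))
        (Fin.ext (by rw [← hl, ← hx, hUe b hb x hxT]; rfl))
    · exact hc ⟨x, hxT, hx⟩
  have hle : ∑ U' ∈ Finset.univ.filter (fun U' : Lvls K (n + 1) => U'.init = U),
      (if ∀ a ∈ T, ∀ a' ∈ T, U' a a' = V a a' then treeW K (n + 1) U' else 0)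
      ≤ ∑ U' : Lvls K (n + 1),
        if U'.init = U ∧ (U' b.castSucc (Fin.last n) : ℕ) = l then treeW K (n + 1) U' else 0 := by
    rw [Finset.sum_filter]
    refine Finset.sum_le_sum fun U' _ => ?_
    by_cases hi : U'.init = U
    · rw [if_pos hi]
      by_cases hq : ∀ a ∈ T, ∀ a' ∈ T, U' a a' = V a a'
      · rw [if_pos hq, if_pos ⟨hi, by rw [hq _ ((hT0 b).1 hb) _ hlast]⟩]
      · rw [if_neg hq]
        split_ifs <;> simp [treeW_nonneg]
    · rw [if_neg hi]
      split_ifs <;> simp [treeW_nonneg]
  refine hle.trans ?_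
  have hn' : (1 : ℝ) ≤ n := Nat.one_le_cast.2 hn
  rcases Nat.lt_or_ge l K with hlt | hge
  · have e : ∑ U' : Lvls K (n + 1),
        (if U'.init = U ∧ (U' b.castSucc (Fin.last n) : ℕ) = l then treeW K (n + 1) U' else 0)
        = treeW K n U * ((((U.node b l).card : ℝ) - mpar K l) / n)
          - treeW K n U * ((((U.node b (l + 1)).card : ℝ) - mpar K (l + 1)) / n) := by
      rw [← treeW_marg hUt b hlK, ← treeW_marg hUt b hlt, ← Finset.sum_sub_distrib]
      refine Finset.sum_congr rfl fun U' _ => ?_
      by_cases hi : U'.init = U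
      · rcases lt_trichotomy (U' b.castSucc (Fin.last n) : ℕ) l with h1 | h1 | h1
        · simp [hi, h1.ne, not_le.2 h1, (show ¬ l < (U' b.castSucc (Fin.last n) : ℕ) by omega)]
        · simp [hi, h1]
        · simp [hi, h1.ne', h1.le, (show l + 1 ≤ (U' b.castSucc (Fin.last n) : ℕ) from h1)]
      · simp [hi]
    have hnode : U.node b l = U.node b (l + 1) := by
      ext x
      simp only [Lvls.node, Finset.mem_filter, Finset.mem_univ, true_and]
      rcases eq_or_ne x b with rfl | hxb
      · rw [hUt.1 x]; simp; omega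
      · have := hkey x hxb; omega
    rw [e, hnode, mpar_succ, ← mul_sub, mul_comm (gapK K), ← sub_div]
    refine mul_le_mul_of_nonneg_left ?_ (treeW_nonneg U)
    rw [div_le_iff₀ (by linarith)]
    nlinarith [gapK_nonneg K]
  · have hlK' : l = K := le_antisymm hlK hge
    have e : ∑ U' : Lvls K (n + 1),
        (if U'.init = U ∧ (U' b.castSucc (Fin.last n) : ℕ) = l then treeW K (n + 1) U' else 0)
        = treeW K n U * ((((U.node b K).card : ℝ) - mpar K K) / n) := by
      rw [← treeW_marg hUt b le_rfl]
      refine Finset.sum_congr rfl fun U' _ => ?_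
      have := Fin.is_le (U' b.castSucc (Fin.last n))
      exact if_congr (and_congr_right fun _ => by omega) rfl rfl
    have hnode : U.node b K = {b} := by
      ext x
      simp only [Lvls.node, Finset.mem_filter, Finset.mem_univ, true_and, Finset.mem_singleton]
      rcases eq_or_ne x b with rfl | hxb
      · simp [hUt.1 x]
      · have := hkey x hxb
        have := Fin.is_le (U b x)
        simp [hxb]
        omega
    rw [e, hnode, Finset.card_singleton, Nat.cast_one, mul_comm (gapK K)]
    refine mul_le_mul_of_nonneg_left ?_ (treeW_nonneg U)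
    rw [show (1 : ℝ) - mpar K K = gapK K by unfold mpar gapK; field_simp; ring,
      div_le_iff₀ (by linarith)]
    nlinarith [gapK_nonneg K]

open Classical in
/-- The probability of a shape: one gap for each node. -/
theorem evP_shp (n : ℕ) : ∃ C : ℝ, 0 ≤ C ∧ ∀ (K : ℕ) (V : Lvls K n) (T : Finset (Fin n)) (s : Sh),
    V.IsTree → Shp V T s → evP T V ≤ C * gapK K ^ s.nodes K := by
  induction n with
  | zero =>
    refine ⟨0, le_rfl, fun K V T s _ h => ?_⟩
    obtain ⟨a, -⟩ := h.nonempty
    exact a.elim0
  | succ n ih =>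
    obtain ⟨C, hC0, hC⟩ := ih
    refine ⟨(n + 1) * C + 1, by positivity, fun K V T s hV h => ?_⟩
    have hg0 : ∀ d : ℕ, 0 ≤ gapK K ^ d := fun d => pow_nonneg (gapK_nonneg K) d
    have hanti : ∀ {d d' : ℕ}, d ≤ d' → gapK K ^ d' ≤ gapK K ^ d := fun hd =>
      pow_le_pow_of_le_one (gapK_nonneg K) (gapK_le_one K) hd
    rcases Nat.lt_or_ge T.card 2 with hc | hc
    · have h0 : s.nodes K = 0 := by
        have := h.gvalid.nodes_lt
        have := h.card_eq
        omega
      rw [h0, pow_zero, mul_one]
      exact (evP_le_one T V).trans (le_add_of_nonneg_left (by positivity))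
    have hn : 1 ≤ n := by
      have := T.card_le_univ
      simp only [Fintype.card_fin] at this
      omega
    set T0 : Finset (Fin n) := Finset.univ.filter fun a => a.castSucc ∈ T
    have hT0 : ∀ a, a ∈ T0 ↔ a.castSucc ∈ T := fun a => by simp [T0]
    set f : Fin (n + 1) → Fin n := Fin.lastCases ⟨0, hn⟩ id
    have hf : ∀ a : Fin n, f a.castSucc = a := fun a => by simp [f]
    have herase : (T.erase (Fin.last n)).image f = T0 := by
      ext a
      simp only [Finset.mem_image, Finset.mem_erase, hT0]
      constructor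
      · rintro ⟨x, ⟨hx, hxT⟩, rfl⟩
        obtain ⟨y, rfl⟩ := Fin.exists_castSucc_eq.2 hx
        rwa [hf]
      · exact fun ha => ⟨a.castSucc, ⟨(Fin.castSucc_lt_last a).ne, ha⟩, hf a⟩
    have hproj : ∀ {s0}, Shp V (T.erase (Fin.last n)) s0 → Shp V.init T0 s0 := fun h0 => by
      rw [← herase]
      refine h0.map (fun x hx y hy he => ?_) fun x hx y hy => ?_
      · obtain ⟨x', rfl⟩ := Fin.exists_castSucc_eq.2 (Finset.mem_erase.1 hx).1
        obtain ⟨y', rfl⟩ := Fin.exists_castSucc_eq.2 (Finset.mem_erase.1 hy).1
        rw [hf, hf] at he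
        rw [he]
      · obtain ⟨x', rfl⟩ := Fin.exists_castSucc_eq.2 (Finset.mem_erase.1 hx).1
        obtain ⟨y', rfl⟩ := Fin.exists_castSucc_eq.2 (Finset.mem_erase.1 hy).1
        rw [hf, hf]
        rfl
    have hevle : evP T V ≤ evP T0 V.init := evP_le_init hn V fun a ha => (hT0 a).1 ha
    have hCle : ∀ d, C * gapK K ^ d ≤ ((n + 1) * C + 1) * gapK K ^ d := fun d =>
      mul_le_mul_of_nonneg_right (by nlinarith) (hg0 d)
    by_cases hl : Fin.last n ∈ T
    swap
    · rw [Finset.erase_eq_of_notMem hl] at hproj
      exact hevle.trans ((hC K V.init T0 s hV.init (hproj h)).trans (hCle _))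
    obtain ⟨s0, hs0, hor⟩ := h.erase hV _ hl hc
    have h0 := hC K V.init T0 s0 hV.init (hproj hs0)
    rcases hor with hle | ⟨b, hb, hle, hnew⟩
    · exact hevle.trans (h0.trans ((mul_le_mul_of_nonneg_left (hanti hle) hC0).trans (hCle _)))
    obtain ⟨b', rfl⟩ := Fin.exists_castSucc_eq.2 (Finset.mem_erase.1 hb).1
    have hb' : b' ∈ T0 := (hT0 b').2 (Finset.mem_erase.1 hb).2
    refine (evP_step hV hT0 hl hb' hnew).trans ?_
    have hcopy : ∀ c ∈ Finset.univ \ T0, (∑ U : Lvls K n,
        if U.IsTree ∧ (∀ a ∈ T0, ∀ a' ∈ T0, U a a' = V.init a a') ∧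
          (∀ a ∈ T0, U c a = V (Fin.last n) a.castSucc) then treeW K n U else 0)
        ≤ C * gapK K ^ s.nodes K := by
      intro c hc
      rw [Finset.mem_sdiff] at hc
      set p := fun U : Lvls K n => U.IsTree ∧ (∀ a ∈ T0, ∀ a' ∈ T0, U a a' = V.init a a') ∧
          (∀ a ∈ T0, U c a = V (Fin.last n) a.castSucc)
      by_cases hw : ∃ U, p U
      swap
      · refine (Finset.sum_nonpos fun U _ => ?_).trans (mul_nonneg hC0 (hg0 _))
        exact le_of_eq (if_neg fun hp => hw ⟨U, hp⟩)
      obtain ⟨U1, hU1, he1, hc1⟩ := hw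
      set g : Fin (n + 1) → Fin n := Fin.lastCases c id
      have hgc : g (Fin.last n) = c := by simp [g]
      have hga : ∀ a : Fin n, g a.castSucc = a := fun a => by simp [g]
      have hgimg : T.image g = insert c T0 := by
        ext x
        simp only [Finset.mem_image, Finset.mem_insert, hT0]
        constructor
        · rintro ⟨y, hy, rfl⟩
          cases y using Fin.lastCases with
          | last => exact .inl hgc
          | cast y => right; rwa [hga]
        · rintro (rfl | hx)
          · exact ⟨_, hl, hgc⟩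
          · exact ⟨_, hx, hga x⟩
      have hshp : Shp U1 (insert c T0) s := by
        rw [← hgimg]
        refine h.map (fun x hx y hy he => ?_) fun x hx y hy => ?_
        · cases x using Fin.lastCases with
          | last =>
            cases y using Fin.lastCases with
            | last => rfl
            | cast y =>
              rw [hgc, hga] at he
              exact absurd ((hT0 y).2 hy) (he ▸ hc.2)
          | cast x =>
            cases y using Fin.lastCases with
            | last =>
              rw [hgc, hga] at he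
              exact absurd ((hT0 x).2 hx) (he ▸ hc.2)
            | cast y => rw [hga, hga] at he; rw [he]
        · cases x using Fin.lastCases with
          | last =>
            cases y using Fin.lastCases with
            | last => rw [hgc, hU1.1 c, hV.1]
            | cast y => rw [hgc, hga, hc1 y ((hT0 y).2 hy)]
          | cast x =>
            cases y using Fin.lastCases with
            | last => rw [hgc, hga, hU1.2.1 x c, hc1 x ((hT0 x).2 hx), hV.2.1]
            | cast y => rw [hga, hga, he1 x ((hT0 x).2 hx) y ((hT0 y).2 hy)]; rfl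
      refine le_trans ?_ (hC K U1 _ s hU1 hshp)
      refine Finset.sum_le_sum fun U _ => ?_
      by_cases hp : p U
      · rw [if_pos hp, if_pos]
        obtain ⟨hUt, hUe, hUc⟩ := hp
        intro a ha a' ha'
        rw [Finset.mem_insert] at ha ha'
        rcases ha with rfl | ha <;> rcases ha' with rfl | ha'
        · rw [hUt.1, hU1.1]
        · rw [hUc a' ha', hc1 a' ha']
        · rw [hUt.2.1 a a', hUc a ha, hU1.2.1 a a', hc1 a ha]
        · rw [hUe a ha a' ha', he1 a ha a' ha']
      · rw [if_neg hp]
        split_ifs <;> simp [treeW_nonneg]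
    refine (add_le_add ((Finset.sum_le_card_nsmul _ _ _ hcopy).trans_eq (nsmul_eq_mul _ _))
      (mul_le_mul_of_nonneg_left h0 (gapK_nonneg K))).trans ?_
    have h1 : gapK K * (C * gapK K ^ s0.nodes K) ≤ C * gapK K ^ s.nodes K := by
      rw [mul_left_comm, ← pow_succ']
      exact mul_le_mul_of_nonneg_left (hanti hle) hC0
    have h2 : ((Finset.univ \ T0).card : ℝ) ≤ n := by
      have := (Finset.univ \ T0).card_le_univ
      simp only [Fintype.card_fin] at this
      exact_mod_cast this
    have h3 := mul_le_mul_of_nonneg_right h2 (mul_nonneg hC0 (hg0 (s.nodes K)))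
    have := hg0 (s.nodes K)
    nlinarith

open Classical in
/-- The probability that two given replicas meet at a given level. -/
theorem evP_pair (n : ℕ) : ∃ C : ℝ, 0 ≤ C ∧ ∀ (K : ℕ) (V : Lvls K n) (a b : Fin n),
    V.IsTree → a ≠ b → evP {a, b} V ≤ C * gapK K := by
  induction n with
  | zero => exact ⟨0, le_rfl, fun K V a => a.elim0⟩
  | succ n ih =>
    obtain ⟨C, hC0, hC⟩ := ih
    refine ⟨(n : ℝ) * C + C + 1, by positivity, fun K V a b hV hab => ?_⟩
    have hg := gapK_nonneg K
    have hn0 : (0 : ℝ) ≤ n := Nat.cast_nonneg n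
    have hwlog : ∀ (a : Fin n) (b : Fin (n + 1)), a.castSucc ≠ b →
        evP {a.castSucc, b} V ≤ ((n : ℝ) * C + C + 1) * gapK K := by
      intro a b hab
      have hn : 1 ≤ n := Fin.pos a
      cases b using Fin.lastCases with
      | cast b =>
        have hne : a ≠ b := fun h => hab (by rw [h])
        refine ((evP_le_init hn V (T := {a.castSucc, b.castSucc}) (T0 := {a, b}) fun x hx => ?_).trans
          (hC K V.init a b hV.init hne)).trans (mul_le_mul_of_nonneg_right (by nlinarith) hg)
        simpa only [Finset.mem_insert, Finset.mem_singleton, Fin.castSucc_inj] using hx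
      | last =>
        have hT0 : ∀ x : Fin n, x ∈ ({a} : Finset (Fin n)) ↔
            x.castSucc ∈ ({a.castSucc, Fin.last n} : Finset (Fin (n + 1))) := fun x => by
          simp [(Fin.castSucc_lt_last x).ne]
        refine (evP_step hV hT0 (by simp) (Finset.mem_singleton_self a) fun x hx hne => ?_).trans ?_
        · simp only [Finset.mem_erase, Finset.mem_insert, Finset.mem_singleton] at hx
          rcases hx.2 with h | h
          · exact absurd h hne
          · exact absurd h hx.1
        have hcopy : ∀ c ∈ Finset.univ \ {a}, (∑ U : Lvls K n,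
            if U.IsTree ∧ (∀ x ∈ ({a} : Finset (Fin n)), ∀ x' ∈ ({a} : Finset (Fin n)),
                U x x' = V.init x x') ∧
              (∀ x ∈ ({a} : Finset (Fin n)), U c x = V (Fin.last n) x.castSucc)
            then treeW K n U else 0) ≤ C * gapK K := by
          intro c hc
          have hca : c ≠ a := by simpa using hc
          set p := fun U : Lvls K n => U.IsTree ∧ (∀ x ∈ ({a} : Finset (Fin n)),
            ∀ x' ∈ ({a} : Finset (Fin n)), U x x' = V.init x x') ∧
              (∀ x ∈ ({a} : Finset (Fin n)), U c x = V (Fin.last n) x.castSucc)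
          by_cases hw : ∃ U, p U
          swap
          · refine (Finset.sum_nonpos fun U _ => ?_).trans (mul_nonneg hC0 hg)
            exact le_of_eq (if_neg fun hp => hw ⟨U, hp⟩)
          obtain ⟨U1, hU1, -, hc1⟩ := hw
          refine le_trans ?_ (hC K U1 c a hU1 hca)
          refine Finset.sum_le_sum fun U _ => ?_
          by_cases hp : p U
          · rw [if_pos hp, if_pos]
            obtain ⟨hUt, -, hUc⟩ := hp
            have e1 := hUc a (Finset.mem_singleton_self a)
            have e2 := hc1 a (Finset.mem_singleton_self a)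
            intro x hx y hy
            simp only [Finset.mem_insert, Finset.mem_singleton] at hx hy
            rcases hx with rfl | rfl <;> rcases hy with rfl | rfl
            · rw [hUt.1, hU1.1]
            · rw [e1, e2]
            · rw [hUt.2.1, e1, hU1.2.1, e2]
            · rw [hUt.1, hU1.1]
          · rw [if_neg hp]
            split_ifs <;> simp [treeW_nonneg]
        refine (add_le_add ((Finset.sum_le_card_nsmul _ _ _ hcopy).trans_eq (nsmul_eq_mul _ _))
          (mul_le_of_le_one_right hg (evP_le_one {a} V.init))).trans ?_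
        have h2 : ((Finset.univ \ ({a} : Finset (Fin n))).card : ℝ) ≤ n := by
          have := (Finset.univ \ ({a} : Finset (Fin n))).card_le_univ
          simp only [Fintype.card_fin] at this
          exact_mod_cast this
        nlinarith [mul_le_mul_of_nonneg_right h2 (mul_nonneg hC0 hg)]
    cases a using Fin.lastCases with
    | cast a => exact hwlog a b hab
    | last =>
      cases b using Fin.lastCases with
      | last => exact absurd rfl hab
      | cast b =>
        rw [Finset.pair_comm]
        exact hwlog b _ hab.symm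

end Vale.Agent.P168
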