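import Vale.Agent.P168.CavTrial.Assembly
import Vale.Agent.P168.TreeRep.Main

/-!
P168, cavity trial: the statement without hypotheses.
-/

namespace Vale.Agent.P168

/-- Decoupled arrays give trial values. -/
theorem cavityTrial : CavityTrial := CavTrial.cavityTrial_of_treeRep TreeRep.treeRep

end Vale.Agent.P168
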