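import Vale.Agent.P168.CavTrial.Dom

/-!
P168, cavity: products of spins of placed replicas decouple between sites, on average over the tree.
-/

open MeasureTheory Filter Topology

noncomputable section

namespace Vale.Agent.P168

variable {K n : ℕ}

/-- The product of the spins of some placed replicas. -/
def spinT (U : Lvls K n) (T : Finset (Fin n)) : Obs K := fun σ => ∏ a ∈ T, sgn (σ (place U a))

theorem unit_spinT (U : Lvls K n) (T : Finset (Fin n)) : Unit1 (spinT U T) := by
  have hs : Measurable sgn := measurable_of_finite sgn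
  refine ⟨Finset.measurable_fun_prod T fun a _ => hs.comp (measurable_pi_apply _), fun σ => ?_⟩
  simp only [spinT]
  rw [Finset.abs_prod]
  simp [sgn_abs]

theorem com'_eq_of {x y : Fin K → ℕ} {h : ℕ} (hh : h < K) (hag : Agree h x y)
    (hne : x ⟨h, hh⟩ ≠ y ⟨h, hh⟩) : com' x y = h := by
  rcases lt_trichotomy (com' x y) h with hlt | heq | hgt
  · exact absurd ((lt_com'_iff x y ⟨com' x y, hlt.trans hh⟩).2 fun i hi =>
      hag i (lt_of_le_of_lt (Fin.le_def.1 hi) hlt)) (lt_irrefl _)
  · exact heq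
  · exact absurd ((lt_com'_iff x y ⟨h, hh⟩).1 hgt ⟨h, hh⟩ le_rfl) hne

/-- The paths of the leaves of a shape. -/
theorem Shp.paths {U : Lvls K n} (hT : U.IsTree) {S : Finset (Fin n)} {s : Sh} (h : Shp U S s) :
    ∀ (lab : ℕ) (x : Fin K → ℕ), 1 ≤ lab → ∃ P : Fin n → Fin K → ℕ,
      (gtup lab s x = fun σ => ∏ a ∈ S, sgn (σ (P a, 0))) ∧
      (∀ a ∈ S, Agree (s.top K) (P a) x ∧
        ∀ l : Fin K, (l : ℕ) = s.top K → P a l = 0 ∨ lab ≤ P a l) ∧
      ∀ a ∈ S, ∀ b ∈ S, a ≠ b → com' (P a) (P b) = (U a b : ℕ) := by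
  induction h with
  | leaf a =>
    intro lab x _
    refine ⟨fun _ => x, ?_, fun b _ => ⟨fun _ _ => rfl, fun l hl => ?_⟩, fun b hb c hc hbc => ?_⟩
    · funext σ; simp [gtup, tup]
    · exact absurd hl l.isLt.ne
    · rw [Finset.mem_singleton] at hb hc
      exact absurd (hb.trans hc.symm) hbc
  | @node h L R SL SR h1 h2 hK hL hR hd hU ih1 ih2 =>
    intro lab x hlab
    obtain ⟨PR, eR, hR1, hR2⟩ := ih2 1 (put x h lab) le_rfl
    have hRt : h + 1 ≤ R.top K := hR.le_top hK
    have hRc : ∀ b ∈ SR, Agree h (PR b) x ∧ PR b ⟨h, hK⟩ = lab := fun b hb => by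
      have := (hR1 b hb).1
      refine ⟨((Agree.mono this (show h ≤ R.top K by omega))).trans (agree_put x lab le_rfl), ?_⟩
      rw [this ⟨h, hK⟩ (show h < R.top K by omega), put_of_eq x lab (l := ⟨h, hK⟩) rfl]
    obtain ⟨PL, eL, hL1, hL2⟩ : ∃ PL : Fin n → Fin K → ℕ,
        ((if L.top K = h then gtup (lab + 1) L x else gtup 1 L (put x h 0))
          = fun σ => ∏ a ∈ SL, sgn (σ (PL a, 0))) ∧
        (∀ a ∈ SL, Agree h (PL a) x ∧ (PL a ⟨h, hK⟩ = 0 ∨ lab + 1 ≤ PL a ⟨h, hK⟩)) ∧
        ∀ a ∈ SL, ∀ b ∈ SL, a ≠ b → com' (PL a) (PL b) = (U a b : ℕ) := by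
      by_cases ht : L.top K = h
      · obtain ⟨P, e, hP1, hP2⟩ := ih1 (lab + 1) x (by omega)
        refine ⟨P, by rw [if_pos ht, e], fun a ha => ⟨?_, (hP1 a ha).2 ⟨h, hK⟩ ht.symm⟩, hP2⟩
        have := (hP1 a ha).1
        rwa [ht] at this
      · obtain ⟨P, e, hP1, hP2⟩ := ih1 1 (put x h 0) le_rfl
        have hLt : h + 1 ≤ L.top K := (hL.succ ht).le_top hK
        refine ⟨P, by rw [if_neg ht, e], fun a ha => ⟨?_, .inl ?_⟩, hP2⟩
        · exact ((hP1 a ha).1.mono (show h ≤ L.top K by omega)).trans (agree_put x 0 le_rfl)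
        · rw [(hP1 a ha).1 ⟨h, hK⟩ (show h < L.top K by omega), put_of_eq x 0 (l := ⟨h, hK⟩) rfl]
    set P : Fin n → Fin K → ℕ := fun a => if a ∈ SL then PL a else PR a with hP
    have hPl : ∀ a ∈ SL, P a = PL a := fun a ha => if_pos ha
    have hPr : ∀ a ∈ SR, P a = PR a := fun a ha => if_neg (Finset.disjoint_right.1 hd ha)
    have hcross : ∀ a ∈ SL, ∀ b ∈ SR, com' (P a) (P b) = h := fun a ha b hb => by
      rw [hPl a ha, hPr b hb]
      refine com'_eq_of hK ((hL1 a ha).1.trans (hRc b hb).1.symm) ?_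
      rw [(hRc b hb).2]
      rcases (hL1 a ha).2 with h' | h' <;> omega
    refine ⟨P, ?_, fun a ha => ?_, fun a ha b hb hab => ?_⟩
    · rw [gtup_node, eL, eR]
      funext σ
      simp only [Pi.mul_apply]
      rw [Finset.prod_union hd]
      congr 1
      · exact Finset.prod_congr rfl fun a ha => by rw [hPl a ha]
      · exact Finset.prod_congr rfl fun a ha => by rw [hPr a ha]
    · rcases Finset.mem_union.1 ha with ha | ha
      · rw [hPl a ha]
        refine ⟨(hL1 a ha).1, fun l hl => ?_⟩
        rw [show l = ⟨h, hK⟩ from Fin.ext hl]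
        exact (hL1 a ha).2.imp id fun h' => by omega
      · rw [hPr a ha]
        refine ⟨(hRc a ha).1, fun l hl => .inr ?_⟩
        rw [show l = ⟨h, hK⟩ from Fin.ext hl, (hRc a ha).2]
    · rcases Finset.mem_union.1 ha with ha | ha <;> rcases Finset.mem_union.1 hb with hb | hb
      · rw [hPl a ha, hPl b hb]; exact hL2 a ha b hb hab
      · rw [hcross a ha b hb]; exact (hU a ha b hb).symm
      · rw [com'_comm, hcross b hb a ha, hT.2.1 a b]; exact (hU b hb a ha).symm
      · rw [hPr a ha, hPr b hb]; exact hR2 a ha b hb hab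

/-- The level of two leaves of a shape, numbered from the left. -/
def Sh.lev : Sh → ℕ → ℕ → ℕ
  | Sh.leaf, _, _ => 0
  | Sh.node h L R, i, j =>
      if i < L.size then (if j < L.size then L.lev i j else h)
      else if j < L.size then h else R.lev (i - L.size) (j - L.size)

/-- A numbering of the replicas of a shape. -/
theorem Shp.code {U : Lvls K n} (hT : U.IsTree) {S : Finset (Fin n)} {s : Sh} (h : Shp U S s) :
    ∃ f : Fin n → ℕ, (∀ a ∈ S, f a < s.size) ∧
      ∀ a ∈ S, ∀ b ∈ S, a ≠ b → (U a b : ℕ) = s.lev (f a) (f b) := by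
  induction h with
  | leaf a =>
    refine ⟨fun _ => 0, fun _ _ => Nat.one_pos, fun b hb c hc hbc => ?_⟩
    rw [Finset.mem_singleton] at hb hc
    exact absurd (hb.trans hc.symm) hbc
  | @node h L R SL SR h1 h2 hK hL hR hd hU ih1 ih2 =>
    obtain ⟨f, hf1, hf2⟩ := ih1
    obtain ⟨g, hg1, hg2⟩ := ih2
    refine ⟨fun a => if a ∈ SL then f a else L.size + g a, fun a ha => ?_,
      fun a ha b hb hab => ?_⟩
    · rcases Finset.mem_union.1 ha with ha | ha
      · have := hf1 a ha
        simp only [if_pos ha, Sh.size]; omega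
      · have := hg1 a ha
        simp only [if_neg (Finset.disjoint_right.1 hd ha), Sh.size]; omega
    · simp only [Sh.lev]
      have hR' : ∀ x ∈ SR, x ∉ SL := fun x hx => Finset.disjoint_right.1 hd hx
      rcases Finset.mem_union.1 ha with ha | ha <;> rcases Finset.mem_union.1 hb with hb | hb
      · simp only [if_pos ha, if_pos hb, if_pos (hf1 a ha), if_pos (hf1 b hb)]
        exact hf2 a ha b hb hab
      · simp only [if_pos ha, if_neg (hR' b hb), if_pos (hf1 a ha)]
        rw [if_neg (by omega)]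
        exact hU a ha b hb
      · simp only [if_neg (hR' a ha), if_pos hb, if_pos (hf1 b hb)]
        rw [if_neg (by omega), hT.2.1 a b]
        exact hU b hb a ha
      · simp only [if_neg (hR' a ha), if_neg (hR' b hb)]
        rw [if_neg (by omega), if_neg (by omega), Nat.add_sub_cancel_left, Nat.add_sub_cancel_left]
        exact hg2 a ha b hb hab

namespace Arr

variable (A : Arr K)

/-- Relabelled observables fluctuate alike. -/
theorem nrm_centred_relabel {π : Pt K → Pt K} (hπ : IsTreeMap π) {x : Obs K} (hx : Measurable x) :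
    A.nrm (A.centred fun σ => x fun a => σ (π a)) = A.nrm (A.centred x) := by
  have hmean : A.mean (fun σ => x fun a => σ (π a)) = A.mean x :=
    A.integral_relabel (hx.comp (measurable_site 0)) hπ Function.injective_id
  have hc : Measurable (A.centred x) := hx.sub measurable_const
  have h := A.integral_relabel ((hc.comp (measurable_site 0)).mul (hc.comp (measurable_site 1))) hπ
    Function.injective_id
  have e : A.centred (fun σ => x fun a => σ (π a)) = fun σ => A.centred x fun a => σ (π a) := by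
    funext σ
    simp only [centred, Pi.sub_apply, hmean]
  rw [nrm, nrm, e]
  exact congrArg Real.sqrt h

/-- Placed replicas of a shape fluctuate as the shape. -/
theorem fluct_place {U : Lvls K n} (hT : U.IsTree) {S : Finset (Fin n)} {s : Sh} (h : Shp U S s) :
    A.nrm (A.centred (spinT U S)) = A.gfluct s := by
  obtain ⟨P, e, -, hP⟩ := h.paths hT 1 (fun _ => 0) le_rfl
  have hlt : ∀ a ∈ S, ∀ b ∈ S, a ≠ b → (U a b : ℕ) < K := fun a ha b hb hab =>
    (h.pairs hT h.gvalid a ha b hb hab).2
  obtain ⟨π, hπ, hπp⟩ := exists_treeMap (ι := {a // a ∈ S}) (fun a => ((P a, 0) : Pt K))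
    (fun a => place U a) (fun a b => by
      rcases eq_or_ne a b with rfl | hab
      · simp only [com'_self]
      · rw [com'_place hT]
        exact hP a a.2 b b.2 fun h' => hab (Subtype.ext h')) (fun a b => by
      rw [(place_injective U).eq_iff]
      constructor
      · intro he
        by_contra hab
        have h1 := hP a a.2 b b.2 hab
        simp only [Prod.mk.injEq, and_true] at he
        rw [he, com'_self] at h1
        have := hlt a a.2 b b.2 hab
        omega
      · intro he; rw [he])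
  have e2 : spinT U S = fun σ => gtup 1 s (fun _ => 0) fun a => σ (π a) := by
    funext σ
    rw [e]
    exact Finset.prod_congr rfl fun a ha => by rw [← hπp ⟨a, ha⟩]
  rw [e2, A.nrm_centred_relabel hπ (unit_gtup _ _ _).1]
  rfl

end Arr

open Classical in
/-- Products of spins of placed replicas decouple between sites, on average over the tree. -/
theorem tree_decoupling (C : ℕ → ℝ) (n : ℕ) {ε : ℝ} (hε : 0 < ε) :
    ∀ᶠ K in atTop, ∀ A : Arr K, A.Tel C → ∀ T : Finset (Fin n),
      ∑ U : Lvls K n, treeW K n U * A.nrm (A.centred (spinT U T)) ≤ ε := by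
  suffices H : ∀ T : Finset (Fin n), ∀ᶠ K in atTop, ∀ A : Arr K, A.Tel C →
      ∑ U : Lvls K n, treeW K n U * A.nrm (A.centred (spinT U T)) ≤ ε by
    filter_upwards [eventually_all.2 H] with K hK A hA T using hK T A hA
  intro T
  rcases T.eq_empty_or_nonempty with rfl | hne
  · refine .of_forall fun K A _ => ?_
    refine (Finset.sum_nonpos fun U _ => ?_).trans hε.le
    have := A.prob
    have e : A.centred (spinT U (∅ : Finset (Fin n))) = fun _ => 0 := by
      funext σ
      simp [Arr.centred, spinT, Arr.mean]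
    rw [e, A.nrm_const, abs_zero, mul_zero]
  obtain ⟨C1, hC1, hev⟩ := evP_shp n
  obtain ⟨C2, hC2, hpair⟩ := evP_pair n
  set m := T.card
  have hm : 1 ≤ m := hne.card_pos
  set N : ℝ := (Fintype.card (Fin n → Fin m) : ℝ)
  set Q : ℝ := 2 * (n * n) * C2
  filter_upwards [gfluct_small C hm (show 0 < ε / (2 * (N * C1 + 1)) by positivity),
    eventually_ge_atTop ⌈2 * Q / ε⌉₊] with K hK hKQ A hA
  set pred := fun (s : Sh) (f : Fin n → Fin m) (U : Lvls K n) => U.IsTree ∧ Shp U T s ∧
    ∀ a ∈ T, ∀ b ∈ T, a ≠ b → (U a b : ℕ) = s.lev (f a) (f b)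
  set I := fun (p : Fin n × Fin n) (U : Lvls K n) =>
    if U.IsTree ∧ (U p.1 p.2 : ℕ) = K then treeW K n U else 0
  set J := fun (s : Sh) (f : Fin n → Fin m) (U : Lvls K n) =>
    if pred s f U then treeW K n U else 0
  have hI0 : ∀ p U, 0 ≤ I p U := fun p U => by simp only [I]; split_ifs <;> simp [treeW_nonneg]
  have hJ0 : ∀ s f U, 0 ≤ J s f U := fun s f U => by
    simp only [J]; split_ifs <;> simp [treeW_nonneg]
  have hpt : ∀ U : Lvls K n, treeW K n U * A.nrm (A.centred (spinT U T))
      ≤ 2 * ∑ p ∈ T.offDiag, I p U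
        + ∑ s ∈ gshapes K m 0, ∑ f : Fin n → Fin m, A.gfluct s * J s f U := by
    intro U
    have h1 : 0 ≤ ∑ p ∈ T.offDiag, I p U := Finset.sum_nonneg fun p _ => hI0 p U
    have h2 : 0 ≤ ∑ s ∈ gshapes K m 0, ∑ f : Fin n → Fin m, A.gfluct s * J s f U :=
      Finset.sum_nonneg fun s _ => Finset.sum_nonneg fun f _ =>
        mul_nonneg (A.nrm_nonneg _) (hJ0 s f U)
    by_cases hU : U.IsTree
    swap
    · rw [treeW_eq_zero hU, zero_mul]; linarith
    by_cases hlt : ∀ a ∈ T, ∀ b ∈ T, a ≠ b → (U a b : ℕ) < K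
    · obtain ⟨s, hs⟩ := exists_shp hU m T le_rfl hne hlt
      obtain ⟨f, hf1, hf2⟩ := hs.code hU
      have hsz : s.size = m := hs.card_eq.symm
      set f' : Fin n → Fin m := fun a => if h : a ∈ T then ⟨f a, hsz ▸ hf1 a h⟩ else ⟨0, hm⟩
      have hp : pred s f' U := ⟨hU, hs, fun a ha b hb hab => by
        simp only [f', dif_pos ha, dif_pos hb]
        exact hf2 a ha b hb hab⟩
      have h3 : A.gfluct s * J s f' U ≤ ∑ s ∈ gshapes K m 0, ∑ f : Fin n → Fin m, A.gfluct s * J s f U :=
        (Finset.single_le_sum (f := fun g => A.gfluct s * J s g U)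
          (fun g _ => mul_nonneg (A.nrm_nonneg _) (hJ0 s g U)) (Finset.mem_univ f')).trans
          (Finset.single_le_sum (f := fun s => ∑ g : Fin n → Fin m, A.gfluct s * J s g U)
            (fun s _ => Finset.sum_nonneg fun g _ => mul_nonneg (A.nrm_nonneg _) (hJ0 s g U))
            (mem_gshapes.2 ⟨hs.gvalid, hsz⟩))
      have h4 : J s f' U = treeW K n U := if_pos hp
      rw [h4] at h3
      rw [A.fluct_place hU hs, mul_comm]
      linarith
    · push Not at hlt
      obtain ⟨a, ha, b, hb, hab, hge⟩ := hlt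
      have h3 : I (a, b) U ≤ ∑ p ∈ T.offDiag, I p U :=
        Finset.single_le_sum (fun p _ => hI0 p U) (Finset.mem_offDiag.2 ⟨ha, hb, hab⟩)
      have h4 : I (a, b) U = treeW K n U := if_pos ⟨hU, le_antisymm (Fin.is_le _) hge⟩
      have h5 := mul_le_mul_of_nonneg_left (A.nrm_centred_le_two (unit_spinT U T))
        (treeW_nonneg U)
      linarith
  have hI : ∀ p ∈ T.offDiag, ∑ U : Lvls K n, I p U ≤ C2 * gapK K := by
    intro p hp
    rw [Finset.mem_offDiag] at hp
    by_cases hw : ∃ U : Lvls K n, U.IsTree ∧ (U p.1 p.2 : ℕ) = K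
    · obtain ⟨U1, hU1, hK1⟩ := hw
      refine le_trans (Finset.sum_le_sum fun U _ => ?_) (hpair K U1 p.1 p.2 hU1 hp.2.2)
      simp only [I]
      by_cases hq : U.IsTree ∧ (U p.1 p.2 : ℕ) = K
      · rw [if_pos hq, if_pos]
        intro a ha b hb
        simp only [Finset.mem_insert, Finset.mem_singleton] at ha hb
        have e : U p.1 p.2 = U1 p.1 p.2 := Fin.ext (hq.2.trans hK1.symm)
        rcases ha with rfl | rfl <;> rcases hb with rfl | rfl
        · rw [hq.1.1, hU1.1]
        · exact e
        · rw [hq.1.2.1, hU1.2.1 p.2, e]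
        · rw [hq.1.1, hU1.1]
      · rw [if_neg hq]
        split_ifs <;> simp [treeW_nonneg]
    · refine (Finset.sum_nonpos fun U _ => ?_).trans (mul_nonneg hC2 (gapK_nonneg K))
      exact le_of_eq (if_neg fun hq => hw ⟨U, hq⟩)
  have hJ : ∀ s f, ∑ U : Lvls K n, J s f U ≤ C1 * gwt K s := by
    intro s f
    by_cases hw : ∃ U, pred s f U
    · obtain ⟨U1, hU1, hs1, hf1⟩ := hw
      refine le_trans (Finset.sum_le_sum fun U _ => ?_) (hev K U1 T s hU1 hs1)
      by_cases hq : pred s f U
      · simp only [J]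
        rw [if_pos hq, if_pos]
        intro a ha b hb
        rcases eq_or_ne a b with rfl | hab
        · rw [hq.1.1, hU1.1]
        · exact Fin.ext ((hq.2.2 a ha b hb hab).trans (hf1 a ha b hb hab).symm)
      · simp only [J]
        rw [if_neg hq]
        split_ifs <;> simp [treeW_nonneg]
    · refine (Finset.sum_nonpos fun U _ => ?_).trans (mul_nonneg hC1 (gwt_nonneg s))
      exact le_of_eq (if_neg fun hq => hw ⟨U, hq⟩)
  have hG := hK A hA
  have hgap : Q * gapK K ≤ ε / 2 := by
    have h1 := (Nat.le_ceil (2 * Q / ε)).trans (Nat.cast_le.2 hKQ)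
    rw [div_le_iff₀ hε] at h1
    rw [gapK, mul_one_div, div_le_iff₀ (by positivity)]
    linarith
  calc ∑ U : Lvls K n, treeW K n U * A.nrm (A.centred (spinT U T))
      ≤ 2 * ∑ p ∈ T.offDiag, ∑ U : Lvls K n, I p U
        + ∑ s ∈ gshapes K m 0, ∑ f : Fin n → Fin m, A.gfluct s * ∑ U : Lvls K n, J s f U := by
        refine (Finset.sum_le_sum fun U _ => hpt U).trans_eq ?_
        rw [Finset.sum_add_distrib, ← Finset.mul_sum, Finset.sum_comm]
        congr 1
        rw [Finset.sum_comm]
        refine Finset.sum_congr rfl fun s _ => ?_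
        rw [Finset.sum_comm]
        exact Finset.sum_congr rfl fun f _ => (Finset.mul_sum _ _ _).symm
    _ ≤ 2 * ((n * n : ℕ) * (C2 * gapK K))
        + N * C1 * ∑ s ∈ gshapes K m 0, gwt K s * A.gfluct s := by
        refine add_le_add (mul_le_mul_of_nonneg_left ?_ zero_le_two) ?_
        · refine (Finset.sum_le_card_nsmul _ _ _ hI).trans ?_
          rw [nsmul_eq_mul]
          refine mul_le_mul_of_nonneg_right (Nat.cast_le.2 ?_) (mul_nonneg hC2 (gapK_nonneg K))
          rw [Finset.offDiag_card]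
          have := T.card_le_univ
          simp only [Fintype.card_fin] at this
          exact (Nat.sub_le _ _).trans (Nat.mul_le_mul this this)
        · rw [Finset.mul_sum]
          refine Finset.sum_le_sum fun s _ => ?_
          refine (Finset.sum_le_card_nsmul _ _ (A.gfluct s * (C1 * gwt K s)) fun f _ =>
            mul_le_mul_of_nonneg_left (hJ s f) (A.nrm_nonneg _)).trans_eq ?_
          rw [nsmul_eq_mul, Finset.card_univ]
          simp only [N]
          ring
    _ ≤ ε := by
        have h2 := mul_le_mul_of_nonneg_left hG (mul_nonneg (Nat.cast_nonneg (Fintype.card (Fin n → Fin m))) hC1)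
        have h3 : N * C1 * (ε / (2 * (N * C1 + 1))) ≤ ε / 2 := by
          rw [mul_div_assoc', div_le_div_iff₀ (by positivity) two_pos]
          nlinarith
        simp only [N, Q] at h2 h3 hgap ⊢
        push_cast
        linarith

end Vale.Agent.P168
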