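import Vale.Agent.P157.Casc.LimitRec
import Vale.Agent.P157.Hybrid
import Vale.Agent.P168.Truncate.Trial

/-!
P168, cavity trial: the recursion with averaged first level splits over independent groups of
labels.
-/

open MeasureTheory ProbabilityTheory Finset Real

noncomputable section

namespace Vale.Agent.P168.CavTrial

open P157.Casc (casc Grid)

variable {X X' : Type} [MeasurableSpace X] [MeasurableSpace X'] {ν : Measure X}
  [IsProbabilityMeasure ν] {ν' : Measure X'} [IsProbabilityMeasure ν'] {K : ℕ} {m : Fin K → ℝ}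

/-- The recursion over all but the first level, averaged over the first. -/
def rec0 (ν : Measure X) (m : Fin K → ℝ) (H : (Fin (K + 1) → X) → ℝ) : ℝ :=
  ∫ w₀, casc ν K m (fun y => H (Fin.cons w₀ y)) ∂ν

theorem exp_mem {B t : ℝ} (h : |t| ≤ B) : Real.exp (-B) ≤ Real.exp t ∧ Real.exp t ≤ Real.exp B :=
  ⟨exp_le_exp.2 (abs_le.1 h).1, exp_le_exp.2 (abs_le.1 h).2⟩

/-- The exponential mean is the logarithm of the recursion of the powers. -/
theorem casc_eq_log_rpowRec : ∀ (K : ℕ) {m : Fin K → ℝ}, (∀ p, 0 < m p) →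
    ∀ {H : (Fin K → X) → ℝ}, Measurable H → ∀ {B : ℝ}, (∀ y, |H y| ≤ B) →
    casc ν K m H = log (rpowRec ν K m fun y => Real.exp (H y))
  | 0, _, _, H, _, _, _ => by simp [casc, rpowRec]
  | K + 1, m, hm, H, hH, B, hB => by
    set R : X → ℝ := fun c => rpowRec ν K (fun p => m p.succ) fun y => Real.exp (H (Fin.cons c y))
    have hR : ∀ c, Real.exp (-B) ≤ R c ∧ R c ≤ Real.exp B := fun c =>
      rpowRec_mem K _ (fun p => hm _) (measurable_exp.comp (hH.comp (measurable_finCons_right c)))
        (exp_pos _) fun y => exp_mem (hB _)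
    have hRm : Measurable R := measurable_rpowRec K _ (Y := fun c y => Real.exp (H (Fin.cons c y)))
      (measurable_exp.comp (hH.comp measurable_finCons))
    have hpow : ∀ c, Real.exp (-B) ^ m 0 ≤ R c ^ m 0 ∧ R c ^ m 0 ≤ Real.exp B ^ m 0 := fun c =>
      ⟨rpow_le_rpow (exp_pos _).le (hR c).1 (hm 0).le,
        rpow_le_rpow ((exp_pos _).le.trans (hR c).1) (hR c).2 (hm 0).le⟩
    have hpos : 0 < ∫ c, R c ^ m 0 ∂ν := by
      refine lt_of_lt_of_le (rpow_pos_of_pos (exp_pos (-B)) (m 0)) ?_
      simpa using integral_mono (μ := ν) (integrable_const (Real.exp (-B) ^ m 0))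
        (Integrable.of_bound (hRm.pow_const _).aestronglyMeasurable (Real.exp B ^ m 0)
          (ae_of_all _ fun c => by
            rw [Real.norm_of_nonneg (rpow_nonneg ((exp_pos _).le.trans (hR c).1) _)]
            exact (hpow c).2))
        fun c => (hpow c).1
    have e : ∀ c, Real.exp (m 0 * casc ν K (fun l => m l.succ) fun y => H (Fin.cons c y))
        = R c ^ m 0 := fun c => by
      rw [casc_eq_log_rpowRec K (fun p => hm _) (H := fun y => H (Fin.cons c y))
        (hH.comp (measurable_finCons_right c)) (fun y => hB _), mul_comm, ← rpow_def_of_pos ((exp_pos _).trans_le (hR c).1)]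
    simp only [casc, e]
    exact (log_rpow hpos _).symm

theorem abs_casc_le {H : (Fin K → X) → ℝ} (hm : ∀ p, 0 < m p) (hH : Measurable H) {B : ℝ}
    (hB : ∀ y, |H y| ≤ B) : |casc ν K m H| ≤ B := by
  obtain ⟨h1, h2⟩ := rpowRec_mem (ν := ν) K m hm (measurable_exp.comp hH) (exp_pos (-B))
    fun y => exp_mem (hB y)
  rw [casc_eq_log_rpowRec K hm hH hB, abs_le]
  exact ⟨(le_log_iff_exp_le ((exp_pos _).trans_le h1)).2 h1,
    (log_le_iff_le_exp ((exp_pos _).trans_le h1)).2 h2⟩

theorem measurable_casc_cons {H : (Fin (K + 1) → X) → ℝ} (hH : Measurable H) :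
    Measurable fun c => casc ν K m fun y => H (Fin.cons c y) :=
  P157.Casc.measurable_casc_param K m (H := fun c y => H (Fin.cons c y))
    (hH.comp measurable_finCons)

theorem integrable_casc_cons {H : (Fin (K + 1) → X) → ℝ} (hm : ∀ p, 0 < m p) (hH : Measurable H)
    {B : ℝ} (hB : ∀ y, |H y| ≤ B) : Integrable (fun c => casc ν K m fun y => H (Fin.cons c y)) ν :=
  Integrable.of_bound (measurable_casc_cons hH).aestronglyMeasurable B (ae_of_all _ fun c => by
    rw [Real.norm_eq_abs]
    exact abs_casc_le hm (hH.comp (measurable_finCons_right c)) fun y => hB _)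

/-- The averaged logarithm of the recursion of the powers. -/
theorem outerRec_eq_rec0 {Y : (Fin (K + 1) → X) → ℝ} (hm : ∀ p, 0 < m p) (hY : Measurable Y)
    (h0 : ∀ w, 0 < Y w) {B : ℝ} (hB : ∀ w, |log (Y w)| ≤ B) :
    outerRec ν m Y = rec0 ν m fun w => log (Y w) := by
  refine integral_congr_ae (ae_of_all _ fun c => ?_)
  show log _ = casc _ _ _ _
  rw [casc_eq_log_rpowRec (B := B) K hm (H := fun y => log (Y (Fin.cons c y)))
    ((measurable_log.comp hY).comp (measurable_finCons_right c)) fun y => hB _]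
  simp only [exp_log (h0 _)]

theorem rec0_map {g : X → X'} (hg : MeasurePreserving g ν ν') {H : (Fin (K + 1) → X') → ℝ}
    (hH : Measurable H) : rec0 ν m (fun w => H fun p => g (w p)) = rec0 ν' m H := by
  have h1 : ∀ (x : X) (y : Fin K → X),
      (fun p => g ((Fin.cons x y : Fin (K + 1) → X) p))
        = (Fin.cons (g x) fun l => g (y l) : Fin (K + 1) → X') :=
    fun x y => funext fun l => Fin.cases rfl (fun i => rfl) l
  have h2 : ∀ x : X, casc ν K m (fun y => H fun p => g ((Fin.cons x y : Fin (K + 1) → X) p))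
      = casc ν' K m fun y => H (Fin.cons (g x) y) := fun x => by
    simp only [h1]
    exact (P157.Casc.casc_map hg K m (a := fun _ => 0) (hH.comp (measurable_finCons_right (g x)))
      measurable_const).1
  unfold rec0
  simp only [h2]
  exact (integral_map hg.measurable.aemeasurable
    (measurable_casc_cons hH).aestronglyMeasurable).symm.trans (by rw [hg.map_eq])

theorem integrable_exp_bdd {Y : Type} [MeasurableSpace Y] (ρ : Measure Y) [IsProbabilityMeasure ρ]
    {G : (Fin K → Y) → ℝ} (hG : Measurable G) {b : ℝ} (hb : ∀ y, |G y| ≤ b) (t : ℝ) :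
    Integrable (fun y => Real.exp (t * |G y|)) (Measure.pi fun _ : Fin K => ρ) :=
  Integrable.of_bound (measurable_exp.comp (hG.abs.const_mul t)).aestronglyMeasurable
    (Real.exp (|t| * b)) (ae_of_all _ fun y => by
      show ‖Real.exp (t * |G y|)‖ ≤ _
      rw [Real.norm_of_nonneg (exp_pos _).le]
      refine exp_le_exp.2 ((le_abs_self _).trans ?_)
      rw [abs_mul, abs_abs]
      exact mul_le_mul_of_nonneg_left (hb y) (abs_nonneg t))

theorem rec0_prod (hm : Grid m) {H : (Fin (K + 1) → X) → ℝ} {H' : (Fin (K + 1) → X') → ℝ}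
    (hH : Measurable H) (hH' : Measurable H') {B B' : ℝ} (hB : ∀ y, |H y| ≤ B)
    (hB' : ∀ y, |H' y| ≤ B') :
    rec0 (ν.prod ν') m (fun w => H (fun p => (w p).1) + H' fun p => (w p).2)
      = rec0 ν m H + rec0 ν' m H' := by
  have h1 : ∀ (x : X × X') (y : Fin K → X × X'),
      (fun l => ((Fin.cons x y : Fin (K + 1) → X × X') l).1)
        = (Fin.cons x.1 fun l => (y l).1 : Fin (K + 1) → X) :=
    fun x y => funext fun l => Fin.cases rfl (fun i => rfl) l
  have h2 : ∀ (x : X × X') (y : Fin K → X × X'),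
      (fun l => ((Fin.cons x y : Fin (K + 1) → X × X') l).2)
        = (Fin.cons x.2 fun l => (y l).2 : Fin (K + 1) → X') :=
    fun x y => funext fun l => Fin.cases rfl (fun i => rfl) l
  have h3 : ∀ x : X × X', casc (ν.prod ν') K m (fun y =>
      H (fun l => ((Fin.cons x y : Fin (K + 1) → X × X') l).1) +
        H' fun l => ((Fin.cons x y : Fin (K + 1) → X × X') l).2)
      = casc ν K m (fun y => H (Fin.cons x.1 y)) + casc ν' K m fun y => H' (Fin.cons x.2 y) :=
    fun x => by
      simp only [h1, h2]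
      exact (P157.Casc.casc_prod ν' hm (a := fun _ => 0) (hH.comp (measurable_finCons_right x.1))
        (hH'.comp (measurable_finCons_right x.2))
        (integrable_exp_bdd ν (hH.comp (measurable_finCons_right x.1)) fun y => hB _)
        (integrable_exp_bdd ν' (hH'.comp (measurable_finCons_right x.2)) fun y => hB' _)).1
  unfold rec0
  simp only [h3]
  rw [integral_add ((integrable_casc_cons hm.pos hH hB).comp_fst ν')
    ((integrable_casc_cons hm.pos hH' hB').comp_snd ν),
    integral_fun_fst (fun x => casc ν K m fun y => H (Fin.cons x y)),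
    integral_fun_snd (fun x => casc ν' K m fun y => H' (Fin.cons x y))]
  simp

theorem casc_add_const : ∀ (K : ℕ) {m : Fin K → ℝ}, (∀ p, 0 < m p) → ∀ {H : (Fin K → X) → ℝ},
    Measurable H → ∀ {B : ℝ}, (∀ y, |H y| ≤ B) → ∀ a : ℝ,
    casc ν K m (fun y => a + H y) = a + casc ν K m H
  | 0, _, _, _, _, _, _, _ => rfl
  | K + 1, m, hm, H, hH, B, hB, a => by
    have hb : ∀ c, |casc ν K (fun l => m l.succ) fun y => H (Fin.cons c y)| ≤ B := fun c =>
      abs_casc_le (fun p => hm _) (hH.comp (measurable_finCons_right c)) fun y => hB _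
    have hpos : 0 < ∫ c, Real.exp (m 0 * casc ν K (fun l => m l.succ) fun y => H (Fin.cons c y))
        ∂ν := integral_exp_pos <| Integrable.of_bound
      (measurable_exp.comp ((measurable_casc_cons hH).const_mul _)).aestronglyMeasurable
      (Real.exp (m 0 * B)) (ae_of_all _ fun c => by
        rw [Real.norm_of_nonneg (exp_pos _).le]
        exact exp_le_exp.2 (mul_le_mul_of_nonneg_left (abs_le.1 (hb c)).2 (hm 0).le))
    have hr : ∀ c, casc ν K (fun l => m l.succ) (fun y => a + H (Fin.cons c y))
        = a + casc ν K (fun l => m l.succ) fun y => H (Fin.cons c y) := fun c =>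
      casc_add_const K (fun p => hm p.succ) (H := fun y => H (Fin.cons c y))
        (hH.comp (measurable_finCons_right c)) (fun y => hB _) a
    simp only [casc, hr, mul_add, exp_add, integral_const_mul]
    rw [log_mul (exp_pos _).ne' hpos.ne', log_exp]
    field_simp [(hm 0).ne']

theorem rec0_add_const (hm : ∀ p, 0 < m p) {H : (Fin (K + 1) → X) → ℝ} (hH : Measurable H)
    {B : ℝ} (hB : ∀ y, |H y| ≤ B) (a : ℝ) :
    rec0 ν m (fun w => a + H w) = a + rec0 ν m H := by
  unfold rec0
  have hr : ∀ c, casc ν K m (fun y => a + H (Fin.cons c y))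
      = a + casc ν K m fun y => H (Fin.cons c y) := fun c =>
    casc_add_const K hm (H := fun y => H (Fin.cons c y))
      (hH.comp (measurable_finCons_right c)) (fun y => hB _) a
  simp only [hr]
  rw [integral_add (integrable_const a) (integrable_casc_cons hm hH hB)]
  simp

theorem casc_zero : ∀ (K : ℕ) (m : Fin K → ℝ), casc ν K m (fun _ => (0 : ℝ)) = 0
  | 0, _ => rfl
  | K + 1, m => by simp [casc, casc_zero K]

/-- Attaching a first component preserves the product laws. -/
theorem mp_piCons {M : ℕ} {Y : Fin (M + 1) → Type} [∀ s, MeasurableSpace (Y s)]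
    (ρ : (s : Fin (M + 1)) → Measure (Y s)) [∀ s, IsProbabilityMeasure (ρ s)] :
    MeasurePreserving (fun q : Y 0 × ((s : Fin M) → Y s.succ) => (Fin.cons q.1 q.2 : (s : _) → Y s))
      ((ρ 0).prod (Measure.pi fun s : Fin M => ρ s.succ)) (Measure.pi ρ) := by
  have hm : Measurable fun q : Y 0 × ((s : Fin M) → Y s.succ) =>
      (Fin.cons q.1 q.2 : (s : _) → Y s) := by
    refine measurable_pi_lambda _ fun s => ?_
    cases s using Fin.cases with
    | zero => simpa using measurable_fst
    | succ i =>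
      simp only [Fin.cons_succ]
      exact (measurable_pi_apply i).comp measurable_snd
  refine ⟨hm, (Measure.pi_eq fun S hS => ?_).symm⟩
  have e : (fun q : Y 0 × ((s : Fin M) → Y s.succ) => (Fin.cons q.1 q.2 : (s : _) → Y s)) ⁻¹'
      Set.univ.pi S = S 0 ×ˢ Set.univ.pi (fun i : Fin M => S i.succ) := by
    ext q
    simp [Fin.forall_fin_succ]
  rw [Measure.map_apply hm (MeasurableSet.univ_pi hS), e, Measure.prod_prod, Measure.pi_pi,
    Fin.prod_univ_succ]

/-- The averaged recursion splits over independent groups. -/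
theorem rec0_pi : ∀ (M : ℕ) {Y : Fin M → Type} [∀ s, MeasurableSpace (Y s)]
    (ρ : (s : Fin M) → Measure (Y s)) [∀ s, IsProbabilityMeasure (ρ s)] {K : ℕ} {m : Fin K → ℝ},
    Grid m → ∀ (H : (s : Fin M) → (Fin (K + 1) → Y s) → ℝ), (∀ s, Measurable (H s)) →
    ∀ B : Fin M → ℝ, (∀ s y, |H s y| ≤ B s) →
    rec0 (Measure.pi ρ) m (fun w => ∑ s, H s fun p => w p s) = ∑ s, rec0 (ρ s) m (H s)
  | 0, Y, _, ρ, _, K, m, _, H, _, B, _ => by
    simp [rec0, casc_zero]
  | M + 1, Y, _, ρ, _, K, m, hm, H, hH, B, hB => by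
    have hmT : Measurable fun w : Fin (K + 1) → (s : Fin M) → Y s.succ =>
        ∑ s : Fin M, H s.succ fun p => w p s :=
      Finset.measurable_sum _ fun s _ => (hH _).comp
        (measurable_pi_lambda _ fun p => (measurable_pi_apply s).comp (measurable_pi_apply p))
    have hmS : Measurable fun w : Fin (K + 1) → (s : Fin (M + 1)) → Y s =>
        ∑ s, H s fun p => w p s :=
      Finset.measurable_sum _ fun s _ => (hH _).comp
        (measurable_pi_lambda _ fun p => (measurable_pi_apply s).comp (measurable_pi_apply p))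
    rw [← rec0_map (mp_piCons ρ) hmS]
    simp only [Fin.sum_univ_succ, Fin.cons_zero, Fin.cons_succ]
    rw [rec0_prod hm (hH 0) hmT (hB 0) (B' := ∑ s : Fin M, B s.succ) fun y =>
      (Finset.abs_sum_le_sum_abs _ _).trans (Finset.sum_le_sum fun s _ => hB _ _)]
    rw [rec0_pi M (fun s => ρ s.succ) hm (fun s => H s.succ) (fun s => hH _) (fun s => B s.succ)
      fun s => hB _]

end Vale.Agent.P168.CavTrial
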