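import Vale.Agent.P168.CavTrial.Tie

/-!
P168, cavity: shapes with ties decouple. One tie is removed at a time by moving one tuple down by a
uniform number of levels.
-/

open MeasureTheory Filter Topology

noncomputable section

namespace Vale.Agent.P168

variable {K : ℕ}

namespace Sh

/-- The top branching moved down by `i`. -/
def up (i : ℕ) : Sh → Sh
  | leaf => leaf
  | node h L R => node (h + i) L R

/-- A shape with at least one tie. -/
def Tied (K : ℕ) (s : Sh) : Prop := s.nodes K + 1 < s.size

open Classical in
/-- The shape with its first tie moved down by `i`. -/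
def res (K i : ℕ) : Sh → Sh
  | leaf => leaf
  | node h L R =>
      if R.Tied K then node h L (R.res K i)
      else if L.top K = h ∧ ¬ L.Tied K then node h (L.up i) R
      else node h (L.res K i) R

/-- The branching `L` can be moved down by `i` from the level `h`. -/
def UpOk (K i h : ℕ) : Sh → Prop
  | leaf => False
  | node _ X Y => h + i < K ∧ h + i < X.top K ∧ h + i < Y.top K

open Classical in
/-- The first tie can be moved down by `i`. -/
def Ok (K i : ℕ) : Sh → Prop
  | leaf => False
  | node h L R =>
      if R.Tied K then R.Ok K i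
      else if L.top K = h ∧ ¬ L.Tied K then L.UpOk K i h
      else L.Ok K i

theorem res_node (i h : ℕ) (L R : Sh) [Decidable (R.Tied K)]
    [Decidable (L.top K = h ∧ ¬ L.Tied K)] :
    (node h L R).res K i =
      if R.Tied K then node h L (R.res K i)
      else if L.top K = h ∧ ¬ L.Tied K then node h (L.up i) R
      else node h (L.res K i) R := by
  rw [res]
  congr

theorem ok_node (i h : ℕ) (L R : Sh) [Decidable (R.Tied K)]
    [Decidable (L.top K = h ∧ ¬ L.Tied K)] :
    (node h L R).Ok K i ↔
      if R.Tied K then R.Ok K i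
      else if L.top K = h ∧ ¬ L.Tied K then L.UpOk K i h
      else L.Ok K i := by
  rw [Ok]
  congr!

theorem top_res (i : ℕ) : ∀ s : Sh, (s.res K i).top K = s.top K
  | .leaf => rfl
  | .node h L R => by
    classical
    rw [res_node]
    split_ifs <;> rfl

theorem size_res (i : ℕ) : ∀ s : Sh, (s.res K i).size = s.size
  | .leaf => rfl
  | .node h L R => by
    classical
    rw [res_node]
    split_ifs
    · simp [Sh.size, size_res i R]
    · cases L <;> simp [Sh.size, up]
    · simp [Sh.size, size_res i L]

theorem size_up (i : ℕ) : ∀ s : Sh, (s.up i).size = s.size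
  | .leaf => rfl
  | .node _ _ _ => rfl

theorem GValid.not_tied {s : Sh} {g : ℕ} (hv : s.GValid K g) (h : ¬ s.Tied K) : s.Valid K g :=
  hv.valid (by
    have := hv.nodes_lt
    unfold Tied at h
    omega)

theorem Valid.above : ∀ {s : Sh} {g g' : ℕ}, s.Valid K g → g' ≤ s.top K → s.Valid K g'
  | .leaf, _, _, _, _ => trivial
  | .node _ _ _, _, _, hv, hg => ⟨hg, hv.2⟩

/-- Removing one tie. -/
theorem res_spec : ∀ {i : ℕ} {s : Sh} {g : ℕ}, 1 ≤ i → s.GValid K g → s.Tied K → s.Ok K i →
    (s.res K i).GValid K g ∧ (s.res K i).nodes K = s.nodes K + 1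
  | _, .leaf, _, _, _, ht, _ => by simp [Tied, nodes, Sh.size] at ht
  | i, .node h L R, g, hi, hv, ht, hok => by
    classical
    rw [res_node]
    rw [ok_node] at hok
    obtain ⟨h1, h2, hL, hR⟩ := hv
    split_ifs at hok ⊢ with hRt hLt
    · obtain ⟨e1, e2⟩ := res_spec hi hR hRt hok
      refine ⟨⟨h1, h2, hL, e1⟩, ?_⟩
      simp only [nodes, e2]
      omega
    · cases L with
      | leaf => exact hok.elim
      | node h' X Y =>
        obtain ⟨hK, hX, hY⟩ := hok
        obtain ⟨rfl, hLb⟩ : h' = h ∧ ¬ (node h' X Y).Tied K := hLt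
        have hv := hL.not_tied hLb
        have hXt : X.top K ≠ h' + i := by omega
        have hXt' : X.top K ≠ h' := by omega
        refine ⟨⟨h1, h2, ⟨by omega, hK, (hv.2.2.1.above (g' := h' + i + 1) (by omega)).gvalid.mono
          (Nat.le_succ _), (hv.2.2.2.above (g' := h' + i + 1) (by omega)).gvalid⟩, hR⟩, ?_⟩
        have ht1 : (node (h' + i) X Y).top K ≠ h' := by simp only [Sh.top]; omega
        rw [show (node h' X Y).up i = node (h' + i) X Y from rfl]
        simp only [nodes]
        rw [if_neg ht1, if_pos (show (node h' X Y).top K = h' from rfl), if_neg hXt, if_neg hXt']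
        omega
    · have hLT : L.Tied K := by
        by_contra hc
        have hne : L.top K ≠ h := fun he => hLt ⟨he, hc⟩
        have := hL.nodes_lt
        have := hR.nodes_lt
        unfold Tied at hc hRt ht
        simp only [nodes, Sh.size, if_neg hne] at ht
        omega
      obtain ⟨e1, e2⟩ := res_spec hi hL hLT hok
      refine ⟨⟨h1, h2, e1, hR⟩, ?_⟩
      simp only [nodes, e2, top_res]
      omega

/-- A tie at the node or inside the left child. -/
theorem GValid.tie_left {h g : ℕ} {L R : Sh} (hv : (node h L R).GValid K g)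
    (ht : (node h L R).Tied K) (hR : ¬ R.Tied K) (hL : ¬ (L.top K = h ∧ ¬ L.Tied K)) :
    L.Tied K := by
  by_contra hc
  have hne : L.top K ≠ h := fun he => hL ⟨he, hc⟩
  have := hv.2.2.1.nodes_lt
  have := hv.2.2.2.nodes_lt
  unfold Tied at hc hR ht
  simp only [nodes, Sh.size, if_neg hne] at ht
  omega

end Sh

namespace Arr

variable (A : Arr K)

/-- The cost of moving down the right child of the branching `L` at level `h`. -/
def upCost (i h : ℕ) : Sh → ℝ
  | Sh.leaf => 0
  | Sh.node _ _ Y => A.step i (h + i) Y

open Classical in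
/-- The cost of removing the first tie. -/
def tieCost (i : ℕ) : Sh → ℝ
  | Sh.leaf => 0
  | Sh.node h L R =>
      if R.Tied K then tieCost i R
      else if L.top K = h ∧ ¬ L.Tied K then A.upCost i h L
      else tieCost i L

theorem tieCost_node (i h : ℕ) (L R : Sh) [Decidable (R.Tied K)]
    [Decidable (L.top K = h ∧ ¬ L.Tied K)] :
    A.tieCost i (Sh.node h L R) =
      if R.Tied K then A.tieCost i R
      else if L.top K = h ∧ ¬ L.Tied K then A.upCost i h L
      else A.tieCost i L := by
  rw [tieCost]
  congr

/-- Removing one tie moves the product by at most the cost. -/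
theorem nrm_res {i : ℕ} (hi : 1 ≤ i) : ∀ (s : Sh) {g lab : ℕ} (x : Fin K → ℕ) {W : Obs K},
    s.GValid K g → s.Tied K → s.Ok K i → 1 ≤ lab → Unit1 W →
    Avoid (Kid x (s.top K) {n | n = 0 ∨ lab ≤ n}) W →
    A.nrm (W * (gtup lab s x - gtup lab (s.res K i) x)) ≤ A.tieCost i s
  | .leaf, _, _, _, _, _, ht, _, _, _, _ => by simp [Sh.Tied, Sh.nodes, Sh.size] at ht
  | .node h L R, g, lab, x, W, hv, ht, hok, hlab, hW, hav => by
    classical
    rw [Sh.res_node, A.tieCost_node]
    rw [Sh.ok_node] at hok
    have hv' := hv
    obtain ⟨h1, hhK, hL, hR⟩ := hv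
    set T : Obs K := if L.top K = h then gtup (lab + 1) L x else gtup 1 L (put x h 0) with hT
    have huT : Unit1 T := by rw [hT]; split_ifs <;> exact unit_gtup _ _ _
    have hlt : h < K := hhK
    set c : Fin K := ⟨h, hhK⟩
    have hput : ∀ m, put x h m c = m := fun m => put_of_eq x m rfl
    -- the right child avoids the other children
    have hRav : ∀ (S : Set (Fin K → ℕ)), (∀ w, w c = lab → w ∉ S) →
        Avoid S (gtup 1 R (put x h lab)) := fun S hS =>
      avoid_gtup 1 R _ hR fun w hw _ => hS w ((hw c (Nat.lt_succ_self h)).trans (hput lab))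
    split_ifs at hok ⊢ with hRt hLt
    · -- inside the right child
      rw [gtup_node, gtup_node, ← hT, ← mul_sub, ← mul_assoc]
      have hRtop : h + 1 ≤ R.top K := hR.le_top hhK
      refine nrm_res hi R (g := h + 1) _ hR hRt hok le_rfl (hW.mul huT) (Avoid.mul ?_ ?_)
      · refine hav.mono fun p hp => ⟨(hp.1.mono (show h ≤ R.top K by omega)).trans
          (agree_put x lab le_rfl), fun l hl => .inr ?_⟩
        rw [hp.1 l (show (l : ℕ) < R.top K by simp only [Sh.top] at hl; omega),
          put_of_eq x lab (show (l : ℕ) = h from hl)]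
      · rw [hT]
        split_ifs with hLh
        · refine avoid_gtup _ L x hL fun w _ hw' hp => ?_
          have e : w c = lab := (hp.1 c (show h < R.top K by omega)).trans (hput lab)
          rcases hw' c hLh.symm with h' | h' <;> omega
        · refine avoid_gtup 1 L _ (hL.succ hLh) fun w hw _ hp => ?_
          have e : w c = lab := (hp.1 c (show h < R.top K by omega)).trans (hput lab)
          have e' : w c = 0 := (hw c (Nat.lt_succ_self h)).trans (hput 0)
          omega
    · -- the tie at this node
      cases L with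
      | leaf => exact hok.elim
      | node h' X Y =>
        obtain ⟨hK, hX, hY⟩ := hok
        obtain ⟨rfl, hLb⟩ : h' = h ∧ ¬ (Sh.node h' X Y).Tied K := hLt
        have hvL := hL.not_tied hLb
        have hXv : X.Valid K (h' + i + 1) := hvL.2.2.1.above (by omega)
        have hYv : Y.Valid K (h' + i + 1) := hvL.2.2.2.above (by omega)
        set y := put x h' 0 with hy
        have hy0 : put y (h' + i) 0 = y := funext fun l => by
          rcases lt_trichotomy (l : ℕ) (h' + i) with hl | hl | hl
          · exact put_of_lt y 0 hl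
          · rw [put_of_eq y 0 hl, hy, put_of_gt x 0 (by omega)]
          · rw [put_of_gt y 0 hl, hy, put_of_gt x 0 (by omega)]
        have hy1 : put y h' (lab + 1) = put x h' (lab + 1) := funext fun l => by
          rcases lt_trichotomy (l : ℕ) h' with hl | hl | hl
          · rw [put_of_lt y _ hl, hy, put_of_lt x _ hl, put_of_lt x _ hl]
          · rw [put_of_eq y _ hl, put_of_eq x _ hl]
          · rw [put_of_gt y _ hl, put_of_gt x _ hl]
        have hXt : X.top K ≠ h' := by omega
        have hXt' : X.top K ≠ h' + i := by omega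
        have e1 : gtup lab (Sh.node h' (Sh.node h' X Y) R) x
            = tup X y * tup Y (put y h' (lab + 1)) * gtup 1 R (put x h' lab) := by
          rw [gtup_node, if_pos (show (Sh.node h' X Y).top K = h' from rfl), gtup_node, if_neg hXt,
            gtup_eq_tup X _ hXv, gtup_eq_tup Y _ hYv, hy1]
        have e2 : gtup lab (Sh.node h' ((Sh.node h' X Y).up i) R) x
            = tup X y * tup Y (put y (h' + i) 1) * gtup 1 R (put x h' lab) := by
          rw [gtup_node, Sh.up, if_neg (show (Sh.node (h' + i) X Y).top K ≠ h' by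
            simp only [Sh.top]; omega), gtup_node, if_neg hXt', gtup_eq_tup X _ hXv,
            gtup_eq_tup Y _ hYv, ← hy, hy0]
        rw [e1, e2, show W * (tup X y * tup Y (put y h' (lab + 1)) * gtup 1 R (put x h' lab)
          - tup X y * tup Y (put y (h' + i) 1) * gtup 1 R (put x h' lab))
          = W * tup X y * gtup 1 R (put x h' lab)
            * (tup Y (put y h' (lab + 1)) - tup Y (put y (h' + i) 1)) by ring,
          mul_sub, A.nrm_sub_comm, ← mul_sub]
        have hsub : ∀ J, Kid y (h' + i) J ⊆ Kid x h' {n | n = 0 ∨ lab ≤ n} := fun J p hp =>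
          ⟨(hp.1.mono (Nat.le_add_right h' i)).trans (agree_put x 0 le_rfl), fun l hl => .inl (by
            rw [hp.1 l (show (l : ℕ) < h' + i by omega), hy, put_of_eq x 0 hl])⟩
        refine (A.climbN (lab + 2) hYv (Nat.le_add_right h' i) y (fun l hl => ?_)
          ((hW.mul (unit_tup _ _)).mul (unit_gtup _ _ _)) ?_ ?_).trans ?_
        · rw [hy, put_of_eq x 0 hl]; omega
        · refine ((hav.mono (hsub _)).mul ?_).mul ?_
          · have := avoid_child (J := {n | n = 1 ∨ lab + 2 ≤ n}) hXv y (m := 0) hK le_rfl
              (.inl ⟨rfl, by simp⟩)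
            rwa [hy0] at this
          · refine hRav _ fun w hw hp => ?_
            have := (hp.1 c (show h' < h' + i by omega)).trans (hput 0)
            omega
        · refine (Avoid.mul ?_ ?_).mul ?_
          · refine hav.mono fun p hp => ⟨hp.1.trans (agree_put x 0 le_rfl), fun l hl => .inr ?_⟩
            rcases hp.2 l hl with h' | h' <;> omega
          · refine avoid_tup X y (hXv.mono (show h' + 1 ≤ h' + i + 1 by omega)) fun w hw hp => ?_
            have e' : w c = 0 := (hw c (Nat.lt_succ_self h')).trans (hput 0)
            rcases hp.2 c rfl with h'' | h'' <;> omega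
          · refine hRav _ fun w hw hp => ?_
            rcases hp.2 c rfl with h'' | h'' <;> omega
        · simp only [upCost, step, Nat.add_sub_cancel]
          have := Real.sqrt_nonneg (A.dev (Y.lower i) h')
          linarith
    · -- inside the left child
      have hLT := hv'.tie_left ht hRt hLt
      rw [gtup_node, gtup_node, Sh.top_res, ← sub_mul]
      have hRg : Unit1 (gtup 1 R (put x h lab)) := unit_gtup _ _ _
      by_cases hLh : L.top K = h
      · rw [if_pos hLh, if_pos hLh, mul_comm (gtup (lab + 1) L x - _), ← mul_assoc]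
        refine nrm_res hi L (g := h) x hL hLT hok (by omega) (hW.mul hRg) (Avoid.mul ?_ ?_)
        · refine hav.mono fun p hp => ⟨by rw [← hLh]; exact hp.1, fun l hl => ?_⟩
          rcases hp.2 l (hLh ▸ hl) with h' | h'
          · exact .inl h'
          · exact .inr (by omega)
        · refine hRav _ fun w hw hp => ?_
          rcases hp.2 c hLh.symm with h' | h' <;> omega
      · rw [if_neg hLh, if_neg hLh, mul_comm (gtup 1 L (put x h 0) - _), ← mul_assoc]
        have hLtop : h + 1 ≤ L.top K := (hL.succ hLh).le_top hhK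
        refine nrm_res hi L (g := h + 1) _ (hL.succ hLh) hLT hok le_rfl (hW.mul hRg)
          (Avoid.mul ?_ ?_)
        · refine hav.mono fun p hp => ⟨(hp.1.mono (show h ≤ L.top K by omega)).trans
            (agree_put x 0 le_rfl), fun l hl => .inl ?_⟩
          rw [hp.1 l (show (l : ℕ) < L.top K by simp only [Sh.top] at hl; omega),
            put_of_eq x 0 (show (l : ℕ) = h from hl)]
        · refine hRav _ fun w hw hp => ?_
          have := (hp.1 c (show h < L.top K by omega)).trans (hput 0)
          omega

/-- The fluctuation of a shape with ties. -/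
def gfluct (s : Sh) : ℝ := A.nrm (A.centred (gtup 1 s fun _ => 0))

theorem gfluct_le_two (s : Sh) : A.gfluct s ≤ 2 := A.nrm_centred_le_two (unit_gtup _ _ _)

theorem gfluct_res {i : ℕ} (hi : 1 ≤ i) {s : Sh} {g : ℕ} (hv : s.GValid K g) (ht : s.Tied K)
    (hok : s.Ok K i) : A.gfluct s ≤ 2 * A.tieCost i s + A.gfluct (s.res K i) := by
  set z : Fin K → ℕ := fun _ => 0
  set φ := gtup 1 s z
  set ψ := gtup 1 (s.res K i) z
  have hφ : Bdd φ := (unit_gtup _ _ _).bdd
  have hψ : Bdd ψ := (unit_gtup _ _ _).bdd
  have h1 : A.nrm (φ - ψ) ≤ A.tieCost i s := by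
    have := A.nrm_res hi s z (W := 1) hv ht hok le_rfl ⟨measurable_const, fun _ => by simp⟩
      fun _ _ _ => rfl
    simpa using this
  have h2 := A.nrm_add_le ((A.bdd_centred hφ).sub (A.bdd_centred hψ)) (A.bdd_centred hψ)
  rw [sub_add_cancel] at h2
  have h3 : A.nrm (A.centred φ - A.centred ψ) ≤ 2 * A.nrm (φ - ψ) := by
    have e : A.centred φ - A.centred ψ = (φ - ψ) - fun _ => A.mean (φ - ψ) := by
      funext σ
      simp only [centred, A.mean_sub hφ hψ, Pi.sub_apply]
      ring
    rw [e]
    refine (A.nrm_sub_le (hφ.sub hψ) (Bdd.const _)).trans ?_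
    rw [A.nrm_const]
    linarith [A.abs_mean_le (hφ.sub hψ)]
  show A.nrm (A.centred φ) ≤ 2 * A.tieCost i s + A.nrm (A.centred ψ)
  linarith

end Arr

end Vale.Agent.P168
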