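import Vale.Agent.P168.CavTrial.TieSums
import Vale.Agent.P168.Tel.Step

/-!
P168, cavity: the shapes of the restrictions of the tree of replicas.
-/

open MeasureTheory Filter Topology

noncomputable section

namespace Vale.Agent.P168

variable {K n : ℕ}

theorem gapK_le_one (K : ℕ) : gapK K ≤ 1 := by
  rw [gapK, div_le_one (by positivity)]
  linarith [Nat.cast_nonneg (α := ℝ) K]

/-- The replicas in `S` of `U` form the shape `s`. -/
inductive Shp (U : Lvls K n) : Finset (Fin n) → Sh → Prop
  | leaf (a : Fin n) : Shp U {a} Sh.leaf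
  | node {h : ℕ} {L R : Sh} {SL SR : Finset (Fin n)} : Shp U SL L → Shp U SR R → h < K →
      L.GValid K h → R.GValid K (h + 1) → Disjoint SL SR →
      (∀ a ∈ SL, ∀ b ∈ SR, (U a b : ℕ) = h) → Shp U (SL ∪ SR) (Sh.node h L R)

namespace Shp

variable {U : Lvls K n} {S : Finset (Fin n)} {s : Sh}

theorem card_eq (h : Shp U S s) : S.card = s.size := by
  induction h with
  | leaf a => simp [Sh.size]
  | node _ _ _ _ _ hd _ ih1 ih2 => simp [Finset.card_union_of_disjoint hd, Sh.size, ih1, ih2]

theorem nonempty (h : Shp U S s) : S.Nonempty :=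
  Finset.card_pos.1 (h.card_eq ▸ s.size_pos)

theorem gvalid (h : Shp U S s) : s.GValid K 0 := by
  cases h with
  | leaf a => trivial
  | node _ _ hK hL hR _ _ => exact ⟨Nat.zero_le _, hK, hL, hR⟩

theorem gvalid_of {g : ℕ} (h : Shp U S s) (hg : ∀ a ∈ S, ∀ b ∈ S, a ≠ b → g ≤ (U a b : ℕ)) :
    s.GValid K g := by
  cases h with
  | leaf a => trivial
  | @node h L R SL SR h1 h2 hK hL hR hd hU =>
    obtain ⟨a, ha⟩ := h1.nonempty
    obtain ⟨b, hb⟩ := h2.nonempty
    refine ⟨?_, hK, hL, hR⟩
    rw [← hU a ha b hb]
    exact hg a (Finset.mem_union_left _ ha) b (Finset.mem_union_right _ hb)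
      (Finset.disjoint_iff_ne.1 hd a ha b hb)

theorem pairs (hT : U.IsTree) (h : Shp U S s) : ∀ {g : ℕ}, s.GValid K g →
    ∀ a ∈ S, ∀ b ∈ S, a ≠ b → g ≤ (U a b : ℕ) ∧ (U a b : ℕ) < K := by
  induction h with
  | leaf a =>
    intro g _ x hx y hy hxy
    rw [Finset.mem_singleton] at hx hy
    exact absurd (hx.trans hy.symm) hxy
  | @node h L R SL SR h1 h2 hK hL hR hd hU ih1 ih2 =>
    intro g hg a ha b hb hab
    rw [Finset.mem_union] at ha hb
    rcases ha with ha | ha <;> rcases hb with hb | hb
    · exact ⟨hg.1.trans (ih1 hL a ha b hb hab).1, (ih1 hL a ha b hb hab).2⟩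
    · rw [hU a ha b hb]; exact ⟨hg.1, hK⟩
    · rw [hT.2.1 a b, hU b hb a ha]; exact ⟨hg.1, hK⟩
    · exact ⟨hg.1.trans ((Nat.le_succ h).trans (ih2 hR a ha b hb hab).1), (ih2 hR a ha b hb hab).2⟩

/-- A pair is at the level of the first branching. -/
theorem top_pair (h : Shp U S s) (ht : s.top K < K) :
    ∃ a ∈ S, ∃ b ∈ S, a ≠ b ∧ (U a b : ℕ) = s.top K := by
  cases h with
  | leaf a => simp [Sh.top] at ht
  | @node h L R SL SR h1 h2 _ _ _ hd hU =>
    obtain ⟨a, ha⟩ := h1.nonempty
    obtain ⟨b, hb⟩ := h2.nonempty
    exact ⟨a, Finset.mem_union_left _ ha, b, Finset.mem_union_right _ hb,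
      Finset.disjoint_iff_ne.1 hd a ha b hb, hU a ha b hb⟩

theorem map {m : ℕ} {U' : Lvls K m} {f : Fin n → Fin m} (h : Shp U S s) :
    Set.InjOn f S → (∀ a ∈ S, ∀ b ∈ S, U' (f a) (f b) = U a b) → Shp U' (S.image f) s := by
  induction h with
  | leaf a =>
    intro _ _
    rw [Finset.image_singleton]
    exact .leaf _
  | @node h L R SL SR _ _ hK hL hR hd hU ih1 ih2 =>
    intro hf he
    rw [Finset.image_union]
    refine .node (ih1 (hf.mono (by simp)) fun a ha b hb =>
        he a (Finset.mem_union_left _ ha) b (Finset.mem_union_left _ hb))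
      (ih2 (hf.mono (by simp)) fun a ha b hb =>
        he a (Finset.mem_union_right _ ha) b (Finset.mem_union_right _ hb)) hK hL hR ?_ ?_
    · rw [Finset.disjoint_left]
      intro x hx hy
      obtain ⟨a, ha, rfl⟩ := Finset.mem_image.1 hx
      obtain ⟨b, hb, hab⟩ := Finset.mem_image.1 hy
      exact Finset.disjoint_iff_ne.1 hd a ha b hb
        (hf (Finset.mem_union_right _ hb) (Finset.mem_union_left _ ha) hab).symm
    · intro x hx y hy
      obtain ⟨a, ha, rfl⟩ := Finset.mem_image.1 hx
      obtain ⟨b, hb, rfl⟩ := Finset.mem_image.1 hy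
      rw [he a (Finset.mem_union_left _ ha) b (Finset.mem_union_right _ hb)]
      exact hU a ha b hb

end Shp

/-- Replicas in distinct leaves form a shape. -/
theorem exists_shp {U : Lvls K n} (hT : U.IsTree) : ∀ (m : ℕ) (S : Finset (Fin n)), S.card ≤ m →
    S.Nonempty → (∀ a ∈ S, ∀ b ∈ S, a ≠ b → (U a b : ℕ) < K) → ∃ s, Shp U S s
  | 0, S, hm, hS, _ => absurd hS.card_pos (by omega)
  | m + 1, S, hm, hS, hlt => by
    rcases Nat.lt_or_ge 1 S.card with hc | hc
    swap
    · obtain ⟨a, rfl⟩ := Finset.card_eq_one.1 (le_antisymm hc hS.card_pos)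
      exact ⟨_, .leaf a⟩
    obtain ⟨x, hx, y, hy, hxy⟩ := Finset.one_lt_card.1 hc
    obtain ⟨⟨a, b⟩, hp, hmin⟩ := S.offDiag.exists_min_image (fun p => (U p.1 p.2 : ℕ))
      ⟨(x, y), Finset.mem_offDiag.2 ⟨hx, hy, hxy⟩⟩
    rw [Finset.mem_offDiag] at hp
    obtain ⟨ha, hb, hab⟩ := hp
    dsimp only at ha hb hab
    set h := (U a b : ℕ)
    have hhK : h < K := hlt a ha b hb hab
    have hge : ∀ c ∈ S, ∀ d ∈ S, c ≠ d → h ≤ (U c d : ℕ) := fun c hc d hd hcd =>
      hmin (c, d) (Finset.mem_offDiag.2 ⟨hc, hd, hcd⟩)
    set SR := S.filter fun c => h < (U b c : ℕ)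
    set SL := S \ SR
    have hbR : b ∈ SR := Finset.mem_filter.2 ⟨hb, by rw [hT.1 b]; simpa using hhK⟩
    have haL : a ∈ SL := by
      refine Finset.mem_sdiff.2 ⟨ha, fun hc => ?_⟩
      have := (Finset.mem_filter.1 hc).2
      rw [hT.2.1 b a] at this
      exact lt_irrefl _ this
    have hu : SL ∪ SR = S := Finset.sdiff_union_of_subset (Finset.filter_subset _ _)
    have hd : Disjoint SL SR := Finset.sdiff_disjoint
    have hcard := Finset.card_union_of_disjoint hd
    rw [hu] at hcard
    have h1 : 0 < SL.card := Finset.card_pos.2 ⟨a, haL⟩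
    have h2 : 0 < SR.card := Finset.card_pos.2 ⟨b, hbR⟩
    obtain ⟨L, hL⟩ := exists_shp hT m SL (by omega) ⟨a, haL⟩ fun c hc d hd =>
      hlt c (Finset.mem_sdiff.1 hc).1 d (Finset.mem_sdiff.1 hd).1
    obtain ⟨R, hR⟩ := exists_shp hT m SR (by omega) ⟨b, hbR⟩ fun c hc d hd =>
      hlt c (Finset.mem_filter.1 hc).1 d (Finset.mem_filter.1 hd).1
    refine ⟨Sh.node h L R, hu ▸ Shp.node hL hR hhK (hL.gvalid_of fun c hc d hd hcd =>
      hge c (Finset.mem_sdiff.1 hc).1 d (Finset.mem_sdiff.1 hd).1 hcd) (hR.gvalid_of ?_) hd ?_⟩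
    · intro c hc d hd hcd
      have h3 := (Finset.mem_filter.1 hc).2
      have h4 := (Finset.mem_filter.1 hd).2
      have h5 := hT.2.2 c b d
      rw [hT.2.1 c b] at h5
      simp only [Fin.le_def, Fin.coe_min] at h5
      omega
    · intro c hc d hd
      obtain ⟨hcS, hcR⟩ := Finset.mem_sdiff.1 hc
      obtain ⟨hdS, h4⟩ := Finset.mem_filter.1 hd
      have hcd : c ≠ d := fun e => hcR (e ▸ hd)
      have h3 : (U b c : ℕ) ≤ h := not_lt.1 fun e => hcR (Finset.mem_filter.2 ⟨hcS, e⟩)
      have h5 := hT.2.2 b d c
      rw [hT.2.1 d c] at h5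
      simp only [Fin.le_def, Fin.coe_min] at h5
      have := hge c hcS d hdS hcd
      omega

/-- The last replica `e` makes a new node next to `b`. -/
def NewAt (U : Lvls K n) (S : Finset (Fin n)) (e b : Fin n) : Prop :=
  ∀ a ∈ S, a ≠ b → U b a ≠ U b e

/-- Removing one replica loses at most one node, and only for a new node. -/
theorem Shp.erase {U : Lvls K n} (hT : U.IsTree) {S : Finset (Fin n)} {s : Sh} (h : Shp U S s) :
    ∀ e ∈ S, 2 ≤ S.card → ∃ s0, Shp U (S.erase e) s0 ∧ (s.nodes K ≤ s0.nodes K ∨
      ∃ b ∈ S.erase e, s.nodes K ≤ s0.nodes K + 1 ∧ NewAt U (S.erase e) e b) := by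
  induction h with
  | leaf a => intro e _ hc; simp at hc
  | @node h L R SL SR h1 h2 hK hL hR hd hU ih1 ih2 =>
    intro e he _
    have hpL : ∀ a ∈ SL, ∀ b ∈ SL, a ≠ b → h ≤ (U a b : ℕ) := fun a ha b hb hab =>
      (h1.pairs hT hL a ha b hb hab).1
    have hpR : ∀ a ∈ SR, ∀ b ∈ SR, a ≠ b → h + 1 ≤ (U a b : ℕ) := fun a ha b hb hab =>
      (h2.pairs hT hR a ha b hb hab).1
    rcases Finset.mem_union.1 he with heL | heR
    · have heR : e ∉ SR := Finset.disjoint_left.1 hd heL
      have eset : (SL ∪ SR).erase e = SL.erase e ∪ SR := by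
        rw [Finset.erase_union_distrib, Finset.erase_eq_of_notMem heR]
      rcases Nat.lt_or_ge SL.card 2 with hc | hc
      · have hs1 : SL = {e} := by
          refine Finset.eq_singleton_iff_unique_mem.2 ⟨heL, fun x hx => ?_⟩
          exact Finset.card_le_one.1 (by omega) x hx e heL
        have hLl : L = Sh.leaf := by
          have := h1.card_eq
          cases L with
          | leaf => rfl
          | node _ X Y =>
            have := X.size_pos
            have := Y.size_pos
            simp [Sh.size, hs1] at *
            omega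
        rw [eset, hs1, Finset.erase_singleton, Finset.empty_union]
        obtain ⟨b, hb⟩ := h2.nonempty
        refine ⟨R, h2, .inr ⟨b, hb, ?_, fun a ha hab heq => ?_⟩⟩
        · simp [Sh.nodes, hLl, Sh.top, hK.ne']
          omega
        · have e1 := hpR b hb a ha (Ne.symm hab)
          have e2 := hU e heL b hb
          rw [hT.2.1 e b] at e2
          rw [heq] at e1
          omega
      · obtain ⟨L0, hL0, hor⟩ := ih1 e heL hc
        have hL0v : L0.GValid K h := hL0.gvalid_of fun a ha b hb =>
          hpL a (Finset.mem_of_mem_erase ha) b (Finset.mem_of_mem_erase hb)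
        refine ⟨Sh.node h L0 R, ?_, ?_⟩
        · rw [eset]
          exact .node hL0 h2 hK hL0v hR (hd.mono_left (Finset.erase_subset _ _))
            fun a ha => hU a (Finset.mem_of_mem_erase ha)
        have huntie : L.top K ≠ h → L0.top K ≠ h := fun hne he' => by
          obtain ⟨a, ha, b, hb, hab, hl⟩ := hL0.top_pair (by omega)
          have := (h1.pairs hT (hL.succ hne) a (Finset.mem_of_mem_erase ha) b
            (Finset.mem_of_mem_erase hb) hab).1
          omega
        rcases hor with hle | ⟨b, hb, hle, hnew⟩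
        · left
          simp only [Sh.nodes]
          by_cases ht : L.top K = h
          · simp only [if_pos ht]; omega
          · simp only [if_neg ht, if_neg (huntie ht)]; omega
        by_cases ht : L.top K = h ∧ L0.top K ≠ h
        · left
          simp only [Sh.nodes, if_pos ht.1, if_neg ht.2]
          omega
        · right
          refine ⟨b, ?_, ?_, ?_⟩
          · rw [eset]; exact Finset.mem_union_left _ hb
          · simp only [Sh.nodes]
            by_cases ht1 : L.top K = h
            · have ht2 : L0.top K = h := by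
                by_contra hc2
                exact ht ⟨ht1, hc2⟩
              simp only [if_pos ht1, if_pos ht2]; omega
            · simp only [if_neg ht1, if_neg (huntie ht1)]; omega
          · intro a ha hab
            rw [eset, Finset.mem_union] at ha
            rcases ha with ha | ha
            · exact hnew a ha hab
            intro heq
            have e1 : (U b a : ℕ) = h := hU b (Finset.mem_of_mem_erase hb) a ha
            have hbe : b ≠ e := Finset.ne_of_mem_erase hb
            have e2 : (U b e : ℕ) = h := by rw [← heq]; exact e1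
            by_cases ht1 : L.top K = h
            · have ht2 : L0.top K = h := by
                by_contra hc2
                exact ht ⟨ht1, hc2⟩
              obtain ⟨c, hc', d, hd', hcd, hl⟩ := hL0.top_pair (by omega)
              have hone : (U b c : ℕ) = h ∨ (U b d : ℕ) = h := by
                have h5 := hT.2.2 c b d
                rw [hT.2.1 c b] at h5
                simp only [Fin.le_def, Fin.coe_min] at h5
                have hc1 : b = c ∨ h ≤ (U b c : ℕ) :=
                  (eq_or_ne b c).imp id (hpL b (Finset.mem_of_mem_erase hb) c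
                    (Finset.mem_of_mem_erase hc'))
                have hd1 : b = d ∨ h ≤ (U b d : ℕ) :=
                  (eq_or_ne b d).imp id (hpL b (Finset.mem_of_mem_erase hb) d
                    (Finset.mem_of_mem_erase hd'))
                rcases hc1 with rfl | hc1
                · right; omega
                rcases hd1 with rfl | hd1
                · left; rw [hT.2.1 b c]; omega
                omega
              rcases hone with h6 | h6
              · refine hnew c hc' (fun hcb => ?_) (Fin.ext (h6.trans e2.symm))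
                rw [hcb, hT.1 b] at h6
                simp at h6
                omega
              · refine hnew d hd' (fun hdb => ?_) (Fin.ext (h6.trans e2.symm))
                rw [hdb, hT.1 b] at h6
                simp at h6
                omega
            · have := (h1.pairs hT (hL.succ ht1) b (Finset.mem_of_mem_erase hb) e heL hbe).1
              omega
    · have heL : e ∉ SL := Finset.disjoint_right.1 hd heR
      have eset : (SL ∪ SR).erase e = SL ∪ SR.erase e := by
        rw [Finset.erase_union_distrib, Finset.erase_eq_of_notMem heL]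
      rcases Nat.lt_or_ge SR.card 2 with hc | hc
      · have hs1 : SR = {e} := by
          refine Finset.eq_singleton_iff_unique_mem.2 ⟨heR, fun x hx => ?_⟩
          exact Finset.card_le_one.1 (by omega) x hx e heR
        have hRl : R.nodes K = 0 := by
          have := hR.nodes_lt
          have := h2.card_eq
          have : SR.card = 1 := by rw [hs1]; simp
          omega
        rw [eset, hs1, Finset.erase_singleton, Finset.union_empty]
        refine ⟨L, h1, ?_⟩
        by_cases ht : L.top K = h
        · left; simp only [Sh.nodes, if_pos ht, hRl]; omega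
        right
        obtain ⟨b, hb⟩ := h1.nonempty
        refine ⟨b, hb, by simp only [Sh.nodes, if_neg ht, hRl]; omega, fun a ha hab heq => ?_⟩
        have e1 := (h1.pairs hT (hL.succ ht) b hb a ha (Ne.symm hab)).1
        have e2 := hU b hb e heR
        rw [heq] at e1
        omega
      · obtain ⟨R0, hR0, hor⟩ := ih2 e heR hc
        have hR0v : R0.GValid K (h + 1) := hR0.gvalid_of fun a ha b hb =>
          hpR a (Finset.mem_of_mem_erase ha) b (Finset.mem_of_mem_erase hb)
        refine ⟨Sh.node h L R0, ?_, ?_⟩
        · rw [eset]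
          exact .node h1 hR0 hK hL hR0v (hd.mono_right (Finset.erase_subset _ _))
            fun a ha b hb => hU a ha b (Finset.mem_of_mem_erase hb)
        rcases hor with hle | ⟨b, hb, hle, hnew⟩
        · left; simp only [Sh.nodes]; omega
        · right
          refine ⟨b, ?_, by simp only [Sh.nodes]; omega, fun a ha hab => ?_⟩
          · rw [eset]; exact Finset.mem_union_right _ hb
          rw [eset, Finset.mem_union] at ha
          rcases ha with ha | ha
          · intro heq
            have e1 := hU a ha b (Finset.mem_of_mem_erase hb)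
            have e2 := hpR b (Finset.mem_of_mem_erase hb) e heR (Finset.ne_of_mem_erase hb)
            rw [hT.2.1 a b, heq] at e1
            omega
          · exact hnew a ha hab

end Vale.Agent.P168
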