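import Vale.Agent.P168.Core.Decouple

/-!
P168, cavity: shapes whose branchings may share a node. A branching with a left child of the same
level is one node with several children.
-/

open MeasureTheory Filter Topology

noncomputable section

namespace Vale.Agent.P168

variable {K : ℕ}

namespace Sh

/-- Validity with ties allowed on the left. -/
def GValid (K : ℕ) : ℕ → Sh → Prop
  | _, leaf => True
  | g, node h L R => g ≤ h ∧ h < K ∧ GValid K h L ∧ GValid K (h + 1) R

/-- Number of distinct branching nodes. -/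
def nodes (K : ℕ) : Sh → ℕ
  | leaf => 0
  | node h L R => (if L.top K = h then 0 else 1) + L.nodes K + R.nodes K

theorem GValid.mono : ∀ {s : Sh} {g g' : ℕ}, s.GValid K g → g' ≤ g → s.GValid K g'
  | .leaf, _, _, _, _ => trivial
  | .node _ _ _, _, _, h, hg => ⟨hg.trans h.1, h.2⟩

theorem GValid.le_top : ∀ {s : Sh} {g : ℕ}, s.GValid K g → g ≤ K → g ≤ s.top K
  | .leaf, _, _, h => h
  | .node _ _ _, _, hv, _ => hv.1

theorem Valid.gvalid : ∀ {s : Sh} {g : ℕ}, s.Valid K g → s.GValid K g
  | .leaf, _, _ => trivial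
  | .node _ _ _, _, h => ⟨h.1, h.2.1, h.2.2.1.gvalid.mono (Nat.le_succ _), h.2.2.2.gvalid⟩

/-- A left child that is not tied lies strictly deeper. -/
theorem GValid.succ : ∀ {L : Sh} {h : ℕ}, L.GValid K h → L.top K ≠ h → L.GValid K (h + 1)
  | .leaf, _, _, _ => trivial
  | .node _ _ _, _, hv, hne => ⟨lt_of_le_of_ne hv.1 (Ne.symm hne), hv.2⟩

theorem Valid.nodes_eq : ∀ {s : Sh} {g : ℕ}, s.Valid K g → s.nodes K + 1 = s.size
  | .leaf, _, _ => rfl
  | .node h L R, _, hv => by
    have hL : L.top K ≠ h := fun he => by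
      have := hv.2.2.1.le_top (Nat.succ_le_of_lt hv.2.1)
      omega
    have := hv.2.2.1.nodes_eq
    have := hv.2.2.2.nodes_eq
    simp only [nodes, Sh.size, if_neg hL]
    omega

theorem GValid.nodes_lt : ∀ {s : Sh} {g : ℕ}, s.GValid K g → s.nodes K < s.size
  | .leaf, _, _ => Nat.one_pos
  | .node h L R, _, hv => by
    have := hv.2.2.1.nodes_lt
    have := hv.2.2.2.nodes_lt
    simp only [nodes, Sh.size]
    split_ifs <;> omega

/-- Without ties the shape is binary. -/
theorem GValid.valid : ∀ {s : Sh} {g : ℕ}, s.GValid K g → s.nodes K + 1 = s.size → s.Valid K g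
  | .leaf, _, _, _ => trivial
  | .node h L R, g, hv, he => by
    have hL := hv.2.2.1.nodes_lt
    have hR := hv.2.2.2.nodes_lt
    simp only [nodes, Sh.size] at he
    split_ifs at he with ht
    · omega
    exact ⟨hv.1, hv.2.1, (hv.2.2.1.succ ht).valid (by omega), hv.2.2.2.valid (by omega)⟩

end Sh

open Classical in
/-- The product of spins of a shape with ties: at a node, the first child is `0` and the further
children are numbered from `lab`. -/
def gtup (lab : ℕ) : Sh → (Fin K → ℕ) → Obs K
  | Sh.leaf, x => tup Sh.leaf x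
  | Sh.node h L R, x =>
      (if L.top K = h then gtup (lab + 1) L x else gtup 1 L (put x h 0)) * gtup 1 R (put x h lab)

theorem gtup_node (lab h : ℕ) (L R : Sh) (x : Fin K → ℕ) :
    gtup lab (Sh.node h L R) x =
      (if L.top K = h then gtup (lab + 1) L x else gtup 1 L (put x h 0))
        * gtup 1 R (put x h lab) := by
  rw [gtup]

theorem unit_gtup : ∀ (lab : ℕ) (s : Sh) (x : Fin K → ℕ), Unit1 (gtup lab s x)
  | _, .leaf, x => unit_tup .leaf x
  | lab, .node h L R, x => by
    rw [gtup_node]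
    split_ifs
    · exact (unit_gtup _ L _).mul (unit_gtup _ R _)
    · exact (unit_gtup _ L _).mul (unit_gtup _ R _)

/-- Where a shape with ties can read. -/
theorem avoid_gtup {S : Set (Fin K → ℕ)} : ∀ (lab : ℕ) (s : Sh) {g : ℕ} (x : Fin K → ℕ),
    s.GValid K g →
    (∀ w, Agree g w x → (∀ l : Fin K, (l : ℕ) = s.top K → w l = 0 ∨ lab ≤ w l) → w ∉ S) →
    Avoid S (gtup lab s x)
  | _, .leaf, g, x, _, hS => fun σ σ' h => by
    simp only [gtup, tup]
    rw [h (x, 0) (hS x (fun _ _ => rfl) fun l hl => absurd hl (by simp [Sh.top, l.isLt.ne]))]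
  | lab, .node h L R, g, x, hv, hS => by
    rw [gtup_node]
    have hR : Avoid S (gtup 1 R (put x h lab)) := avoid_gtup 1 R _ hv.2.2.2 fun w hw _ =>
      hS w ((hw.mono (Nat.le_succ_of_le hv.1)).trans (agree_put x lab hv.1)) fun l hl => .inr (by
        rw [hw l (by simp only [Sh.top] at hl; omega), put_of_eq x lab (show (l : ℕ) = h from hl)])
    split_ifs with ht
    · refine Avoid.mul (avoid_gtup _ L _ hv.2.2.1 fun w hw hw' => hS w (hw.mono hv.1) fun l hl => ?_) hR
      rcases hw' l (hl.trans ht.symm) with h' | h'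
      · exact .inl h'
      · exact .inr (by omega)
    · refine Avoid.mul (avoid_gtup 1 L _ (hv.2.2.1.succ ht) fun w hw _ =>
        hS w ((hw.mono (Nat.le_succ_of_le hv.1)).trans (agree_put x 0 hv.1)) fun l hl => .inl ?_) hR
      rw [hw l (by simp only [Sh.top] at hl; omega), put_of_eq x 0 (show (l : ℕ) = h from hl)]

/-- A binary shape has the usual product. -/
theorem gtup_eq_tup : ∀ (s : Sh) {g : ℕ} (x : Fin K → ℕ), s.Valid K g → gtup 1 s x = tup s x
  | .leaf, _, _, _ => by simp only [gtup]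
  | .node h L R, _, x, hv => by
    have hL : L.top K ≠ h := fun he => by
      have := hv.2.2.1.le_top (Nat.succ_le_of_lt hv.2.1)
      omega
    rw [gtup_node, if_neg hL, gtup_eq_tup L _ hv.2.2.1, gtup_eq_tup R _ hv.2.2.2]
    rfl

/-- Valid shapes with ties and at most `n + 1` leaves. -/
def gshapesLe (K : ℕ) : ℕ → ℕ → Finset Sh
  | 0, _ => {Sh.leaf}
  | n + 1, g => insert Sh.leaf ((Finset.Ico g K).biUnion fun h =>
      (gshapesLe K n h ×ˢ gshapesLe K n (h + 1)).image fun p => Sh.node h p.1 p.2)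

/-- Valid shapes with ties and exactly `n` leaves. -/
def gshapes (K n g : ℕ) : Finset Sh := (gshapesLe K n g).filter fun s => s.size = n

theorem mem_gshapesLe : ∀ (m g : ℕ) {s : Sh},
    s ∈ gshapesLe K m g → s.GValid K g
  | 0, g, s, h => by
    simp only [gshapesLe, Finset.mem_singleton] at h
    subst h
    trivial
  | m + 1, g, s, h => by
    simp only [gshapesLe, Finset.mem_insert, Finset.mem_biUnion, Finset.mem_image,
      Finset.mem_product, Finset.mem_Ico] at h
    rcases h with rfl | ⟨k, hk, ⟨L, R⟩, ⟨hL, hR⟩, rfl⟩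
    · trivial
    · exact ⟨hk.1, hk.2, mem_gshapesLe m _ hL, mem_gshapesLe m _ hR⟩

theorem gvalid_mem : ∀ (m g : ℕ) {s : Sh}, s.GValid K g → s.size ≤ m + 1 → s ∈ gshapesLe K m g
  | 0, g, .leaf, _, _ => by simp [gshapesLe]
  | 0, g, .node h L R, _, hs => by
    have := L.size_pos
    have := R.size_pos
    simp only [Sh.size] at hs
    omega
  | m + 1, g, .leaf, _, _ => by simp [gshapesLe]
  | m + 1, g, .node h L R, hv, hs => by
    have := L.size_pos
    have := R.size_pos
    simp only [Sh.size] at hs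
    simp only [gshapesLe, Finset.mem_insert, Finset.mem_biUnion, Finset.mem_image,
      Finset.mem_product, Finset.mem_Ico]
    exact .inr ⟨h, ⟨hv.1, hv.2.1⟩, (L, R), ⟨gvalid_mem m _ hv.2.2.1 (show L.size ≤ m + 1 by omega),
      gvalid_mem m _ hv.2.2.2 (show R.size ≤ m + 1 by omega)⟩, rfl⟩

theorem mem_gshapes {n g : ℕ} {s : Sh} : s ∈ gshapes K n g ↔ s.GValid K g ∧ s.size = n := by
  simp only [gshapes, Finset.mem_filter]
  exact ⟨fun h => ⟨mem_gshapesLe _ _ h.1, h.2⟩,
    fun h => ⟨gvalid_mem _ _ h.1 (by omega), h.2⟩⟩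

theorem gshapes_mono {n g g' : ℕ} (h : g' ≤ g) : gshapes K n g ⊆ gshapes K n g' := fun _ hs => by
  rw [mem_gshapes] at hs ⊢
  exact ⟨hs.1.mono h, hs.2⟩

theorem sum_gshapes {n g : ℕ} (hn : 2 ≤ n) (F : Sh → ℝ) :
    ∑ s ∈ gshapes K n g, F s = ∑ k ∈ Finset.Ico 1 n, ∑ h ∈ Finset.Ico g K,
      ∑ L ∈ gshapes K k h, ∑ R ∈ gshapes K (n - k) (h + 1), F (Sh.node h L R) := by
  set S := (Finset.Ico 1 n).sigma fun k => (Finset.Ico g K).sigma fun h =>
    gshapes K k h ×ˢ gshapes K (n - k) (h + 1)
  set mk : (_ : ℕ) × (_ : ℕ) × (Sh × Sh) → Sh := fun p => Sh.node p.2.1 p.2.2.1 p.2.2.2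
  have himg : gshapes K n g = S.image mk := by
    ext s
    simp only [S, Finset.mem_image, Finset.mem_sigma, Finset.mem_product, Finset.mem_Ico,
      mem_gshapes]
    constructor
    · rintro ⟨hv, hs⟩
      cases s with
      | leaf => simp only [Sh.size] at hs; omega
      | node h L R =>
        have := L.size_pos
        have := R.size_pos
        simp only [Sh.size] at hs
        refine ⟨⟨L.size, h, L, R⟩, ⟨⟨?_, ?_⟩, ⟨hv.1, hv.2.1⟩,
          ⟨hv.2.2.1, rfl⟩, hv.2.2.2, ?_⟩, rfl⟩
        all_goals (dsimp only; omega)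
    · rintro ⟨⟨k, h, L, R⟩, ⟨⟨hk1, hk2⟩, hh, ⟨hL, hLs⟩, hR, hRs⟩, rfl⟩
      refine ⟨⟨hh.1, hh.2, hL, hR⟩, ?_⟩
      dsimp only at hk1 hk2 hLs hRs ⊢
      simp only [mk, Sh.size]
      omega
  have hinj : Set.InjOn mk S := by
    rintro ⟨k, h, L, R⟩ hp ⟨k', h', L', R'⟩ hp' he
    simp only [mk, Sh.node.injEq] at he
    obtain ⟨rfl, rfl, rfl⟩ := he
    simp only [S, Finset.coe_sigma, Set.mem_sigma_iff, Finset.mem_coe, Finset.mem_product,
      mem_gshapes] at hp hp'
    obtain rfl : k = k' := hp.2.2.1.2.symm.trans hp'.2.2.1.2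
    rfl
  rw [himg, Finset.sum_image hinj, Finset.sum_sigma]
  refine Finset.sum_congr rfl fun k _ => ?_
  rw [Finset.sum_sigma]
  refine Finset.sum_congr rfl fun h _ => ?_
  rw [Finset.sum_product]

/-- The weight of a shape: one factor of the gap for each node. -/
def gwt (K : ℕ) (s : Sh) : ℝ := gapK K ^ s.nodes K

theorem gwt_nonneg (s : Sh) : 0 ≤ gwt K s := by unfold gwt gapK; positivity

/-- The factor of the node above a left child. -/
def tieW (K h : ℕ) (L : Sh) : ℝ := if L.top K = h then 1 else gapK K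

theorem tieW_nonneg (h : ℕ) (L : Sh) : 0 ≤ tieW K h L := by
  unfold tieW gapK; split_ifs <;> positivity

theorem gwt_node (h : ℕ) (L R : Sh) :
    gwt K (Sh.node h L R) = tieW K h L * gwt K L * gwt K R := by
  unfold gwt tieW
  by_cases ht : L.top K = h <;> simp [Sh.nodes, ht, pow_add]

theorem gapK_mul_le (K : ℕ) : (K : ℝ) * gapK K ≤ 1 := by
  rw [gapK, mul_one_div, div_le_one (by positivity)]
  linarith

/-- Left children weighted with the factor of their node. -/
theorem sum_left_le {k g : ℕ} {F : Sh → ℝ} (hF : ∀ L ∈ gshapes K k g, 0 ≤ F L) :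
    ∑ h ∈ Finset.Ico g K, ∑ L ∈ gshapes K k h, tieW K h L * F L
      ≤ 2 * ∑ L ∈ gshapes K k g, F L := by
  classical
  calc _ ≤ ∑ h ∈ Finset.Ico g K, ∑ L ∈ gshapes K k g,
        ((if L.top K = h then 1 else 0) + gapK K) * F L := by
        refine Finset.sum_le_sum fun h hh => ?_
        rw [Finset.mem_Ico] at hh
        refine (Finset.sum_le_sum fun L hL => ?_).trans (Finset.sum_le_sum_of_subset_of_nonneg
          (gshapes_mono hh.1) fun L hL _ => mul_nonneg (by unfold gapK; split_ifs <;> positivity)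
            (hF L hL))
        refine mul_le_mul_of_nonneg_right ?_ (hF L (gshapes_mono hh.1 hL))
        unfold tieW gapK
        split_ifs
        · exact le_add_of_nonneg_right (by positivity)
        · simp
    _ = ∑ L ∈ gshapes K k g, ((∑ h ∈ Finset.Ico g K, if L.top K = h then (1 : ℝ) else 0)
          + (Finset.Ico g K).card * gapK K) * F L := by
        rw [Finset.sum_comm]
        refine Finset.sum_congr rfl fun L _ => ?_
        rw [← Finset.sum_mul, Finset.sum_add_distrib, Finset.sum_const, nsmul_eq_mul]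
    _ ≤ _ := by
        rw [Finset.mul_sum]
        refine Finset.sum_le_sum fun L hL => mul_le_mul_of_nonneg_right ?_ (hF L hL)
        have h1 : (∑ h ∈ Finset.Ico g K, if L.top K = h then (1 : ℝ) else 0) ≤ 1 := by
          rw [Finset.sum_ite_eq]
          split_ifs <;> norm_num
        have h2 : ((Finset.Ico g K).card : ℝ) * gapK K ≤ 1 := by
          refine le_trans (mul_le_mul_of_nonneg_right ?_ (by unfold gapK; positivity)) (gapK_mul_le K)
          rw [Nat.card_Ico]
          exact_mod_cast Nat.sub_le K g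
        linarith

/-- The total weight of the shapes of one size is bounded. -/
theorem sum_gwt (n : ℕ) : ∃ C : ℝ, 0 ≤ C ∧ ∀ K g : ℕ, ∑ s ∈ gshapes K n g, gwt K s ≤ C := by
  induction n using Nat.strong_induction_on with
  | _ n ih =>
    rcases Nat.lt_or_ge n 2 with hn | hn
    · refine ⟨1, zero_le_one, fun K g => ?_⟩
      have hsub : gshapes K n g ⊆ {Sh.leaf} := fun s hs => by
        rw [mem_gshapes] at hs
        rw [Finset.mem_singleton]
        cases s with
        | leaf => rfl
        | node h L R =>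
          have := L.size_pos
          have := R.size_pos
          simp only [Sh.size] at hs
          omega
      refine (Finset.sum_le_sum_of_subset_of_nonneg hsub fun s _ _ => gwt_nonneg s).trans ?_
      simp [gwt, Sh.nodes]
    choose! C hC0 hC using ih
    refine ⟨∑ k ∈ Finset.Ico 1 n, 2 * C k * C (n - k), Finset.sum_nonneg fun k hk => ?_,
      fun K g => ?_⟩
    · rw [Finset.mem_Ico] at hk
      have := hC0 k hk.2
      have := hC0 (n - k) (by omega)
      positivity
    rw [sum_gshapes hn]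
    refine Finset.sum_le_sum fun k hk => ?_
    rw [Finset.mem_Ico] at hk
    have hb := hC0 (n - k) (by omega)
    calc ∑ h ∈ Finset.Ico g K, ∑ L ∈ gshapes K k h, ∑ R ∈ gshapes K (n - k) (h + 1),
          gwt K (Sh.node h L R)
        ≤ ∑ h ∈ Finset.Ico g K, ∑ L ∈ gshapes K k h, tieW K h L * (gwt K L * C (n - k)) := by
          refine Finset.sum_le_sum fun h _ => Finset.sum_le_sum fun L _ => ?_
          simp only [gwt_node, mul_assoc, ← Finset.mul_sum]
          exact mul_le_mul_of_nonneg_left (mul_le_mul_of_nonneg_left (hC _ (by omega) K (h + 1))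
            (gwt_nonneg L)) (tieW_nonneg h L)
      _ ≤ 2 * ∑ L ∈ gshapes K k g, gwt K L * C (n - k) :=
          sum_left_le fun L _ => mul_nonneg (gwt_nonneg L) hb
      _ ≤ _ := by
          rw [← Finset.sum_mul]
          have := mul_le_mul_of_nonneg_right (hC k hk.2 K g) hb
          linarith

end Vale.Agent.P168
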