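import Vale.Agent.P168.CavTrial.Resolve

/-!
P168, cavity: the sums over shapes with ties.
-/

open MeasureTheory Filter Topology

noncomputable section

namespace Vale.Agent.P168

variable {K : ℕ}

theorem gapK_nonneg (K : ℕ) : 0 ≤ gapK K := by unfold gapK; positivity

theorem gapK_pow_le (K n : ℕ) : gapK K ^ n * (K : ℝ) ^ n ≤ 1 := by
  rw [← mul_pow]
  exact pow_le_one₀ (mul_nonneg (gapK_nonneg K) (Nat.cast_nonneg K))
    (mul_comm (gapK K) K ▸ gapK_mul_le K)

theorem not_tied_small {n g : ℕ} {s : Sh} (hn : n < 2) (hs : s ∈ gshapes K n g) : ¬ s.Tied K := by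
  have := (mem_gshapes.1 hs).2
  unfold Sh.Tied
  omega

open Classical in
/-- Every shape is obtained from few ties. -/
theorem sum_res_le (n : ℕ) : ∀ (g w : ℕ) (ψ : Sh → ℝ), (∀ s, 0 ≤ ψ s) →
    ∑ i ∈ Finset.Icc 1 w, ∑ s ∈ gshapes K n g,
        (if s.Tied K ∧ s.Ok K i then ψ (s.res K i) else 0)
      ≤ ((n - 1 : ℕ) : ℝ) * ∑ s ∈ gshapes K n g, ψ s := by
  induction n using Nat.strong_induction_on with
  | _ n ih =>
    intro g w ψ hψ
    rcases Nat.lt_or_ge n 2 with hn | hn
    · rw [show n - 1 = 0 by omega, Nat.cast_zero, zero_mul]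
      exact Finset.sum_nonpos fun i _ => Finset.sum_nonpos fun s hs => by
        rw [if_neg fun h => not_tied_small hn hs h.1]
    rw [sum_gshapes hn, Finset.mul_sum,
      Finset.sum_congr rfl fun i _ => sum_gshapes hn _, Finset.sum_comm]
    refine Finset.sum_le_sum fun k hk => ?_
    rw [Finset.mem_Ico] at hk
    rw [Finset.mul_sum, Finset.sum_comm]
    refine Finset.sum_le_sum fun h hh => ?_
    rw [Finset.mem_Ico] at hh
    set Φ := fun (L R : Sh) => ψ (Sh.node h L R)
    set a := fun (i : ℕ) (L R : Sh) => if R.Tied K ∧ R.Ok K i then Φ L (R.res K i) else 0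
    set b := fun (i : ℕ) (L R : Sh) =>
      if L.top K = h ∧ ¬ L.Tied K ∧ L.UpOk K i h then Φ (L.up i) R else 0
    set c := fun (i : ℕ) (L R : Sh) => if L.Tied K ∧ L.Ok K i then Φ (L.res K i) R else 0
    have hΦ : ∀ L R, 0 ≤ Φ L R := fun L R => hψ _
    have hpt : ∀ i, ∀ L ∈ gshapes K k h, ∀ R ∈ gshapes K (n - k) (h + 1),
        (if (Sh.node h L R).Tied K ∧ (Sh.node h L R).Ok K i
          then ψ ((Sh.node h L R).res K i) else 0) ≤ a i L R + b i L R + c i L R := by
      intro i L hL R hR
      have ha : 0 ≤ a i L R := by simp only [a]; split_ifs <;> simp [hΦ]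
      have hb : 0 ≤ b i L R := by simp only [b]; split_ifs <;> simp [hΦ]
      have hc : 0 ≤ c i L R := by simp only [c]; split_ifs <;> simp [hΦ]
      split_ifs with hts
      · obtain ⟨ht, hok⟩ := hts
        rw [Sh.res_node]
        rw [Sh.ok_node] at hok
        have hv : (Sh.node h L R).GValid K g :=
          ⟨hh.1, hh.2, (mem_gshapes.1 hL).1, (mem_gshapes.1 hR).1⟩
        split_ifs at hok ⊢ with h1 h2
        · have : a i L R = Φ L (R.res K i) := if_pos ⟨h1, hok⟩
          simp only [Φ] at this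
          linarith
        · have : b i L R = Φ (L.up i) R := if_pos ⟨h2.1, h2.2, hok⟩
          simp only [Φ] at this
          linarith
        · have : c i L R = Φ (L.res K i) R := if_pos ⟨hv.tie_left ht h1 h2, hok⟩
          simp only [Φ] at this
          linarith
      · linarith
    refine (Finset.sum_le_sum fun i _ => Finset.sum_le_sum fun L hL =>
      Finset.sum_le_sum (hpt i L hL)).trans ?_
    simp only [Finset.sum_add_distrib]
    set S := ∑ L ∈ gshapes K k h, ∑ R ∈ gshapes K (n - k) (h + 1), Φ L R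
    have A1 : ∑ i ∈ Finset.Icc 1 w, ∑ L ∈ gshapes K k h, ∑ R ∈ gshapes K (n - k) (h + 1), a i L R
        ≤ ((n - k - 1 : ℕ) : ℝ) * S := by
      rw [Finset.sum_comm, Finset.mul_sum]
      exact Finset.sum_le_sum fun L _ => ih (n - k) (by omega) (h + 1) w (Φ L) (hΦ L)
    have A3 : ∑ i ∈ Finset.Icc 1 w, ∑ L ∈ gshapes K k h, ∑ R ∈ gshapes K (n - k) (h + 1), c i L R
        ≤ ((k - 1 : ℕ) : ℝ) * S := by
      simp only [S]
      rw [Finset.sum_congr rfl fun i _ => Finset.sum_comm, Finset.sum_comm,
        Finset.sum_comm (s := gshapes K k h), Finset.mul_sum]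
      exact Finset.sum_le_sum fun R _ => ih k hk.2 h w (fun L => Φ L R) fun L => hΦ L R
    have A2 : ∑ i ∈ Finset.Icc 1 w, ∑ L ∈ gshapes K k h, ∑ R ∈ gshapes K (n - k) (h + 1), b i L R
        ≤ S := by
      simp only [S]
      rw [Finset.sum_congr rfl fun i _ => Finset.sum_comm, Finset.sum_comm,
        Finset.sum_comm (s := gshapes K k h)]
      refine Finset.sum_le_sum fun R _ => ?_
      rw [← Finset.sum_product']
      set P := fun p : ℕ × Sh => p.2.top K = h ∧ ¬ p.2.Tied K ∧ p.2.UpOk K p.1 h
      rw [← Finset.sum_filter P (fun p : ℕ × Sh => Φ (p.2.up p.1) R)]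
      rw [← Finset.sum_image (f := fun L => Φ L R) (g := fun p : ℕ × Sh => p.2.up p.1)]
      · refine Finset.sum_le_sum_of_subset_of_nonneg (fun L' hL' => ?_) fun L _ _ => hΦ L R
        obtain ⟨⟨i, L⟩, hp, rfl⟩ := Finset.mem_image.1 hL'
        simp only [Finset.mem_filter, Finset.mem_product, mem_gshapes, P] at hp
        obtain ⟨⟨-, hL, hs⟩, ht, hnt, hok⟩ := hp
        rw [mem_gshapes]
        cases L with
        | leaf => exact hok.elim
        | node h' X Y =>
          obtain ⟨hK, hX, hY⟩ := hok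
          have hv := hL.not_tied hnt
          simp only [Sh.top] at ht
          subst ht
          refine ⟨⟨Nat.le_add_right h' i, hK,
            (hv.2.2.1.above (g' := h' + i + 1) (by omega)).gvalid.mono (Nat.le_succ _),
            (hv.2.2.2.above (g' := h' + i + 1) (by omega)).gvalid⟩, ?_⟩
          exact hs
      · rintro ⟨i, L⟩ hp ⟨i', L'⟩ hp' he
        simp only [Finset.coe_filter, Set.mem_ofPred_eq, P] at hp hp'
        obtain ⟨-, ht, -, hok⟩ := hp
        obtain ⟨-, ht', -, hok'⟩ := hp'
        cases L with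
        | leaf => exact hok.elim
        | node h' X Y =>
          cases L' with
          | leaf => exact hok'.elim
          | node h'' X' Y' =>
            simp only [Sh.top] at ht ht'
            simp only [Sh.up, Sh.node.injEq] at he
            obtain ⟨e1, rfl, rfl⟩ := he
            subst ht
            subst ht'
            simp only [Prod.mk.injEq, and_true]
            omega
    have e : ((n - 1 : ℕ) : ℝ) = ((n - k - 1 : ℕ) : ℝ) + 1 + ((k - 1 : ℕ) : ℝ) := by
      exact_mod_cast (show n - 1 = n - k - 1 + 1 + (k - 1) by omega)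
    rw [e]
    linarith

/-- The error of removing a tie by `i` levels. -/
def tieErr (K i : ℕ) (e δ : ℝ) : ℝ := e + (δ + i / K) / e + i / K

theorem tieErr_nonneg {i : ℕ} {e δ : ℝ} (he : 0 < e) (hδ : 0 ≤ δ) : 0 ≤ tieErr K i e δ := by
  unfold tieErr; positivity

namespace Arr

variable (A : Arr K)

open Classical in
/-- The cost of a tie at the branching `L` of level `h`. -/
def upTot (i h : ℕ) (L : Sh) : ℝ := if L.UpOk K i h then A.upCost i h L else 1

open Classical in
/-- The cost of the first tie, or one if it cannot move. -/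
def tieTot (i : ℕ) (s : Sh) : ℝ := if s.Ok K i then A.tieCost i s else 1

theorem upCost_nonneg (i h : ℕ) : ∀ L : Sh, 0 ≤ A.upCost i h L
  | .leaf => le_rfl
  | .node _ _ Y => A.step_nonneg _ _ Y

theorem tieCost_nonneg (i : ℕ) : ∀ s : Sh, 0 ≤ A.tieCost i s
  | .leaf => le_rfl
  | .node h L R => by
    classical
    rw [A.tieCost_node]
    split_ifs
    · exact tieCost_nonneg i R
    · exact A.upCost_nonneg i h L
    · exact tieCost_nonneg i L

theorem tieTot_nonneg (i : ℕ) (s : Sh) : 0 ≤ A.tieTot i s := by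
  unfold tieTot
  split_ifs
  · exact A.tieCost_nonneg i s
  · exact zero_le_one

theorem upTot_nonneg (i h : ℕ) (L : Sh) : 0 ≤ A.upTot i h L := by
  unfold upTot
  split_ifs
  · exact A.upCost_nonneg i h L
  · exact zero_le_one

end Arr

/-- The cost of the ties at the top. -/
theorem sum_upTot (k : ℕ) : ∃ D : ℝ, 0 ≤ D ∧ ∀ (K : ℕ) (A : Arr K) (i g : ℕ) (e δ : ℝ), 0 < K →
    1 ≤ i → 0 < e → 0 ≤ δ → (∀ m, 1 ≤ m → m < k → A.dsum m ≤ δ * (K : ℝ) ^ m) →
    ∑ h ∈ Finset.Ico g K, ∑ L ∈ shapes K k h, (if L.top K = h then gwt K L * A.upTot i h L else 0)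
      ≤ D * tieErr K i e δ := by
  choose c hc0 hc using card_shapes
  choose d hd0 hd using card_top
  refine ⟨∑ q ∈ Finset.Ico 1 k, (d q * c (k - q) + c q * d (k - q) + c q * c (k - q)
    + c q * (10 * c (k - q) + 3)), Finset.sum_nonneg fun q _ => ?_,
    fun K A i g e δ hK hi he hδ hsm => ?_⟩
  · have := hc0 q; have := hc0 (k - q); have := hd0 q; have := hd0 (k - q)
    positivity
  have hE := tieErr_nonneg (K := K) (i := i) he hδ
  rcases Nat.lt_or_ge k 2 with hk | hk
  · refine (Finset.sum_nonpos fun h hh => Finset.sum_nonpos fun L hL => ?_).trans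
      (mul_nonneg (Finset.sum_nonneg fun q _ => ?_) hE)
    · rw [if_neg]
      intro ht
      rw [Finset.mem_Ico] at hh
      have hs := (mem_shapes.1 hL).2
      cases L with
      | leaf => simp only [Sh.top] at ht; omega
      | node _ X Y =>
        have := X.size_pos
        have := Y.size_pos
        simp only [Sh.size] at hs
        omega
    · have := hc0 q; have := hc0 (k - q); have := hd0 q; have := hd0 (k - q)
      positivity
  have e1 : ∀ h ∈ Finset.Ico g K, ∑ L ∈ shapes K k h,
      (if L.top K = h then gwt K L * A.upTot i h L else 0)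
      = ∑ q ∈ Finset.Ico 1 k, ∑ X ∈ shapes K q (h + 1), ∑ Y ∈ shapes K (k - q) (h + 1),
          gapK K ^ (k - 1) * A.upTot i h (Sh.node h X Y) := fun h hh => by
    rw [Finset.mem_Ico] at hh
    rw [sum_shapes hk]
    refine Finset.sum_congr rfl fun q hq => ?_
    rw [Finset.sum_eq_single h]
    · refine Finset.sum_congr rfl fun X hX => Finset.sum_congr rfl fun Y hY => ?_
      rw [if_pos (show (Sh.node h X Y).top K = h from rfl)]
      congr 1
      have hv : (Sh.node h X Y).Valid K h :=
        ⟨le_rfl, hh.2, (mem_shapes.1 hX).1, (mem_shapes.1 hY).1⟩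
      have hn := hv.nodes_eq
      simp only [Sh.size, (mem_shapes.1 hX).2, (mem_shapes.1 hY).2] at hn
      rw [Finset.mem_Ico] at hq
      rw [gwt, show (Sh.node h X Y).nodes K = k - 1 by omega]
    · intro h' _ hne
      exact Finset.sum_eq_zero fun X _ => Finset.sum_eq_zero fun Y _ => if_neg hne
    · exact fun hn => absurd (Finset.mem_Ico.2 ⟨le_rfl, hh.2⟩) hn
  rw [Finset.sum_congr rfl e1, Finset.sum_comm, Finset.sum_mul]
  refine Finset.sum_le_sum fun q hq => ?_
  rw [Finset.mem_Ico] at hq
  simp only [← Finset.mul_sum]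
  have hK' : (0 : ℝ) < K := Nat.cast_pos.2 hK
  set U := (K : ℝ) ^ (q - 1)
  set V := (K : ℝ) ^ (k - q - 1)
  have hUV : (K : ℝ) ^ (k - 1) = K * (U * V) := by
    simp only [U, V]; rw [← pow_add, ← pow_succ']; congr 1; omega
  set T := fun h => ∑ X ∈ shapes K q (h + 1), ∑ Y ∈ shapes K (k - q) (h + 1),
    A.upTot i h (Sh.node h X Y)
  have hT0 : ∀ h, 0 ≤ T h := fun h =>
    Finset.sum_nonneg fun X _ => Finset.sum_nonneg fun Y _ => A.upTot_nonneg _ _ _
  have hbad : ∀ h X Y, ¬ (h + i < K ∧ h + i < X.top K ∧ h + i < Y.top K) →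
      A.upTot i h (Sh.node h X Y) = 1 := fun h X Y hn => by
    classical
    exact if_neg hn
  have hlast : ∑ h ∈ Finset.Ico (K - i) K, T h ≤ i * (c q * U * (c (k - q) * V)) := by
    refine (Finset.sum_le_card_nsmul _ _ (c q * U * (c (k - q) * V)) fun h hh => ?_).trans ?_
    · rw [Finset.mem_Ico] at hh
      simp only [T]
      rw [Finset.sum_congr rfl fun X _ => Finset.sum_congr rfl fun Y _ =>
        hbad h X Y (fun h' => by omega)]
      simp only [Finset.sum_const, nsmul_eq_mul, mul_one]
      exact mul_le_mul (hc q K _ hK) (hc _ K _ hK) (Nat.cast_nonneg _)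
        (mul_nonneg (hc0 q) (by positivity))
    · rw [Nat.card_Ico, nsmul_eq_mul]
      exact mul_le_mul_of_nonneg_right (Nat.cast_le.2 (by omega))
        (mul_nonneg (mul_nonneg (hc0 q) (by positivity)) (mul_nonneg (hc0 _) (by positivity)))
  have hnode : ∀ h ∈ Finset.range (K - i), T h
      ≤ (shapes K q (h + 1) \ shapes K q (h + 1 + i)).card * (c (k - q) * V)
        + c q * U * (shapes K (k - q) (h + 1) \ shapes K (k - q) (h + 1 + i)).card
        + c q * U * ∑ Y ∈ shapes K (k - q) (h + 1 + i), A.step i (h + i) Y := by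
    intro h hh
    rw [Finset.mem_range] at hh
    simp only [T]
    rw [← Finset.sum_sdiff (shapes_mono (Nat.le_add_right (h + 1) i))]
    have t1 : ∑ X ∈ shapes K q (h + 1) \ shapes K q (h + 1 + i), ∑ Y ∈ shapes K (k - q) (h + 1),
        A.upTot i h (Sh.node h X Y)
        ≤ (shapes K q (h + 1) \ shapes K q (h + 1 + i)).card * (c (k - q) * V) := by
      refine (Finset.sum_le_card_nsmul _ _ (c (k - q) * V) fun X hX => ?_).trans_eq (nsmul_eq_mul _ _)
      rw [Finset.mem_sdiff, mem_shapes, mem_shapes] at hX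
      rw [Finset.sum_congr rfl fun Y _ => hbad h X Y fun h' =>
        hX.2 ⟨hX.1.1.above (by omega), hX.1.2⟩]
      simpa using hc (k - q) K (h + 1) hK
    have t2 : ∀ X ∈ shapes K q (h + 1 + i), ∑ Y ∈ shapes K (k - q) (h + 1),
        A.upTot i h (Sh.node h X Y)
        ≤ (shapes K (k - q) (h + 1) \ shapes K (k - q) (h + 1 + i)).card
          + ∑ Y ∈ shapes K (k - q) (h + 1 + i), A.step i (h + i) Y := fun X hX => by
      rw [mem_shapes] at hX
      rw [← Finset.sum_sdiff (shapes_mono (Nat.le_add_right (h + 1) i))]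
      refine add_le_add ((Finset.sum_le_card_nsmul _ _ 1 fun Y hY => ?_).trans_eq (by simp))
        (Finset.sum_le_sum fun Y hY => ?_)
      · rw [Finset.mem_sdiff, mem_shapes, mem_shapes] at hY
        rw [hbad h X Y fun h' => hY.2 ⟨hY.1.1.above (by omega), hY.1.2⟩]
      · rw [mem_shapes] at hY
        have hXt := hX.1.le_top (by omega)
        have hYt := hY.1.le_top (by omega)
        classical
        exact (if_pos (show (Sh.node h X Y).UpOk K i h from ⟨by omega, by omega, by omega⟩)).le
    refine (add_le_add t1 ((Finset.sum_le_sum t2).trans ?_)).trans_eq (add_assoc _ _ _).symm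
    simp only [Finset.sum_const, nsmul_eq_mul]
    rw [← mul_add]
    exact mul_le_mul_of_nonneg_right (hc q K _ hK)
      (add_nonneg (Nat.cast_nonneg _) (Finset.sum_nonneg fun Y _ => A.step_nonneg _ _ Y))
  have hsd : ∀ m, ∑ h ∈ Finset.range (K - i),
      ((shapes K m (h + 1) \ shapes K m (h + 1 + i)).card : ℝ) ≤ d m * i * (K : ℝ) ^ (m - 1) := by
    intro m
    refine le_of_mul_le_mul_right ?_ hK'
    rw [Finset.sum_mul]
    refine (Finset.sum_le_card_nsmul _ _ _ fun h _ => hd m K (h + 1) i hK).trans ?_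
    rw [nsmul_eq_mul, Finset.card_range, mul_comm]
    exact mul_le_mul_of_nonneg_left (Nat.cast_le.2 (Nat.sub_le _ _))
      (mul_nonneg (mul_nonneg (hd0 m) (Nat.cast_nonneg _)) (by positivity))
  have hst := A.sum_step_window (fun h => hc (k - q) K h hK) (by omega) hK (W := i) (j := i)
    (i := i) le_rfl le_rfl he hδ (hsm _ (by omega) (by omega))
  rw [show (K : ℝ) ^ (k - q) = K * V by
    simp only [V]; rw [← pow_succ', Nat.sub_add_cancel (by omega : 1 ≤ k - q)]] at hst
  have htot : ∑ h ∈ Finset.Ico g K, T h ≤ K * (U * V) * ((d q * c (k - q) + c q * d (k - q)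
      + c q * c (k - q) + c q * (10 * c (k - q) + 3)) * tieErr K i e δ) := by
    refine (Finset.sum_le_sum_of_subset_of_nonneg (t := Finset.range K)
      (fun h hh => Finset.mem_range.2 (Finset.mem_Ico.1 hh).2) fun h _ _ => hT0 h).trans ?_
    rw [← Finset.sum_range_add_sum_Ico _ (Nat.sub_le K i)]
    refine (add_le_add (Finset.sum_le_sum hnode) hlast).trans ?_
    simp only [Finset.sum_add_distrib, ← Finset.mul_sum, ← Finset.sum_mul]
    have h1 := mul_le_mul_of_nonneg_right (hsd q) (mul_nonneg (hc0 (k - q)) (by positivity : 0 ≤ V))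
    have h2 := mul_le_mul_of_nonneg_left (hsd (k - q)) (mul_nonneg (hc0 q) (by positivity : 0 ≤ U))
    have h3 := mul_le_mul_of_nonneg_left hst (mul_nonneg (hc0 q) (by positivity : 0 ≤ U))
    set S := e + (δ + (i : ℝ) / K) / e
    have hS : 0 ≤ S := by positivity
    have hq0 := hd0 q; have hq1 := hd0 (k - q); have hq2 := hc0 q; have hq3 := hc0 (k - q)
    have e3 : tieErr K i e δ = S + (i : ℝ) / K := rfl
    have h4 : 0 ≤ K * (U * V) * ((d q * c (k - q) + c q * d (k - q) + c q * c (k - q)) * S
        + c q * (10 * c (k - q) + 3) * (i / K)) := by positivity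
    have e4 : ∀ x : ℝ, x * i = K * (x * (i / K)) := fun x => by field_simp
    rw [e3]
    linarith [e4 (d q * c (k - q) * (U * V)), e4 (c q * d (k - q) * (U * V)),
      e4 (c q * c (k - q) * (U * V))]
  calc gapK K ^ (k - 1) * ∑ h ∈ Finset.Ico g K, T h
      ≤ gapK K ^ (k - 1) * (K : ℝ) ^ (k - 1) * ((d q * c (k - q) + c q * d (k - q)
          + c q * c (k - q) + c q * (10 * c (k - q) + 3)) * tieErr K i e δ) := by
        rw [mul_assoc, hUV]
        exact mul_le_mul_of_nonneg_left htot (pow_nonneg (gapK_nonneg K) _)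
    _ ≤ _ := by
        refine mul_le_of_le_one_left ?_ (gapK_pow_le K _)
        have := hd0 q; have := hd0 (k - q); have := hc0 q; have := hc0 (k - q)
        positivity

open Classical in
/-- The cost of the first ties. -/
theorem sum_tieTot (n : ℕ) : ∃ D : ℝ, 0 ≤ D ∧ ∀ (K : ℕ) (A : Arr K) (i g : ℕ) (e δ : ℝ), 0 < K →
    1 ≤ i → 0 < e → 0 ≤ δ → (∀ m, 1 ≤ m → m < n → A.dsum m ≤ δ * (K : ℝ) ^ m) →
    ∑ s ∈ gshapes K n g, (if s.Tied K then gwt K s * A.tieTot i s else 0)
      ≤ D * tieErr K i e δ := by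
  induction n using Nat.strong_induction_on with
  | _ n ih =>
    rcases Nat.lt_or_ge n 2 with hn | hn
    · refine ⟨0, le_rfl, fun K A i g e δ _ _ _ _ _ => ?_⟩
      rw [zero_mul]
      exact Finset.sum_nonpos fun s hs => by rw [if_neg (not_tied_small hn hs)]
    choose! D hD0 hD using ih
    choose C hC0 hC using sum_gwt
    choose D' hD0' hD' using sum_upTot
    refine ⟨∑ k ∈ Finset.Ico 1 n, (2 * C k * D (n - k) + D' k * C (n - k) + 2 * D k * C (n - k)),
      Finset.sum_nonneg fun k hk => ?_, fun K A i g e δ hK hi he hδ hsm => ?_⟩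
    · rw [Finset.mem_Ico] at hk
      have := hC0 k; have := hC0 (n - k); have := hD0 k hk.2; have := hD0 (n - k) (by omega)
      have := hD0' k
      positivity
    have hE := tieErr_nonneg (K := K) (i := i) he hδ
    rw [sum_gshapes hn, Finset.sum_mul]
    refine Finset.sum_le_sum fun k hk => ?_
    rw [Finset.mem_Ico] at hk
    set P := fun (h : ℕ) (L : Sh) => tieW K h L * gwt K L
    set FR := fun R : Sh => if R.Tied K then gwt K R * A.tieTot i R else 0
    set FL := fun L : Sh => if L.Tied K then gwt K L * A.tieTot i L else 0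
    set FT := fun (h : ℕ) (L : Sh) =>
      if L.top K = h ∧ ¬ L.Tied K then gwt K L * A.upTot i h L else 0
    have hF0 : ∀ s, 0 ≤ FR s := fun s => by
      simp only [FR]
      split_ifs <;> simp [mul_nonneg, gwt_nonneg, A.tieTot_nonneg]
    have hT0 : ∀ h L, 0 ≤ FT h L := fun h L => by
      simp only [FT]
      split_ifs <;> simp [mul_nonneg, gwt_nonneg, A.upTot_nonneg]
    have hpt : ∀ h ∈ Finset.Ico g K, ∀ L ∈ gshapes K k h, ∀ R ∈ gshapes K (n - k) (h + 1),
        (if (Sh.node h L R).Tied K then gwt K (Sh.node h L R) * A.tieTot i (Sh.node h L R) else 0)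
          ≤ P h L * FR R + FT h L * gwt K R + tieW K h L * FL L * gwt K R := by
      intro h hh L hL R hR
      rw [Finset.mem_Ico] at hh
      have h0 : 0 ≤ P h L * FR R := mul_nonneg (mul_nonneg (tieW_nonneg h L) (gwt_nonneg L)) (hF0 R)
      have h1 : 0 ≤ FT h L * gwt K R := mul_nonneg (hT0 h L) (gwt_nonneg R)
      have h2 : 0 ≤ tieW K h L * FL L * gwt K R :=
        mul_nonneg (mul_nonneg (tieW_nonneg h L) (hF0 L)) (gwt_nonneg R)
      split_ifs with ht
      · have hv : (Sh.node h L R).GValid K g :=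
          ⟨hh.1, hh.2, (mem_gshapes.1 hL).1, (mem_gshapes.1 hR).1⟩
        rw [gwt_node]
        simp only [Arr.tieTot, A.tieCost_node, Sh.ok_node]
        by_cases hr : R.Tied K
        · have e : FR R = gwt K R * A.tieTot i R := if_pos hr
          simp only [if_pos hr]
          simp only [P, e, Arr.tieTot] at h0 ⊢
          linarith
        by_cases hl : L.top K = h ∧ ¬ L.Tied K
        · have e : FT h L = gwt K L * A.upTot i h L := if_pos hl
          have e' : tieW K h L = 1 := if_pos hl.1
          simp only [if_neg hr, if_pos hl]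
          simp only [e, e', one_mul, Arr.upTot] at h1 h2 ⊢
          linarith
        · have e : FL L = gwt K L * A.tieTot i L := if_pos (hv.tie_left ht hr hl)
          simp only [if_neg hr, if_neg hl]
          simp only [e, Arr.tieTot] at h2 ⊢
          linarith
      · linarith
    refine (Finset.sum_le_sum fun h hh => Finset.sum_le_sum fun L hL =>
      Finset.sum_le_sum (hpt h hh L hL)).trans ?_
    simp only [Finset.sum_add_distrib, ← Finset.mul_sum]
    have hn' : n - k < n := by omega
    have T1 : ∑ h ∈ Finset.Ico g K, ∑ L ∈ gshapes K k h,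
        P h L * ∑ R ∈ gshapes K (n - k) (h + 1), FR R
        ≤ 2 * C k * D (n - k) * tieErr K i e δ := by
      refine (Finset.sum_le_sum fun h _ => Finset.sum_le_sum fun L _ => ?_).trans
        ((sum_left_le (F := fun L => gwt K L * (D (n - k) * tieErr K i e δ)) fun L _ =>
          mul_nonneg (gwt_nonneg L) (mul_nonneg (hD0 _ hn') hE)).trans ?_)
      · simp only [P]
        rw [mul_assoc]
        exact mul_le_mul_of_nonneg_left (mul_le_mul_of_nonneg_left
          (hD _ hn' K A i (h + 1) e δ hK hi he hδ fun m h1 h2 => hsm m h1 (h2.trans hn'))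
            (gwt_nonneg L)) (tieW_nonneg h L)
      · rw [← Finset.sum_mul]
        have := mul_le_mul_of_nonneg_right (hC k K g) (mul_nonneg (hD0 _ hn') hE)
        linarith
    have T3 : ∑ h ∈ Finset.Ico g K, ∑ L ∈ gshapes K k h,
        tieW K h L * FL L * ∑ R ∈ gshapes K (n - k) (h + 1), gwt K R
        ≤ 2 * D k * C (n - k) * tieErr K i e δ := by
      refine (Finset.sum_le_sum fun h _ => Finset.sum_le_sum fun L _ => ?_).trans
        ((sum_left_le (F := fun L => FL L * C (n - k)) fun L _ =>
          mul_nonneg (hF0 L) (hC0 _)).trans ?_)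
      · rw [mul_assoc]
        exact mul_le_mul_of_nonneg_left (mul_le_mul_of_nonneg_left (hC _ K _) (hF0 L))
          (tieW_nonneg h L)
      · rw [← Finset.sum_mul]
        have := mul_le_mul_of_nonneg_right
          (hD k hk.2 K A i g e δ hK hi he hδ fun m h1 h2 => hsm m h1 (h2.trans hk.2)) (hC0 (n - k))
        simp only [FL]
        linarith
    have T2 : ∑ h ∈ Finset.Ico g K, ∑ L ∈ gshapes K k h,
        FT h L * ∑ R ∈ gshapes K (n - k) (h + 1), gwt K R
        ≤ D' k * C (n - k) * tieErr K i e δ := by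
      have key : ∀ h, ∑ L ∈ gshapes K k h, FT h L
          ≤ ∑ L ∈ shapes K k h, (if L.top K = h then gwt K L * A.upTot i h L else 0) := fun h => by
        simp only [FT]
        rw [← Finset.sum_filter, ← Finset.sum_filter]
        refine Finset.sum_le_sum_of_subset_of_nonneg (fun L hL => ?_)
          fun L _ _ => mul_nonneg (gwt_nonneg L) (A.upTot_nonneg i h L)
        simp only [Finset.mem_filter, mem_gshapes, mem_shapes] at hL ⊢
        exact ⟨⟨hL.1.1.not_tied hL.2.2, hL.1.2⟩, hL.2.1⟩
      refine (Finset.sum_le_sum fun h _ => Finset.sum_le_sum fun L _ =>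
        mul_le_mul_of_nonneg_left (hC _ K _) (hT0 h L)).trans ?_
      simp only [← Finset.sum_mul]
      have := mul_le_mul_of_nonneg_right ((Finset.sum_le_sum fun h _ => key h).trans
        (hD' k K A i g e δ hK hi he hδ fun m h1 h2 => hsm m h1 (h2.trans hk.2))) (hC0 (n - k))
      linarith
    linarith

open Classical in
/-- Shapes with a given number of ties fluctuate little on average. -/
theorem gfluct_small_ties (C : ℕ → ℝ) (t : ℕ) : ∀ n : ℕ, 1 ≤ n → ∀ ε : ℝ, 0 < ε →
    ∀ᶠ K in atTop, ∀ A : Arr K, A.Tel C →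
      ∑ s ∈ gshapes K n 0, (if s.nodes K + t + 1 = n then gwt K s * A.gfluct s else 0) ≤ ε := by
  induction t with
  | zero =>
    intro n hn ε hε
    obtain ⟨K0, hK0⟩ := decoupling C n hn ε hε
    filter_upwards [eventually_ge_atTop K0] with K hK A hA
    rw [← Finset.sum_filter]
    refine (Finset.sum_le_sum fun s hs => ?_).trans ((Finset.sum_le_sum_of_subset_of_nonneg
      (t := shapes K n 0) (f := fun s => gapK K ^ (n - 1) * A.fluctuation s) (fun s hs => ?_)
      fun s _ _ => mul_nonneg (pow_nonneg (gapK_nonneg K) _) (A.nrm_nonneg _)).trans ?_)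
    · rw [Finset.mem_filter, mem_gshapes] at hs
      have hv := hs.1.1.valid (by omega)
      rw [gwt, show s.nodes K = n - 1 by omega]
      refine le_of_eq ?_
      congr 1
      simp only [Arr.gfluct, gtup_eq_tup s _ hv]
      rfl
    · rw [Finset.mem_filter, mem_gshapes] at hs
      rw [mem_shapes]
      exact ⟨hs.1.1.valid (by omega), hs.1.2⟩
    · rw [← Finset.mul_sum]
      refine (mul_le_mul_of_nonneg_left (hK0 K hK A hA) (pow_nonneg (gapK_nonneg K) _)).trans ?_
      rw [mul_left_comm]
      exact mul_le_of_le_one_right hε.le (gapK_pow_le K _)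
  | succ t ih =>
    intro n hn ε hε
    obtain ⟨D, hD0, hD⟩ := sum_tieTot n
    set e := ε / (24 * (D + 1))
    have he : 0 < e := by positivity
    set ζ := e ^ 2 / (1 + e)
    have hζ : 0 < ζ := by positivity
    set ε' := ε * ζ / (8 * n)
    have hn' : (0 : ℝ) < n := Nat.cast_pos.2 hn
    have hε' : 0 < ε' := by positivity
    have hev : ∀ᶠ K in atTop, ∀ m ∈ Finset.Ico 1 n, ∀ A : Arr K, A.Tel C →
        A.dsum m ≤ e ^ 2 * (K : ℝ) ^ m :=
      (Finset.eventually_all (Finset.Ico 1 n)).2 fun m hm =>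
        Arr.dsum_small C m (Finset.mem_Ico.1 hm).1 _ (by positivity)
    filter_upwards [hev, ih n hn ε' hε', eventually_gt_atTop 0,
      eventually_ge_atTop ⌈1 / ζ⌉₊] with K hsm hK' hK0 hKζ A hA
    have hK : (0 : ℝ) < K := Nat.cast_pos.2 hK0
    have hζK : 1 ≤ ζ * K := by
      have := (Nat.le_ceil (1 / ζ)).trans (Nat.cast_le.2 hKζ)
      rw [div_le_iff₀ hζ] at this
      linarith
    set w := ⌈ζ * K⌉₊
    have hw1 : ζ * K ≤ w := Nat.le_ceil _
    have hw2 : (w : ℝ) ≤ 2 * (ζ * K) := by
      have := Nat.ceil_lt_add_one (show 0 ≤ ζ * K by positivity)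
      linarith
    have hw0 : (0 : ℝ) < w := by linarith
    set G := gshapes K n 0
    set P := fun (m : ℕ) (s : Sh) => if s.nodes K + m + 1 = n then gwt K s * A.gfluct s else 0
    set a := fun (i : ℕ) (s : Sh) => if s.Tied K then gwt K s * A.tieTot i s else 0
    set b := fun (i : ℕ) (s : Sh) => if s.Tied K ∧ s.Ok K i then P t (s.res K i) else 0
    have hP0 : ∀ m s, 0 ≤ P m s := fun m s => by
      simp only [P]
      split_ifs
      · exact mul_nonneg (gwt_nonneg s) (A.nrm_nonneg _)
      · exact le_rfl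
    have ha0 : ∀ i s, 0 ≤ a i s := fun i s => by
      simp only [a]
      split_ifs
      · exact mul_nonneg (gwt_nonneg s) (A.tieTot_nonneg i s)
      · exact le_rfl
    have hg1 : (K : ℝ) + 1 ≤ 2 * K := by
      have : (1 : ℝ) ≤ K := Nat.one_le_cast.2 hK0
      linarith
    have hpt : ∀ i ∈ Finset.Icc 1 w, ∀ s ∈ G,
        P (t + 1) s ≤ 2 * a i s + 2 * K * b i s := by
      intro i hi s hs
      rw [Finset.mem_Icc] at hi
      rw [mem_gshapes] at hs
      have hb0 : 0 ≤ b i s := by
        simp only [b]; split_ifs <;> simp [hP0]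
      simp only [P]
      split_ifs with hnd
      · have ht : s.Tied K := by unfold Sh.Tied; omega
        have ea : a i s = gwt K s * A.tieTot i s := if_pos ht
        by_cases hok : s.Ok K i
        · obtain ⟨-, e2⟩ := Sh.res_spec hi.1 hs.1 ht hok
          have eb : b i s = gwt K (s.res K i) * A.gfluct (s.res K i) := by
            simp only [b, P]
            rw [if_pos ⟨ht, hok⟩, if_pos (by omega)]
          have et : A.tieTot i s = A.tieCost i s := if_pos hok
          have h1 := A.gfluct_res hi.1 hs.1 ht hok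
          have ew : gwt K s = gwt K (s.res K i) * ((K : ℝ) + 1) := by
            unfold gwt
            rw [e2, pow_succ, mul_assoc, gapK, one_div, inv_mul_cancel₀ (by positivity), mul_one]
          have h2 := mul_le_mul_of_nonneg_left h1 (gwt_nonneg (K := K) s)
          have h3 : gwt K s * A.gfluct (s.res K i) ≤ 2 * K * b i s := by
            rw [eb, ew]
            have := mul_le_mul_of_nonneg_left hg1
              (mul_nonneg (gwt_nonneg (K := K) (s.res K i)) (A.nrm_nonneg (A.centred (gtup 1 (s.res K i) fun _ => 0))))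
            simp only [Arr.gfluct]
            linarith
          rw [ea, et]
          linarith
        · have et : A.tieTot i s = 1 := if_neg hok
          have h2 := mul_le_mul_of_nonneg_left (A.gfluct_le_two s) (gwt_nonneg (K := K) s)
          have : 0 ≤ 2 * (K : ℝ) * b i s := by positivity
          rw [ea, et]
          linarith
      · have := ha0 i s
        positivity
    have hE : ∀ i ∈ Finset.Icc 1 w, ∑ s ∈ G, a i s ≤ D * (6 * e) := by
      intro i hi
      rw [Finset.mem_Icc] at hi
      refine (hD K A i 0 e (e ^ 2) hK0 hi.1 he (by positivity) fun m h1 h2 =>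
        hsm m (Finset.mem_Ico.2 ⟨h1, h2⟩) A hA).trans (mul_le_mul_of_nonneg_left ?_ hD0)
      have hiK : (i : ℝ) / K ≤ 2 * ζ := by
        rw [div_le_iff₀ hK]
        have : (i : ℝ) ≤ w := Nat.cast_le.2 hi.2
        linarith
      have z1 : ζ ≤ e ^ 2 := div_le_self (by positivity) (by linarith)
      have z2 : ζ ≤ e := by
        simp only [ζ]
        rw [div_le_iff₀ (by positivity)]
        nlinarith
      have h2 : (e ^ 2 + (i : ℝ) / K) / e ≤ 3 * e := by
        rw [div_le_iff₀ he]
        linarith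
      unfold tieErr
      linarith
    have hB : ∑ i ∈ Finset.Icc 1 w, ∑ s ∈ G, b i s ≤ n * ε' := by
      refine (sum_res_le n 0 w (P t) (hP0 t)).trans ?_
      refine mul_le_mul (Nat.cast_le.2 (Nat.sub_le n 1)) (hK' A hA)
        (Finset.sum_nonneg fun s _ => hP0 t s) hn'.le
    have hS := Finset.sum_le_sum fun i hi => Finset.sum_le_sum (hpt i hi)
    simp only [Finset.sum_const, Nat.card_Icc, Nat.add_sub_cancel, nsmul_eq_mul,
      Finset.sum_add_distrib, ← Finset.mul_sum] at hS
    have hA' : ∑ i ∈ Finset.Icc 1 w, ∑ s ∈ G, a i s ≤ w * (D * (6 * e)) :=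
      (Finset.sum_le_card_nsmul _ _ _ hE).trans_eq (by simp [nsmul_eq_mul])
    show ∑ s ∈ G, P (t + 1) s ≤ ε
    refine le_of_mul_le_mul_left (hS.trans ?_) hw0
    have h1 : e * (24 * (D + 1)) = ε := div_mul_cancel₀ _ (by positivity)
    have h2 : ε' * (8 * n) = ε * ζ := div_mul_cancel₀ _ (by positivity)
    have h3 := mul_le_mul_of_nonneg_left hB (by positivity : (0 : ℝ) ≤ 2 * K)
    have h4 := mul_le_mul_of_nonneg_right hw1 hε.le
    have h5 : 0 ≤ (w : ℝ) * e := by positivity
    nlinarith

/-- Shapes with ties fluctuate little on average. -/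
theorem gfluct_small (C : ℕ → ℝ) {n : ℕ} (hn : 1 ≤ n) {ε : ℝ} (hε : 0 < ε) :
    ∀ᶠ K in atTop, ∀ A : Arr K, A.Tel C → ∑ s ∈ gshapes K n 0, gwt K s * A.gfluct s ≤ ε := by
  classical
  have hev : ∀ᶠ K in atTop, ∀ t ∈ Finset.range n, ∀ A : Arr K, A.Tel C →
      ∑ s ∈ gshapes K n 0, (if s.nodes K + t + 1 = n then gwt K s * A.gfluct s else 0) ≤ ε / n :=
    (Finset.eventually_all (Finset.range n)).2 fun t _ =>
      gfluct_small_ties C t n hn _ (by positivity)
  filter_upwards [hev] with K hK A hA
  have e : ∑ s ∈ gshapes K n 0, gwt K s * A.gfluct s = ∑ t ∈ Finset.range n,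
      ∑ s ∈ gshapes K n 0, (if s.nodes K + t + 1 = n then gwt K s * A.gfluct s else 0) := by
    rw [Finset.sum_comm]
    refine Finset.sum_congr rfl fun s hs => ?_
    rw [mem_gshapes] at hs
    have := hs.1.nodes_lt
    rw [Finset.sum_eq_single (n - 1 - s.nodes K)]
    · rw [if_pos (by omega)]
    · intro t ht hne
      rw [if_neg (by omega)]
    · intro hne
      exact absurd (Finset.mem_range.2 (by omega)) hne
  rw [e]
  refine (Finset.sum_le_card_nsmul _ _ _ fun t ht => hK t ht A hA).trans_eq ?_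
  rw [Finset.card_range, nsmul_eq_mul, mul_div_cancel₀ _ (by positivity)]

end Vale.Agent.P168
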